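import Crest.Agent.X212.Cut21.Cov
import Crest.Agent.X212.Ind26.Cov

/-! CUT1 (helper36): closed surfaces bound in the cut manifold. -/

set_option autoImplicit false
set_option linter.unusedSectionVars false

namespace Crest.Agent.X212.Alg36

open Finset Classical
open Crest.Agent.X212.Hp13
open Crest.Agent.X212.Cut21 (pot pot_ge pot_le pot_sub NC IsCut Cut1Stmt)
open Crest.Agent.X212.Ind26 (Lift Cov)

variable {G : Type} [AddCommGroup G]

theorem pot_pot {P : Type} [PartialOrder P] {A : Set P} {z : P → P → G} (hz : Coc A z) {a b x : P}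
    (ha : a ∈ A) (hb : b ∈ A) (h1 : Cm a b) (h2 : Cm a x) (h3 : Cm b x) :
    pot z a x = pot z a b + pot z b x := by
  rcases h3 with h | h
  · rw [pot_ge z h, pot_sub hz ha h1 h2 h]; abel
  · rw [pot_le hz hb h, pot_sub hz ha h2 h1 h]; abel

variable {s s' : St} {π : s'.P → s.P} {z : s.P → s.P → ℤ}

/-- on the same sheet -/
def Sh (π : s'.P → s.P) (x y : s.P) : Prop :=
  ∃ b ∈ s'.A, ∃ b' ∈ s'.A, π b = x ∧ π b' = y ∧ Cm b b'

theorem Sh.symm {x y : s.P} (h : Sh π x y) : Sh π y x :=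
  let ⟨b, hb, b', hb', e, e', c⟩ := h; ⟨b', hb', b, hb, e', e, c.symm⟩

theorem cm_lift (h : Lift s s' π) {b q r : s'.P} (hb : b ∈ s'.A) (hq : Cm b q) (hr : Cm b r)
    (c : Cm (π q) (π r)) : Cm q r := c.imp (h.refl b hb q r hq hr) (h.refl b hb r q hr hq)

theorem Sh.trans (h : Lift s s' π) {x y t : s.P} (h1 : Sh π x y) (h2 : Sh π y t) (c : Cm x t) :
    Sh π x t := by
  obtain ⟨b, hb, b', hb', rfl, rfl, c1⟩ := h1
  obtain ⟨d, hd, d', hd', e, rfl, c2⟩ := h2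
  obtain rfl := h.bij.injOn hd hb' e
  exact ⟨b, hb, d', hd', rfl, rfl, cm_lift h hd c1.symm c2 c⟩

theorem sh_iff (h : Lift s s' π) {b q : s'.P} (hb : b ∈ s'.A) (c : Cm b q) :
    Sh π (π b) (π q) ↔ q ∈ s'.A := by
  refine ⟨fun ⟨d, hd, d', hd', e, e', k⟩ => ?_, fun hq => ⟨b, hb, q, hq, rfl, rfl, c⟩⟩
  obtain rfl := h.bij.injOn hd hb e
  exact h.inj hb k c e' ▸ hd'

/-- push a closed cocycle down -/
theorem exists_push (h : Lift s s' π) {w : s'.P → s'.P → G} (hw : Coc s'.A w) (h0 : Cl0 s'.A w) :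
    ∃ ρ : s.P → s.P → G, (∀ x y, x ∉ s.A → ρ x y = 0) ∧
      (∀ b ∈ s'.A, ∀ q, Cm b q → ρ (π b) (π q) = pot w b q) ∧
      (∀ x y t, Cm x y → Cm x t → Cm y t → ¬ Sh π x y → ¬ Sh π x t → ρ x y = ρ x t) ∧
      ∀ x y t, Sh π x y → Cm x t → Cm y t → ρ x t = ρ x y + ρ y t := by
  have k : ∀ x y, ∃ r : G, (x ∉ s.A → r = 0) ∧
      ∀ b ∈ s'.A, ∀ q, Cm b q → π b = x → π q = y → r = pot w b q := fun x y => by
    by_cases e : ∃ b ∈ s'.A, ∃ q, Cm b q ∧ π b = x ∧ π q = y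
    · obtain ⟨b, hb, q, c, rfl, rfl⟩ := e
      refine ⟨pot w b q, fun k => absurd (h.mem hb) k, fun d hd r c' e1 e2 => ?_⟩
      obtain rfl := h.bij.injOn hd hb e1
      rw [h.inj hb c' c e2]
    · exact ⟨0, fun _ => rfl, fun b hb q c e1 e2 => absurd ⟨b, hb, q, c, e1, e2⟩ e⟩
  choose ρ h1 h2 using k
  have h3 : ∀ b ∈ s'.A, ∀ q, Cm b q → ρ (π b) (π q) = pot w b q :=
    fun b hb q c => h2 _ _ b hb q c rfl rfl
  refine ⟨ρ, h1, h3, fun x y t c1 c2 c3 n1 n2 => ?_, ?_⟩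
  · by_cases hx : x ∈ s.A
    swap
    · rw [h1 _ _ hx, h1 _ _ hx]
    obtain ⟨b, hb, rfl⟩ := h.exA hx
    obtain ⟨q, cq, rfl⟩ := h.ex hb c1
    obtain ⟨r, cr, rfl⟩ := h.ex hb c2
    rw [sh_iff h hb cq] at n1
    rw [sh_iff h hb cr] at n2
    rw [h3 b hb q cq, h3 b hb r cr]
    rcases cm_lift h hb cq cr c3 with k | k
    · exact (sub_eq_zero.1 ((pot_sub hw hb cq cr k).symm.trans
        (h0 q r ⟨k, b, hb, cq, cr⟩ n1 n2))).symm
    · exact sub_eq_zero.1 ((pot_sub hw hb cr cq k).symm.trans (h0 r q ⟨k, b, hb, cr, cq⟩ n2 n1))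
  · rintro _ _ t ⟨b, hb, b', hb', rfl, rfl, c⟩ c1 c2
    obtain ⟨r, cr, rfl⟩ := h.ex hb c1
    have c3 := cm_lift h hb c cr c2
    rw [h3 b hb r cr, h3 b hb b' c, h3 b' hb' r c3, pot_pot hw hb hb' c cr c3]

theorem not_sh (h : Cov s s' z π) {x y : s.P} (hxy : x ≤ y) (h0 : 0 < z x y) : ¬ Sh π x y := by
  rintro ⟨b, hb, b', hb', rfl, rfl, c⟩
  exact h0.ne' (h.zero hb hb' (h.refl b hb b b' Cm.rfl c hxy))

/-- `Bnd` passes to the cut along a surface without closed component -/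
theorem Bnd.cov (h : Cov s s' z π) (hz : Coc s.A z) (hm : Mono s.A z) (hn : NC s.A z)
    (hB : Bnd G s.A) : Bnd G s'.A := by
  intro w hw h0
  have hl := h.toLift
  obtain ⟨ρ, r0, r1, r2, r3⟩ := exists_push hl hw h0
  let W : s.P → s.P → G := fun x y => if Sh π x y then ρ x y else ρ x y - ρ y x
  have W1 : ∀ x y, Sh π x y → W x y = ρ x y := fun x y k => if_pos k
  have W2 : ∀ x y, ¬ Sh π x y → W x y = ρ x y - ρ y x := fun x y k => if_neg k
  have add : ∀ x y t, Cm x y → Cm y t → Cm x t → W x t = W x y + W y t := by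
    intro x y t c1 c2 c3
    by_cases a : Sh π x y <;> by_cases b : Sh π y t
    · rw [W1 _ _ a, W1 _ _ b, W1 _ _ (a.trans hl b c3), r3 _ _ _ a c3 c2]
    · have c : ¬ Sh π x t := fun k => b (a.symm.trans hl k c2)
      rw [W1 _ _ a, W2 _ _ b, W2 _ _ c, r3 _ _ _ a c3 c2,
        r2 t x y c3.symm c2.symm c1 (fun k => c k.symm) fun k => b k.symm]
      abel
    · have c : ¬ Sh π x t := fun k => a (k.trans hl b.symm c1)
      rw [W2 _ _ a, W1 _ _ b, W2 _ _ c, r3 _ _ _ b c1.symm c3.symm, r2 x y t c1 c3 c2 a c]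
      abel
    · have e := r2 y x t c1.symm c2 c3 (fun k => a k.symm) b
      by_cases c : Sh π x t
      · rw [W2 _ _ a, W2 _ _ b, W1 _ _ c, r3 _ _ _ c c1 c2.symm, e]; abel
      · rw [W2 _ _ a, W2 _ _ b, W2 _ _ c, e, r2 x y t c1 c3 c2 a c,
          r2 t x y c3.symm c2.symm c1 (fun k => c k.symm) fun k => b k.symm]
        abel
  obtain ⟨g, g0, hg⟩ := hB W (fun _ _ x y t h1 h2 _ _ _ =>
    add x y t (Or.inl h1) (Or.inl h2) (Or.inl (h1.trans h2))) fun x y _ hx hy => by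
      rw [W2 _ _ fun ⟨b, hb, _, _, e, _⟩ => hx (e ▸ hl.mem hb), r0 _ _ hx, r0 _ _ hy, sub_self]
  simp only [zero_add] at hg
  have self : ∀ x, W x x = 0 := fun x => by simpa using add x x x Cm.rfl Cm.rfl Cm.rfl
  have hg' : ∀ x y, Dp s.A x y → W x y = g y - g x ∧ W y x = g x - g y := fun x y k => by
    have e := add x y x (Or.inl k.1) (Or.inr k.1) Cm.rfl
    rw [self, hg x y k] at e
    exact ⟨hg x y k, by rw [eq_neg_of_add_eq_zero_right e.symm, cb, neg_sub]⟩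
  have sym : ∀ x y, Dp s.A x y → ¬ Sh π x y → g x + ρ x y = g y + ρ y x := fun x y k n => by
    rw [eq_add_of_sub_eq ((W2 _ _ n).symm.trans (hg' x y k).1)]; abel
  have key : ∀ x y, Dp s.A x y → 0 < z x y → g x + ρ x y = 0 := fun x y k hp => by
    refine hn.ind hz hm (G := fun x y _ => g x + ρ x y = 0) (fun x y _ _ hx _ _ _ => ?_)
      (fun x y t _ T k0 k1 => ?_) (fun x y t _ T k0 k1 => ?_) k le_rfl hp
    · rw [g0 x hx, r0 _ _ hx, add_zero]
    · have := hm _ _ T.d23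
      rw [r2 x y t (Or.inl T.1) (Or.inl T.d13.1) (Or.inl T.2.1) (not_sh h T.1 (by omega))
        (not_sh h T.d13.1 (by rw [T.add hz]; omega))]
    · have := hm _ _ T.d12
      have n1 := not_sh h T.2.1 (show 0 < z y t by omega)
      have n2 := not_sh h T.d13.1 (show 0 < z x t by rw [T.add hz]; omega)
      rw [sym _ _ T.d23 n1, sym _ _ T.d13 n2, r2 t y x (Or.inr T.2.1) (Or.inr T.d13.1)
        (Or.inr T.1) (fun k => n1 k.symm) fun k => n2 k.symm]
  have fin : ∀ b ∈ s'.A, ∀ q, Cm b q →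
      pot w b q = (if q ∈ s'.A then g (π q) else 0) - g (π b) := fun b hb q c => by
    have hu := hl.mem hb
    have e : W (π b) (π q) = g (π q) - g (π b) := by
      rcases c with c | c
      exacts [(hg' _ _ (Dp.of_left hu (hl.mon c))).1, (hg' _ _ (Dp.of_right hu (hl.mon c))).2]
    rw [← r1 b hb q c]
    split_ifs with hq
    · rw [← W1 _ _ ((sh_iff hl hb c).2 hq), e]
    have n := mt (sh_iff hl hb c).1 hq
    by_cases hv : π q ∈ s.A
    · rw [zero_sub, eq_neg_iff_add_eq_zero, add_comm]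
      rcases c with c | c
      · have d := Dp.of_left hu (hl.mon c)
        exact key _ _ d (lt_of_le_of_ne (hm _ _ d) fun k => hq ((h.up b hb q c).2 ⟨hv, k.symm⟩))
      · have d := Dp.of_right hu (hl.mon c)
        rw [← sym _ _ d fun k => n k.symm]
        exact key _ _ d (lt_of_le_of_ne (hm _ _ d) fun k => hq ((h.dn b hb q c).2 ⟨hv, k.symm⟩))
    · rw [W2 _ _ n, r0 _ _ hv, g0 _ hv, sub_zero] at e
      exact e
  refine ⟨fun q => if q ∈ s'.A then g (π q) else 0, fun q hq => if_neg hq, ?_⟩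
  rintro q r ⟨k, b, hb, c1, c2⟩
  rw [pot_sub hw hb c1 c2 k, fin b hb q c1, fin b hb r c2, zero_add, cb]
  abel

/-- GOOD-CUT, part 1 -/
theorem cut1Stmt : Cut1Stmt := fun _ _ _ _ _ hs hz hm hn h =>
  ⟨h.cov.conv hs.conv hz hm, h.cov.toLift.mf hs.mf, Bnd.cov h.cov hz hm hn hs.bnd,
    Bnd.cov h.cov hz hm hn hs.bnd2, h.cov.toLift.ee_eq, h.cov.toLift.esc⟩

end Crest.Agent.X212.Alg36
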