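import Crest.Agent.X212.Alg36.Hp2

/-! ALG (helper36) on `Hp13/Defs`: Euler characteristic of the boundary,
`chi R₋ + chi R₊ = 2 eu A`. -/

set_option autoImplicit false
set_option linter.unusedSectionVars false

namespace Crest.Agent.X212.Alg36

open Finset Classical
open Crest.Agent.X212.Hp13

variable {P : Type} [PartialOrder P] [Fintype P] {A : Set P} {d : ℕ}

/-- the chain lies in `S`. -/
noncomputable def iIn (S : Set P) (e : Ch P) : ℤ := if ∀ x ∈ e.1, x ∈ S then 1 else 0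

/-- the chain meets `S`. -/
noncomputable def iMt (S : Set P) (e : Ch P) : ℤ := if Mt S e then 1 else 0

theorem iMt_eq (S : Set P) (e : Ch P) : iMt S e = 1 - iIn Sᶜ e := by
  unfold iMt iIn
  by_cases h : Mt S e
  · rw [if_pos h, if_neg]
    · simp
    · obtain ⟨a, ha, hs⟩ := h
      exact fun h' => h' a ha hs
  · rw [if_neg h, if_pos]
    · simp
    · exact fun x hx hs => h ⟨x, hx, hs⟩

theorem iIn_inter (S T : Set P) (e : Ch P) : iIn (S ∩ T) e = iIn S e * iIn T e := by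
  unfold iIn
  by_cases h1 : ∀ x ∈ e.1, x ∈ S
  · by_cases h2 : ∀ x ∈ e.1, x ∈ T
    · rw [if_pos h1, if_pos h2, if_pos fun x hx => ⟨h1 x hx, h2 x hx⟩, one_mul]
    · rw [if_neg h2, if_neg fun h => h2 fun x hx => (h x hx).2, mul_zero]
  · rw [if_neg h1, if_neg fun h => h1 fun x hx => (h x hx).1, zero_mul]

theorem iMt_of {S : Set P} {e : Ch P} (h : Mt S e) : iMt S e = 1 := if_pos h

theorem iMt_not {S : Set P} {e : Ch P} (h : ¬ Mt S e) : iMt S e = 0 := if_neg h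

theorem sum_iIn (c : Ch P) (S : Set P) :
    ∑ e ∈ univ.filter (· ≤ c), e.sg * iIn S e = -iMt S c := by
  by_cases h : Mt S c
  · obtain ⟨a, ha, hs⟩ := h
    rw [iMt_of ⟨a, ha, hs⟩, ← sum_faces (c.sub (c.1.filter (· ∈ S)) ⟨a, mem_filter.2 ⟨ha, hs⟩⟩
      (filter_subset _ _)), sum_filter, sum_filter]
    refine sum_congr rfl fun e _ => ?_
    unfold iIn
    by_cases h1 : e ≤ c
    · by_cases h2 : ∀ x ∈ e.1, x ∈ S
      · rw [if_pos h1, if_pos h2, if_pos, mul_one]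
        exact fun x hx => mem_filter.2 ⟨h1 hx, h2 x hx⟩
      · rw [if_pos h1, if_neg h2, if_neg, mul_zero]
        exact fun h3 => h2 fun x hx => (mem_filter.1 (h3 hx)).2
    · rw [if_neg h1, if_neg]
      exact fun h3 => h1 fun x hx => (mem_filter.1 (h3 hx)).1
  · rw [iMt_not h, neg_zero]
    refine sum_eq_zero fun e he => ?_
    unfold iIn
    rw [if_neg, mul_zero]
    exact fun h2 => h ⟨e.top, (mem_filter.1 he).2 e.top_mem, h2 _ e.top_mem⟩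

/-- duality of sums over faces and cofaces. -/
theorem Mf.dual_sum (h : Mf d A) (F : Ch P → ℤ) (hF : ∀ e, ¬ Mt A e → F e = 0) :
    ∑ c : Ch P, c.sg * ∑ e ∈ univ.filter (· ≤ c), e.sg * F e =
      (-1) ^ (d + 1) * ∑ e : Ch P, e.sg * F e := by
  simp only [mul_sum, sum_filter]
  rw [sum_comm]
  refine sum_congr rfl fun e _ => ?_
  by_cases he : Mt A e
  · rw [← h.eul e he, sum_filter, sum_mul]
    refine sum_congr rfl fun c _ => ?_
    split_ifs <;> simp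
  · simp [hF e he]

theorem eu_eq (E : Set P) : eu E = -∑ e : Ch P, e.sg * iIn E e := by
  rw [eu, sum_filter]
  congr 1
  refine sum_congr rfl fun e _ => ?_
  unfold iIn
  split_ifs <;> simp

theorem Mf.sum_iMt (h : Mf d A) : ∑ c : Ch P, c.sg * iMt A c = (-1) ^ (d + 1) * eu A := by
  have := Mf.dual_sum h (iIn A) fun e he => if_neg fun h2 => he ⟨e.top, e.top_mem, h2 _ e.top_mem⟩
  simp only [sum_iIn, mul_neg, sum_neg_distrib] at this
  rw [eu_eq]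
  linear_combination -this

/-- the mixed chains: cells of the boundary of the manifold `A`. -/
def mix (A : Set P) : Set (Ch P) := {c | Mt A c ∧ Mt Aᶜ c}

theorem sum_mix (A : Set P) :
    ∑ c ∈ univ.filter (· ∈ mix A), c.sg = ∑ c : Ch P, c.sg * (iMt A c * iMt Aᶜ c) := by
  rw [sum_filter]
  refine sum_congr rfl fun c _ => ?_
  unfold iMt
  by_cases h1 : Mt A c <;> by_cases h2 : Mt Aᶜ c <;> simp [mix, h1, h2]

theorem iMt_mul_iIn (S : Set P) (c : Ch P) : iMt S c * iIn S c = iIn S c := by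
  unfold iIn
  split_ifs with h
  · rw [iMt_of ⟨c.top, c.top_mem, h _ c.top_mem⟩, one_mul]
  · simp

/-- the Euler characteristic of the boundary (cell count). -/
theorem Mf.sum_mix (h : Mf d A) :
    ∑ c ∈ univ.filter (· ∈ mix A), c.sg = (1 + (-1) ^ (d + 1)) * eu A := by
  rw [Alg36.sum_mix]
  have : ∀ c : Ch P, c.sg * (iMt A c * iMt Aᶜ c) = c.sg * iMt A c - c.sg * iIn A c := fun c => by
    rw [iMt_eq Aᶜ, compl_compl, mul_sub (iMt A c), iMt_mul_iIn]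
    ring
  simp only [this, sum_sub_distrib]
  rw [Mf.sum_iMt h, eu_eq A]
  ring

theorem mix_upper {c e : Ch P} (hc : c ∈ mix A) (h : c ≤ e) : e ∈ mix A :=
  ⟨hc.1.mono h, hc.2.mono h⟩

theorem sum_faces_mix {c : Ch P} (hc : c ∈ mix A) :
    ∑ e ∈ univ.filter (· ≤ c), e.sg * (iMt A e * iMt Aᶜ e) = 1 := by
  have : ∀ e : Ch P, e.sg * (iMt A e * iMt Aᶜ e) = e.sg - e.sg * iIn A e - e.sg * iIn Aᶜ e := by
    intro e
    have h0 : iIn Aᶜ e * iIn A e = 0 := by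
      rw [← iIn_inter]
      exact if_neg fun h => (h _ e.top_mem).1 (h _ e.top_mem).2
    rw [iMt_eq Aᶜ, compl_compl, iMt_eq A]
    linear_combination e.sg * h0
  simp only [this, sum_sub_distrib, sum_iIn, sum_faces, iMt_of hc.1, iMt_of hc.2]
  norm_num

/-- the order complex of the mixed chains has the Euler characteristic of the cell count. -/
theorem eu_mix (A : Set P) : eu (mix A) = ∑ c ∈ univ.filter (· ∈ mix A), c.sg := by
  rw [← chi_fs]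
  refine Kh11.chi_eq_cells (A := fs (mix A)) (fun c hc => ?_) (Kh11.low_self _)
  rw [← sum_faces_mix (mem_fs.1 hc), sum_filter, sum_filter, fs, sum_filter]
  refine sum_congr rfl fun e _ => ?_
  unfold iMt
  by_cases h0 : e ≤ c <;> by_cases h1 : Mt A e <;> by_cases h2 : Mt Aᶜ e <;>
    simp [mix, h0, h1, h2]

theorem Mf.eu_mix (h : Mf 3 A) : eu (mix A) = 2 * eu A := by
  rw [Alg36.eu_mix, Mf.sum_mix h]
  norm_num

/-- the points below `A`. -/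
def Om (A : Set P) : Set P := {x | x ∉ A ∧ ∃ a ∈ A, x ≤ a}

/-- the points above `A`. -/
def Op (A : Set P) : Set P := {x | x ∉ A ∧ ∃ a ∈ A, a ≤ x}

theorem om_op (hA : A.OrdConnected) {x : P} (h : x ∈ Om A) : x ∉ Op A :=
  fun h' => let ⟨_, _, ha, h1⟩ := h; let ⟨hx, _, hb, h2⟩ := h'; hx (hA.out hb ha ⟨h2, h1⟩)

theorem mt_om (hA : A.OrdConnected) {c : Ch P} (hc : Mt A c) : Mt (Om A) c ↔ c.bot ∉ A := by
  obtain ⟨a, ha, haA⟩ := hc
  refine ⟨fun ⟨x, hx, h1, b, hb, h2⟩ h => h1 (hA.out h hb ⟨Ch.bot_le hx, h2⟩),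
    fun h => ⟨_, c.bot_mem, h, a, haA, Ch.bot_le ha⟩⟩

theorem mt_op (hA : A.OrdConnected) {c : Ch P} (hc : Mt A c) : Mt (Op A) c ↔ c.top ∉ A := by
  obtain ⟨a, ha, haA⟩ := hc
  refine ⟨fun ⟨x, hx, h1, b, hb, h2⟩ h => h1 (hA.out hb h ⟨h2, Ch.le_top hx⟩),
    fun h => ⟨_, c.top_mem, h, a, haA, Ch.le_top ha⟩⟩

theorem cases_of_mt {c : Ch P} (hc : Mt A c) {x : P} (hx : x ∈ c.1) (h : x ∉ A) :
    x ∈ Om A ∨ x ∈ Op A :=
  let ⟨a, ha, haA⟩ := hc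
  (c.total hx ha).imp (fun h' => ⟨h, a, haA, h'⟩) fun h' => ⟨h, a, haA, h'⟩

theorem mt_compl (hA : A.OrdConnected) {c : Ch P} (hc : Mt A c) :
    Mt Aᶜ c ↔ c.bot ∉ A ∨ c.top ∉ A := by
  rw [← mt_om hA hc, ← mt_op hA hc]
  exact ⟨fun ⟨x, hx, h⟩ => (cases_of_mt hc hx h).imp (fun h' => ⟨x, hx, h'⟩) fun h' => ⟨x, hx, h'⟩,
    fun h => h.elim (fun ⟨x, hx, h⟩ => ⟨x, hx, h.1⟩) fun ⟨x, hx, h⟩ => ⟨x, hx, h.1⟩⟩

theorem sum_faces_sut (hA : A.OrdConnected) (c : Ch P) :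
    ∑ e ∈ univ.filter (· ≤ c), e.sg * (iMt (Om A) e * iMt A e * iMt (Op A) e) =
      -(iMt (Om A) c * iMt A c * iMt (Op A) c) := by
  by_cases hc : Mt A c
  swap
  · rw [iMt_not hc]
    simp only [mul_zero, zero_mul, neg_zero]
    refine sum_eq_zero fun e he => ?_
    rw [iMt_not fun h => hc (h.mono (mem_filter.1 he).2)]
    simp
  have : ∀ e : Ch P, e.sg * (iMt (Om A) e * iMt A e * iMt (Op A) e) =
      e.sg - e.sg * iIn (Om A)ᶜ e - e.sg * iIn Aᶜ e - e.sg * iIn (Op A)ᶜ e +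
        e.sg * iIn ((Om A)ᶜ ∩ Aᶜ) e + e.sg * iIn ((Om A)ᶜ ∩ (Op A)ᶜ) e +
        e.sg * iIn (Aᶜ ∩ (Op A)ᶜ) e - e.sg * iIn ((Om A)ᶜ ∩ Aᶜ ∩ (Op A)ᶜ) e := by
    intro e
    simp only [iIn_inter, iMt_eq]
    ring
  simp only [this, sum_sub_distrib, sum_add_distrib, sum_iIn, sum_faces]
  obtain ⟨a, ha, haA⟩ := id hc
  have e1 : iMt (Om A)ᶜ c = 1 := iMt_of ⟨a, ha, fun h => h.1 haA⟩
  have e2 : iMt (Op A)ᶜ c = 1 := iMt_of ⟨a, ha, fun h => h.1 haA⟩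
  have e3 : iMt ((Om A)ᶜ ∩ (Op A)ᶜ) c = 1 := iMt_of ⟨a, ha, fun h => h.1 haA, fun h => h.1 haA⟩
  have e4 : iMt ((Om A)ᶜ ∩ Aᶜ ∩ (Op A)ᶜ) c = 0 :=
    iMt_not fun ⟨x, hx, h⟩ => (cases_of_mt hc hx h.1.2).elim h.1.1 h.2
  have e5 : Mt ((Om A)ᶜ ∩ Aᶜ) c ↔ Mt (Op A) c :=
    ⟨fun ⟨x, hx, h⟩ => ⟨x, hx, (cases_of_mt hc hx h.2).resolve_left h.1⟩,
      fun ⟨x, hx, h⟩ => ⟨x, hx, fun h' => om_op hA h' h, h.1⟩⟩
  have e6 : Mt (Aᶜ ∩ (Op A)ᶜ) c ↔ Mt (Om A) c :=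
    ⟨fun ⟨x, hx, h⟩ => ⟨x, hx, (cases_of_mt hc hx h.1).resolve_right h.2⟩,
      fun ⟨x, hx, h⟩ => ⟨x, hx, h.1, om_op hA h⟩⟩
  have e7 : Mt Aᶜ c ↔ Mt (Om A) c ∨ Mt (Op A) c := by
    rw [mt_compl hA hc, mt_om hA hc, mt_op hA hc]
  rw [e1, e2, e3, e4, iMt_of hc]
  unfold iMt
  by_cases h1 : Mt (Om A) c <;> by_cases h2 : Mt (Op A) c <;> simp [e5, e6, e7, h1, h2]

/-- the sutures have Euler characteristic zero. -/
theorem Mf.sum_sut (h : Mf 3 A) (hA : A.OrdConnected) :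
    ∑ c : Ch P, c.sg * (iMt (Om A) c * iMt A c * iMt (Op A) c) = 0 := by
  have := Mf.dual_sum h (fun c => iMt (Om A) c * iMt A c * iMt (Op A) c) fun e he => by
    simp [iMt_not he]
  simp only [sum_faces_sut hA, mul_neg, sum_neg_distrib] at this
  norm_num at this
  omega

theorem Rm_bt (hA : A.OrdConnected) {c : Ch P} (hc : Mt A c) :
    Rm A c.bot c.top = iMt (Om A) c := by
  obtain ⟨a, ha, haA⟩ := id hc
  rw [Rm, cb, ind_of_mem (E := {x | ∃ a ∈ A, a ≤ x}) ⟨a, haA, Ch.le_top ha⟩]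
  by_cases hb : c.bot ∈ A
  · rw [ind_of_mem (E := {x | ∃ a ∈ A, a ≤ x}) ⟨_, hb, le_rfl⟩,
      iMt_not fun h => (mt_om hA hc).1 h hb]
    simp
  · rw [ind_of_not, iMt_of ((mt_om hA hc).2 hb)]
    · simp
    · exact fun ⟨b, hb', h⟩ => hb (hA.out hb' haA ⟨h, Ch.bot_le ha⟩)

theorem Rp_bt (hA : A.OrdConnected) {c : Ch P} (hc : Mt A c) :
    Rp A c.bot c.top = iMt (Op A) c := by
  obtain ⟨a, ha, haA⟩ := id hc
  rw [Rp, cb, ind_of_not (x := c.bot)]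
  · by_cases hb : c.top ∈ A
    · rw [ind_of_not fun h => h.1 hb, iMt_not fun h => (mt_op hA hc).1 h hb]
      simp
    · rw [ind_of_mem (E := {x | x ∉ A ∧ ∃ a ∈ A, a ≤ x}) ⟨hb, a, haA, Ch.le_top ha⟩,
        iMt_of ((mt_op hA hc).2 hb)]
      simp
  · exact fun ⟨hb, b, hb', h⟩ => hb (hA.out hb' haA ⟨h, Ch.bot_le ha⟩)

/-- (C): `chi R₋ + chi R₊ = chi ∂M = 2 chi M`. -/
theorem Mf.chi_Rm_add_Rp (h : Mf 3 A) (hA : A.OrdConnected) :
    chi A (Rm A) + chi A (Rp A) = 2 * eu A := by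
  have h1 := Mf.sum_mix h
  have h2 := Mf.sum_sut h hA
  rw [Alg36.sum_mix] at h1
  have : chi A (Rm A) + chi A (Rp A) = ∑ c : Ch P, c.sg * (iMt A c * iMt Aᶜ c) +
      ∑ c : Ch P, c.sg * (iMt (Om A) c * iMt A c * iMt (Op A) c) := by
    rw [chi, chi, ← sum_add_distrib, ← sum_add_distrib, sum_filter]
    refine sum_congr rfl fun c _ => ?_
    split_ifs with hc
    · have e7 : Mt Aᶜ c ↔ Mt (Om A) c ∨ Mt (Op A) c := by
        rw [mt_compl hA hc, mt_om hA hc, mt_op hA hc]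
      rw [Rm_bt hA hc, Rp_bt hA hc, iMt_of hc]
      unfold iMt
      by_cases h1 : Mt (Om A) c <;> by_cases h2 : Mt (Op A) c <;> simp [e7, h1, h2]
    · simp [iMt_not hc]
  rw [this, h1, h2]
  norm_num

theorem Mf.chi_Rm_eq (h : Mf 3 A) (hA : A.OrdConnected) : chi A (Rm A) = eu A - ee A := by
  have h1 := Mf.chi_Rm_add_Rp h hA
  have h2 := chi_Rm h
  omega

theorem Mf.chi_Rp_eq (h : Mf 3 A) (hA : A.OrdConnected) : chi A (Rp A) = eu A + ee A := by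
  have h1 := Mf.chi_Rm_add_Rp h hA
  have h2 := chi_Rm h
  omega

end Crest.Agent.X212.Alg36
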