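import Crest.Agent.X212.Alg36.Hp1
import Crest.Agent.X212.Hp13.W

/-! ALG (helper36) on `Hp13/Defs`: extension of cocycles to the star, clopen parts, exactness on
the boundary, HALF, monotone representatives. -/

set_option autoImplicit false
set_option linter.unusedSectionVars false

namespace Crest.Agent.X212.Alg36

open Finset Classical
open Crest.Agent.X212.Hp13

variable {P : Type} [PartialOrder P] [Fintype P] {A C : Set P} {G : Type} [AddCommGroup G]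

theorem cm_refl (x : P) : Cm x x := Or.inl le_rfl

theorem cm_symm {x y : P} (h : Cm x y) : Cm y x := Or.symm h

theorem rch_eq {γ : Type*} {E : Set P} {x y : P} (h : Rch E x y) {g : P → γ}
    (hg : ∀ a ∈ E, ∀ b ∈ E, a ≤ b → g a = g b) : g x = g y :=
  (rch_fs.2 h).eq fun a ha b hb => hg a (mem_fs.1 ha) b (mem_fs.1 hb)

/-- the points of `A` comparable with `x` and `y`. -/
def Fb (A : Set P) (x y : P) : Set P := {a | a ∈ A ∧ Cm a x ∧ Cm a y}

theorem fb_eq {x y : P} (h : Cm x y) : {a | a ∈ A ∧ ∀ t ∈ (pr h).1, Cm a t} = Fb A x y := by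
  ext a
  simp [Fb, mem_pr]

theorem Nice.ctr_fb (hN : Nice A) {x y : P} (h : Cm x y) (hx : x ∉ A) (hy : y ∉ A)
    (hne : (Fb A x y).Nonempty) : Ctr (Fb A x y) := by
  rw [← fb_eq h] at hne ⊢
  obtain ⟨a, ha⟩ := hne
  refine hN (pr h) ⟨a, ha⟩ ?_
  rintro ⟨t, ht, htA⟩
  rcases (mem_pr h).1 ht with rfl | rfl
  · exact hx htA
  · exact hy htA

theorem Nice.conn_fb (hN : Nice A) {x y : P} (h : Cm x y) : Conn (Fb A x y) := by
  by_cases hx : x ∈ A
  · exact conn_cone (m := x) ⟨hx, cm_refl x, h⟩ fun _ ha => ha.2.1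
  by_cases hy : y ∈ A
  · exact conn_cone (m := y) ⟨hy, cm_symm h, cm_refl y⟩ fun _ ha => ha.2.2
  rcases (Fb A x y).eq_empty_or_nonempty with h0 | h0
  · rw [h0]
    exact fun _ ha => absurd ha (Set.notMem_empty _)
  · exact (Nice.ctr_fb hN h hx hy h0).conn

theorem CocOn.self {E : Set P} {w : P → P → G} (h : CocOn E w) {x : P} (hx : x ∈ E) :
    w x x = 0 := (coc_fs.2 h).self (mem_fs.2 hx)

theorem CocOn.mono {E F : Set P} {w : P → P → G} (h : CocOn F w) (hE : E ⊆ F) : CocOn E w :=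
  fun x hx y hy t ht => h x (hE hx) y (hE hy) t (hE ht)

theorem ExOn.mono {E F : Set P} {w : P → P → G} (h : ExOn F w) (hE : E ⊆ F) : ExOn E w :=
  let ⟨g, hg⟩ := h; ⟨g, fun x hx y hy => hg x (hE hx) y (hE hy)⟩

theorem Coc.cocOn {z : P → P → G} (h : Coc A z) : CocOn A z :=
  fun x hx y _ t _ h1 h2 => h x hx x y t h1 h2 (cm_refl x) (Or.inl h1) (Or.inl (h1.trans h2))

/-- EXT: a cocycle on `A` extends to the star of `A`. -/
theorem Nice.exists_coc (hN : Nice A) {w : P → P → G} (hw : CocOn A w) :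
    ∃ z : P → P → G, Coc A z ∧ ∀ x ∈ A, ∀ y ∈ A, x ≤ y → z x y = w x y := by
  have key : ∀ x : P, ∃ g : P → G, (x ∈ A → g x = 0) ∧
      ∀ a ∈ Fb A x x, ∀ b ∈ Fb A x x, a ≤ b → w a b = g b - g a := by
    intro x
    have hc : CocOn (Fb A x x) w := CocOn.mono hw fun _ h => h.1
    have : ExOn (Fb A x x) w := by
      by_cases hx : x ∈ A
      · have m : x ∈ Fb A x x := ⟨hx, cm_refl x, cm_refl x⟩
        exact ex_fs.1 (Kh11.ex_cone (m := x) (mem_fs.2 m)
          (fun a ha => (mem_fs.1 ha).2.1) (coc_fs.2 hc))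
      rcases (Fb A x x).eq_empty_or_nonempty with h0 | h0
      · rw [h0]
        exact ⟨0, fun _ ha => absurd ha (Set.notMem_empty _)⟩
      · exact (Nice.ctr_fb hN (cm_refl x) hx hx h0).ex G w hc
    obtain ⟨g, hg⟩ := this
    refine ⟨fun t => g t - g x, fun _ => sub_self _, fun a ha b hb hab => ?_⟩
    rw [hg a ha b hb hab, sub_sub_sub_cancel_right]
  choose g hg0 hg using key
  let z : P → P → G := fun x y =>
    if h : (Fb A x y).Nonempty then g x h.choose - g y h.choose else 0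
  have hz : ∀ x y, x ≤ y → ∀ a ∈ Fb A x y, z x y = g x a - g y a := by
    intro x y hxy a ha
    have h0 : (Fb A x y).Nonempty := ⟨a, ha⟩
    simp only [z, dif_pos h0]
    refine rch_eq (Nice.conn_fb hN (Or.inl hxy) _ h0.choose_spec a ha)
      (g := fun t => g x t - g y t) fun s hs t ht hst => ?_
    have e1 := hg x s ⟨hs.1, hs.2.1, hs.2.1⟩ t ⟨ht.1, ht.2.1, ht.2.1⟩ hst
    have e2 := hg y s ⟨hs.1, hs.2.2, hs.2.2⟩ t ⟨ht.1, ht.2.2, ht.2.2⟩ hst
    rw [e1] at e2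
    rw [sub_eq_sub_iff_sub_eq_sub, ← neg_sub (g x t), e2, neg_sub]
  refine ⟨z, fun a ha x y t h1 h2 c1 c2 c3 => ?_, fun x hx y hy h => ?_⟩
  · rw [hz x t (h1.trans h2) a ⟨ha, c1, c3⟩, hz x y h1 a ⟨ha, c1, c2⟩, hz y t h2 a ⟨ha, c2, c3⟩]
    abel
  · rw [hz x y h y ⟨hy, Or.inr h, cm_refl y⟩, hg0 y hy,
      hg x x ⟨hx, cm_refl x, cm_refl x⟩ y ⟨hy, Or.inr h, Or.inr h⟩ h, hg0 x hx]

/-- a cocycle on the star which is exact on `A` is exact on the star. -/
theorem Nice.eqD_cb (hN : Nice A) {z : P → P → G} (hz : Coc A z) (h : ExOn A z) :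
    ∃ g : P → G, EqD A z (cb g) := by
  obtain ⟨g, hg⟩ := h
  let v : P → P → G := fun a x => if a ≤ x then g a + z a x else g a - z x a
  have hv : ∀ x, ∀ a ∈ Fb A x x, ∀ b ∈ Fb A x x, a ≤ b → v a x = v b x := by
    intro x a ha b hb hab
    have e := hg a ha.1 b hb.1 hab
    have eb : g b = g a + z a b := by rw [e]; abel
    by_cases h1 : b ≤ x
    · simp only [v, if_pos h1, if_pos (hab.trans h1)]
      rw [hz a ha.1 a b x hab h1 (cm_refl a) (Or.inl hab) ha.2.1, eb, add_assoc]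
    have h1' : x ≤ b := hb.2.1.resolve_left h1
    by_cases h2 : a ≤ x
    · simp only [v, if_neg h1, if_pos h2]
      rw [eb, hz a ha.1 a x b h2 h1' (cm_refl a) ha.2.1 (Or.inl hab)]
      abel
    · simp only [v, if_neg h1, if_neg h2]
      rw [eb, hz a ha.1 x a b (ha.2.1.resolve_left h2) hab ha.2.1 (cm_refl a) (Or.inl hab)]
      abel
  let g' : P → G := fun x => if h : (Fb A x x).Nonempty then v h.choose x else 0
  have hg' : ∀ x, ∀ a ∈ A, Cm a x → g' x = v a x := by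
    intro x a ha hax
    have h0 : (Fb A x x).Nonempty := ⟨a, ha, hax, hax⟩
    simp only [g', dif_pos h0]
    exact rch_eq (Nice.conn_fb hN (cm_refl x) _ h0.choose_spec a ⟨ha, hax, hax⟩)
      (g := fun t => v t x) (hv x)
  refine ⟨g', ?_⟩
  rintro x y ⟨hxy, a, ha, c1, c2⟩
  rw [cb, hg' x a ha c1, hg' y a ha c2]
  by_cases h1 : a ≤ x
  · simp only [v, if_pos h1, if_pos (h1.trans hxy)]
    rw [hz a ha a x y h1 hxy (cm_refl a) c1 c2]
    abel
  have h1' : x ≤ a := c1.resolve_left h1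
  by_cases h2 : a ≤ y
  · simp only [v, if_neg h1, if_pos h2]
    rw [hz a ha x a y h1' h2 c1 (cm_refl a) c2]
    abel
  · simp only [v, if_neg h1, if_neg h2]
    rw [hz a ha x y a hxy (c2.resolve_left h2) c1 c2 (cm_refl a)]
    abel

/-- `C` is a union of components of `A`. -/
structure Clo (A C : Set P) : Prop where
  sub : C ⊆ A
  cl : ∀ a ∈ C, ∀ b ∈ A, Cm a b → b ∈ C

theorem Clo.rch (h : Clo A C) {a b : P} (ha : a ∈ C) (hab : Rch A a b) : b ∈ C :=
  rch_ind hab (p := fun t => t ∈ C) ha fun s hs t ht hst =>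
    ⟨fun h1 => h.cl s h1 t ht (Or.inl hst), fun h1 => h.cl t h1 s hs (Or.inr hst)⟩

theorem Clo.compl (h : Clo A C) : Clo A (A \ C) :=
  ⟨Set.diff_subset, fun a ha b hb hab => ⟨hb, fun hC => ha.2 (h.cl b hC a ha.1 (cm_symm hab))⟩⟩

theorem clo_self (A : Set P) : Clo A A := ⟨subset_rfl, fun _ _ _ hb _ => hb⟩

theorem IsCmp.clo (h : IsCmp A C) : Clo A C := by
  obtain ⟨x, _, rfl⟩ := h
  exact ⟨fun _ h => h.1, fun a ha b hb hab => ⟨hb, ha.2.tail ⟨ha.1, hb, hab⟩⟩⟩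

theorem Clo.rch_in (h : Clo A C) {a b : P} (ha : a ∈ C) (hab : Rch A a b) : Rch C a b := by
  induction hab with
  | refl => exact Relation.ReflTransGen.refl
  | tail h1 h2 ih => exact ih.tail ⟨h.rch ha h1, h.cl _ (h.rch ha h1) _ h2.2.1 h2.2.2, h2.2.2⟩

theorem Clo.dp (h : Clo A C) {x y : P} (hd : Dp C x y) : Dp A x y :=
  let ⟨h1, a, ha, h2⟩ := hd; ⟨h1, a, h.sub ha, h2⟩

/-- an edge of the star of `C` sees only points of `C`. -/
theorem Clo.mem_of_dp (h : Clo A C) (hN : Nice A) {x y : P} (hd : Dp C x y) {a : P} (ha : a ∈ A)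
    (c1 : Cm a x) (c2 : Cm a y) : a ∈ C := by
  obtain ⟨h1, b, hb, h2⟩ := hd
  exact h.rch hb (rch_mono (fun _ ht => ht.1)
    (Nice.conn_fb hN (Or.inl h1) b ⟨h.sub hb, h2⟩ a ⟨ha, c1, c2⟩))

theorem Clo.not_mem (h : Clo A C) {x y : P} (hd : Dp C x y) :
    (x ∉ C → x ∉ A) ∧ (y ∉ C → y ∉ A) :=
  let ⟨_, a, ha, h2⟩ := hd
  ⟨fun hx hA => hx (h.cl a ha x hA h2.1), fun hy hA => hy (h.cl a ha y hA h2.2)⟩

theorem Clo.nice (h : Clo A C) (hN : Nice A) : Nice C := by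
  rintro c ⟨a, ha, hc⟩ hm
  have hm' : ¬ Mt A c := fun ⟨t, ht, htA⟩ => hm ⟨t, ht, h.cl a ha t htA (hc t ht)⟩
  have hctr := hN c ⟨a, h.sub ha, hc⟩ hm'
  have : {b | b ∈ C ∧ ∀ x ∈ c.1, Cm b x} = {b | b ∈ A ∧ ∀ x ∈ c.1, Cm b x} := by
    ext b
    refine ⟨fun hb => ⟨h.sub hb.1, hb.2⟩, fun hb => ⟨?_, hb.2⟩⟩
    exact h.rch ha (rch_mono (fun _ ht => ht.1) (hctr.conn a ⟨h.sub ha, hc⟩ b hb))
  rwa [this]

theorem Clo.ordConnected (h : Clo A C) (hc : A.OrdConnected) : C.OrdConnected :=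
  ⟨fun x hx _ hy t ht => h.cl x hx t (hc.out (h.sub hx) (h.sub hy) ht) (Or.inl ht.1)⟩

/-- extension by zero from the star of `C`. -/
noncomputable def ez (C : Set P) (z : P → P → G) : P → P → G :=
  fun x y => if Dp C x y then z x y else 0

theorem ez_of {z : P → P → G} {x y : P} (h : Dp C x y) : ez C z x y = z x y := if_pos h

theorem ez_not {z : P → P → G} {x y : P} (h : ¬ Dp C x y) : ez C z x y = 0 := if_neg h

theorem Clo.coc_ez (h : Clo A C) (hN : Nice A) {z : P → P → G} (hz : Coc C z) :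
    Coc A (ez C z) := by
  intro a ha x y t h1 h2 c1 c2 c3
  by_cases hC : a ∈ C
  · rw [ez_of ⟨h1, a, hC, c1, c2⟩, ez_of ⟨h2, a, hC, c2, c3⟩, ez_of ⟨h1.trans h2, a, hC, c1, c3⟩]
    exact hz a hC x y t h1 h2 c1 c2 c3
  · rw [ez_not fun hd => hC (h.mem_of_dp hN hd ha c1 c3),
      ez_not fun hd => hC (h.mem_of_dp hN hd ha c1 c2),
      ez_not fun hd => hC (h.mem_of_dp hN hd ha c2 c3), add_zero]

theorem Clo.ez_compl (h : Clo A C) (hN : Nice A) (z : P → P → G) {x y : P}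
    (hd : Dp (A \ C) x y) : ez C z x y = 0 :=
  let ⟨_, _, ha, h2⟩ := hd
  ez_not fun hd' => ha.2 (h.mem_of_dp hN hd' ha.1 h2.1 h2.2)

theorem Clo.bnd (h : Clo A C) (hN : Nice A) (hB : Bnd G A) : Bnd G C := by
  intro z hz h0
  obtain ⟨g, hg0, hg⟩ := hB (ez C z) (h.coc_ez hN hz) fun x y _ hx hy => by
    by_cases hd : Dp C x y
    · rw [ez_of hd]
      exact h0 x y hd (fun h' => hx (h.sub h')) fun h' => hy (h.sub h')
    · exact ez_not hd
  refine ⟨fun x => if x ∈ C then g x else 0, fun x hx => if_neg hx, fun x y hd => ?_⟩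
  have e := hg x y (h.dp hd)
  rw [ez_of hd] at e
  have ex : (if x ∈ C then g x else 0) = g x := by
    split_ifs with hx
    · rfl
    · exact (hg0 x ((h.not_mem hd).1 hx)).symm
  have ey : (if y ∈ C then g y else 0) = g y := by
    split_ifs with hy
    · rfl
    · exact (hg0 y ((h.not_mem hd).2 hy)).symm
  rw [e]
  simp only [Pi.add_apply, cb, ex, ey]

theorem Clo.good {s : St} (hs : Good s) {C : Set s.P} (h : Clo s.A C) : Good (s.at C) :=
  ⟨h.ordConnected hs.conv, hs.mf.mono h.sub, h.nice hs.nice, h.bnd hs.nice hs.bnd,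
    h.bnd hs.nice hs.bnd2⟩

/-- exact on the boundary edges. -/
def BEx (A : Set P) (z : P → P → G) : Prop :=
  ∃ g : P → G, ∀ x y, Dp A x y → x ∉ A → y ∉ A → z x y = g y - g x

/-- (X): exact on the boundary gives exact, with the same primitive on the boundary. -/
theorem Bnd.eqD_cb (hB : Bnd G A) {z : P → P → G} (hz : Coc A z) {g : P → G}
    (hg : ∀ x y, Dp A x y → x ∉ A → y ∉ A → z x y = g y - g x) :
    ∃ g' : P → G, (∀ x, x ∉ A → g' x = g x) ∧ EqD A z (cb g') := by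
  obtain ⟨k, hk0, hk⟩ := hB (z - cb g) (hz.sub (coc_cb g)) fun x y hd hx hy => by
    simp [cb, hg x y hd hx hy]
  refine ⟨g + k, fun x hx => by simp [hk0 x hx], fun x y hd => ?_⟩
  have := hk x y hd
  simp only [Pi.sub_apply, Pi.add_apply, Pi.zero_apply, cb, zero_add] at this ⊢
  rw [sub_eq_iff_eq_add] at this
  rw [this]
  abel

theorem EqD.exOn {z : P → P → G} {g : P → G} (h : EqD A z (cb g)) : ExOn A z :=
  ⟨g, fun x hx y _ hxy => h x y ⟨hxy, x, hx, cm_refl x, Or.inl hxy⟩⟩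

theorem Bnd.exOn (hB : Bnd G A) {z : P → P → G} (hz : Coc A z) (h : BEx A z) : ExOn A z :=
  let ⟨_, hg⟩ := h
  let ⟨_, _, h'⟩ := Bnd.eqD_cb hB hz hg
  EqD.exOn h'

theorem Nice.bEx (hN : Nice A) {z : P → P → G} (hz : Coc A z) (h : ExOn A z) : BEx A z :=
  let ⟨g, hg⟩ := Nice.eqD_cb hN hz h
  ⟨g, fun x y hd _ _ => hg x y hd⟩

theorem ExOn.congr {E : Set P} {z w : P → P → G} (h : ExOn E z)
    (e : ∀ x ∈ E, ∀ y ∈ E, x ≤ y → w x y = z x y) : ExOn E w :=
  let ⟨g, hg⟩ := h; ⟨g, fun x hx y hy hxy => (e x hx y hy hxy).trans (hg x hx y hy hxy)⟩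

theorem Esc.mono (h : Esc A A) (hC : C ⊆ A) : Esc A C := fun a ha =>
  let ⟨b, hb, h1, x, hx, h2⟩ := h a (hC ha); ⟨b, hb, h1, x, fun h' => hx (hC h'), h2⟩

/-- a cocycle on a clopen part, extended to the star of `A` by zero. -/
theorem Clo.exists_coc (h : Clo A C) (hN : Nice A) {w : P → P → G} (hw : CocOn C w) :
    ∃ z : P → P → G, Coc A z ∧ (∀ x ∈ C, ∀ y ∈ C, x ≤ y → z x y = w x y) ∧
      ∀ x y, ¬ Dp C x y → z x y = 0 := by
  obtain ⟨z, hz, e⟩ := Nice.exists_coc (h.nice hN) hw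
  refine ⟨ez C z, h.coc_ez hN hz, fun x hx y hy hxy => ?_, fun _ _ => ez_not⟩
  rw [ez_of ⟨hxy, x, hx, cm_refl x, Or.inl hxy⟩, e x hx y hy hxy]

/-- HALF: a clopen part with `eu ≤ 0` carries an integer class, not exact on the part and not
exact on its boundary. -/
theorem half (hM : Mf 3 A) (hN : Nice A) (hB : Bnd ℤ A) (h : Clo A C) (hne : C.Nonempty)
    (hesc : Esc A C) (hχ : eu C ≤ 0) :
    ∃ z : P → P → ℤ, Coc A z ∧ (∀ x y, ¬ Dp C x y → z x y = 0) ∧ ¬ ExOn C z ∧ ¬ BEx C z := by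
  obtain ⟨w, hw, hn, -⟩ := Mf.exists_cocOn hM h.sub hne hesc hχ
  obtain ⟨z, hz, e, h0⟩ := h.exists_coc hN hw
  have hn' : ¬ ExOn C z := fun h' => hn (ExOn.congr h' fun x hx y hy hxy => (e x hx y hy hxy).symm)
  exact ⟨z, hz, h0, hn', fun hb => hn' (Bnd.exOn (h.bnd hN hB) (hz.mono h.sub) hb)⟩

/-! ### one level up -/

theorem dom_of_cm {e d : Ch P} (he : e.top ∈ A) (h : Cm e d) : Dom A d := by
  rcases h with h | h
  · exact Mt.dom ⟨e.top, h e.top_mem, he⟩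
  · exact (Mt.dom ⟨e.top, e.top_mem, he⟩).mono h

theorem top_pr {x y : P} (h : x ≤ y) : (pr (Or.inl h)).top = y :=
  Ch.top_eq ((mem_pr _).2 (Or.inr rfl)) fun t ht => by
    rcases (mem_pr _).1 ht with rfl | rfl
    · exact h
    · exact le_rfl

theorem bot_pr {x y : P} (h : x ≤ y) : (pr (Or.inl h)).bot = x :=
  Ch.bot_eq ((mem_pr _).2 (Or.inl rfl)) fun t ht => by
    rcases (mem_pr _).1 ht with rfl | rfl
    · exact le_rfl
    · exact h

/-- exactness descends from the subdivision. -/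
theorem exOn_of_pb_top {E : Set P} {z : P → P → G} (hz : CocOn E z)
    (h : ExOn (Ch.top ⁻¹' E) (pb Ch.top z)) : ExOn E z := by
  obtain ⟨g, hg⟩ := h
  refine ⟨fun x => g (Ch.pt x), fun x hx y hy hxy => ?_⟩
  have m : pr (Or.inl hxy) ∈ Ch.top ⁻¹' E := by rw [Set.mem_preimage, top_pr hxy]; exact hy
  have e1 := hg (Ch.pt x) (by simpa using hx) _ m (pt_le.2 ((mem_pr _).2 (Or.inl rfl)))
  have e2 := hg (Ch.pt y) (by simpa using hy) _ m (pt_le.2 ((mem_pr _).2 (Or.inr rfl)))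
  simp only [pb, Ch.top_pt, top_pr hxy] at e1 e2
  rw [CocOn.self hz hy, eq_comm, sub_eq_zero] at e2
  rw [e1, e2]

theorem ExOn.pb_top {E : Set P} {z : P → P → G} (h : ExOn E z) :
    ExOn (Ch.top ⁻¹' E) (pb Ch.top z) :=
  let ⟨g, hg⟩ := h
  ⟨fun c => g c.top, fun _ hc _ hd hcd => hg _ hc _ hd (Ch.top_mono hcd)⟩

/-- height of the highest point of a chain over its top element. -/
noncomputable def hi (z : P → P → ℤ) (c : Ch P) : ℤ := c.1.sup' c.2.1 fun x => -z x c.top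

/-- the monotone representative, one level up. -/
noncomputable def mon (z : P → P → ℤ) : Ch P → Ch P → ℤ := pb Ch.top z + cb (hi z)

theorem Coc.coc_mon {z : P → P → ℤ} (hz : Coc A z) : Coc (Ch.top ⁻¹' A) (mon z) :=
  (hz.pb Ch.top_mono).add (coc_cb _)

theorem Coc.mon_of_dom {z : P → P → ℤ} (hz : Coc A z) {c d : Ch P} (hcd : c ≤ d)
    (hd : Dom A d) : 0 ≤ mon z c d := by
  obtain ⟨x, hx, e⟩ := exists_mem_eq_sup' c.2.1 fun x => -z x c.top
  have h1 : -z x d.top ≤ hi z d := le_sup' (fun x => -z x d.top) (hcd hx)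
  have h2 := hz.add' hd (hcd hx) (hcd c.top_mem) d.top_mem (Ch.le_top hx) (Ch.top_mono hcd)
  simp only [mon, Pi.add_apply, pb, cb]
  rw [show hi z c = -z x c.top from e]
  omega

theorem Coc.mono_mon {z : P → P → ℤ} (hz : Coc A z) : Mono (Ch.top ⁻¹' A) (mon z) :=
  fun _ _ ⟨hcd, _, he, _, c2⟩ => Coc.mon_of_dom hz hcd (dom_of_cm he c2)

theorem exOn_add_cb {E : Set P} {z : P → P → G} (g : P → G) : ExOn E (z + cb g) ↔ ExOn E z := by
  constructor
  · rintro ⟨k, hk⟩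
    refine ⟨k - g, fun x hx y hy h => ?_⟩
    have := hk x hx y hy h
    simp only [Pi.add_apply, cb, Pi.sub_apply] at this ⊢
    rw [← eq_sub_iff_add_eq] at this
    rw [this]
    abel
  · rintro ⟨k, hk⟩
    refine ⟨k + g, fun x hx y hy h => ?_⟩
    simp only [Pi.add_apply, cb, hk x hx y hy h]
    abel

theorem exOn_mon_iff {E : Set P} {z : P → P → ℤ} (hz : CocOn E z) :
    ExOn (Ch.top ⁻¹' E) (mon z) ↔ ExOn E z := by
  rw [mon, exOn_add_cb]
  exact ⟨exOn_of_pb_top hz, ExOn.pb_top⟩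

end Crest.Agent.X212.Alg36
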