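import Crest.Agent.X212.Alg36.Sd2
import Crest.Agent.X212.Cut21.Defs
import Crest.Agent.X212.Ind26.Defs

/-! SD (helper36): `Thick`, `Stt`, `Inv` under subdivision. -/

set_option autoImplicit false
set_option linter.unusedSectionVars false

namespace Crest.Agent.X212.Alg36

open Finset Classical
open Crest.Agent.X212.Hp13
open Crest.Agent.X212.Cut21 (Fr Thick Stt)

variable {P : Type} [PartialOrder P] [Fintype P] {A : Set P}

theorem fr_sd (A : Set P) : Fr (Ch.top ⁻¹' A) = (Ch.top : Ch P → P) ⁻¹' Fr A := by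
  ext C
  refine and_congr_right fun _ => ⟨fun ⟨O, hO, k⟩ => ⟨O.top, hO, Ch.top_mono k⟩,
    fun ⟨o, ho, k⟩ => ?_⟩
  have c : ∀ x ∈ C.1, Cm o x := fun x hx => Or.inr ((Ch.le_top hx).trans k)
  exact ⟨C.ins o c, by show Ch.top _ ∉ A; rwa [top_ins' c k], C.le_ins _ _⟩

theorem thick_sd (h : Thick A) : Thick (Ch.top ⁻¹' A : Set (Ch P)) := by
  refine ⟨fun C hC => ?_, fun C hC => ?_⟩
  · rw [fr_sd] at hC ⊢
    have := h.inn _ hC
    have w := (ws_up C (A \ Fr A)).ctr_iff
    convert w.2 (by convert this using 1; ext; simp only [Set.mem_setOf_eq, Set.mem_diff]; tauto)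
      using 1
    ext; simp only [Set.mem_setOf_eq, Set.mem_diff, Set.mem_preimage]; tauto
  · have w := (ws_up C Aᶜ).conn_iff
    convert w.2 (h.out _ hC) using 1
    ext; simp only [Set.mem_setOf_eq, Set.mem_compl_iff, Set.mem_preimage]; tauto

variable {s t : St} {f : t.P → s.P}

theorem fr_desc (hd : Desc s t f) : Fr t.A = f ⁻¹' Fr s.A := by
  induction hd with
  | refl => rfl
  | step _ ih => exact (fr_sd _).trans (by rw [ih]; rfl)

theorem thick_desc (h : Thick s.A) (hd : Desc s t f) : Thick t.A := by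
  induction hd with
  | refl => exact h
  | step _ ih => exact thick_sd ih

theorem stt_desc (h : Stt s) (hd : Desc s t f) : Stt t :=
  ⟨Taut.desc h.toTaut hd, thick_desc h.thick hd, Esc.desc' h.esc hd⟩

theorem stt_sd (h : Stt s) : Stt s.sd := stt_desc h (Desc.sd s)

theorem inv_desc (h : Ind26.Inv s) (hd : Desc s t f) : Ind26.Inv t :=
  ⟨Taut.desc h.toTaut hd, Esc.desc' h.esc hd⟩

theorem sdStmt : Ind26.SdStmt := fun s h => inv_desc h (Desc.sd s)

end Crest.Agent.X212.Alg36
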