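import Crest.Agent.X212.Alg36.Cut2a

/-! CUT2 (helper36): the values of the thickened surface `thk`; the conditions for `Nice`. -/

set_option autoImplicit false
set_option linter.unusedSectionVars false

namespace Crest.Agent.X212.Alg36

open Finset Classical
open Crest.Agent.X212.Hp13
open Crest.Agent.X212.Kh11 (WS sctr_min sctr_max)
open Crest.Agent.X212.Cut21 (pot pot_ge thk rf dep dT JK BR om_dn)

variable {P : Type} [PartialOrder P] [Fintype P] {A : Set P} {w : P → P → ℤ}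

theorem pot_ch {G : Type} [AddCommGroup G] {w : P → P → G} (hw : Coc A w) {c : Ch P}
    (hd : Dom A c) {o x y : P} (ho : o ∈ c.1) (hx : x ∈ c.1) (hy : y ∈ c.1) (h : x ≤ y) :
    w x y = pot w o y - pot w o x := by
  unfold pot
  by_cases a : o ≤ x
  · rw [if_pos a, if_pos (a.trans h), hw.add' hd ho hx hy a h]; abel
  have a' := (c.total ho hx).resolve_left a
  by_cases b : o ≤ y
  · rw [if_neg a, if_pos b, hw.add' hd hx ho hy a' b]; abel
  · rw [if_neg a, if_neg b, hw.add' hd hx hy ho h ((c.total ho hy).resolve_left b)]; abel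

theorem pot_mono (hw : Coc A w) (hm : Mono A w) {c : Ch P} (hd : Dom A c) {o x y : P}
    (ho : o ∈ c.1) (hx : x ∈ c.1) (hy : y ∈ c.1) (h : x ≤ y) : pot w o x ≤ pot w o y := by
  have := pot_ch hw hd ho hx hy h
  have := hm _ _ (hd.dp hx hy h)
  omega

theorem pot_self (hw : Coc A w) {c : Ch P} (hd : Dom A c) {o : P} (ho : o ∈ c.1) :
    pot w o o = 0 := (pot_ge w le_rfl).trans (Kh11.dom_self hw hd ho)

/-- the value of a vertex of the second subdivision -/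
noncomputable def mv (A : Set P) (w : P → P → ℤ) (o : P) (d : Ch P) : ℤ :=
  if d.top ∈ A then pot w o d.bot else pot w o d.top

/-- the potential of `thk` -/
noncomputable def sv (A : Set P) (w : P → P → ℤ) (o : P) (C : Ch (Ch P)) : ℤ :=
  C.1.sup' C.2.1 (mv A w o)

theorem mv_in {o : P} {d : Ch P} (h : d.top ∈ A) : mv A w o d = pot w o d.bot := if_pos h
theorem mv_out {o : P} {d : Ch P} (h : d.top ∉ A) : mv A w o d = pot w o d.top := if_neg h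
theorem mv_pt (o p : P) : mv A w o (Ch.pt p) = pot w o p := by simp [mv]

theorem le_sv (o : P) {C : Ch (Ch P)} {d : Ch P} (h : d ∈ C.1) : mv A w o d ≤ sv A w o C :=
  le_sup' _ h

theorem sv_le {o : P} {C : Ch (Ch P)} {n : ℤ} : sv A w o C ≤ n ↔ ∀ d ∈ C.1, mv A w o d ≤ n :=
  sup'_le_iff _ _

theorem lt_sv {o : P} {C : Ch (Ch P)} {n : ℤ} : n < sv A w o C ↔ ∃ d ∈ C.1, n < mv A w o d :=
  lt_sup'_iff _

theorem sv_mono (o : P) {C D : Ch (Ch P)} (h : C ≤ D) : sv A w o C ≤ sv A w o D :=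
  sv_le.2 fun _ hd => le_sv o (h hd)

theorem mv_le_top (hw : Coc A w) (hm : Mono A w) {T d : Ch P} (hT : Dom A T) {o : P}
    (ho : o ∈ T.1) (h : d ≤ T) : mv A w o d ≤ pot w o d.top := by
  unfold mv
  split_ifs
  exacts [pot_mono hw hm hT ho (h d.bot_mem) (h d.top_mem) d.bot_le_top, le_rfl]

theorem dep_eq (hw : Coc A w) {T : Ch P} (hT : Dom A T) {o : P} (ho : o ∈ T.1) {C : Ch (Ch P)}
    (h : C.top ≤ T) : dep (dT A w) w C = pot w o C.top.top - sv A w o C := by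
  have k : ∀ d ∈ C.1, dT A w d + w d.top C.top.top = pot w o C.top.top - mv A w o d := by
    intro d hd
    have hd' : d ≤ T := (Ch.le_top hd).trans h
    rw [pot_ch hw hT ho (hd' d.top_mem) (h C.top.top_mem) (Ch.top_mono (Ch.le_top hd)), dT, mv]
    split_ifs
    · rw [pot_ch hw hT ho (hd' d.bot_mem) (hd' d.top_mem) d.bot_le_top]; ring
    · ring
  refine le_antisymm ?_ ((le_inf'_iff _ _).2 fun d hd => ?_)
  · obtain ⟨d, hd, e⟩ := exists_mem_eq_sup' C.2.1 (mv A w o)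
    exact (inf'_le _ hd).trans (by rw [k d hd, sv, e])
  · have := le_sv (A := A) (w := w) o hd
    rw [k d hd]; omega

theorem thk_eq (hw : Coc A w) {X C : Ch (Ch P)} (hT : Dom A C.top) {o : P} (ho : o ∈ C.top.1)
    (h : X ≤ C) : thk A w X C = sv A w o C - sv A w o X := by
  have h' := Ch.top_mono h
  simp only [thk, rf, Pi.sub_apply, pb, cb, Function.comp]
  rw [dep_eq hw hT ho le_rfl, dep_eq hw hT ho h',
    pot_ch hw hT ho (h' X.top.top_mem) C.top.top_mem (Ch.top_mono h')]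
  ring

theorem coc_thk (hw : Coc A w) : Coc (Ch.top ⁻¹' (Ch.top ⁻¹' A)) (thk A w) :=
  ((hw.pb Ch.top_mono).pb Ch.top_mono).sub (coc_cb _)

theorem dom2 {X C : Ch (Ch P)} (hX : X.top.top ∈ A) (h : Cm X C) : Dom A C.top :=
  dom_of_cm hX (h.map Ch.top_mono)

theorem mono_thk (hw : Coc A w) : Mono (Ch.top ⁻¹' (Ch.top ⁻¹' A)) (thk A w) := by
  rintro X C ⟨h, a, ha, -, c⟩
  rw [thk_eq hw (dom2 ha c) C.top.top_mem h]
  exact sub_nonneg.2 (sv_mono _ h)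

/-- the vertices with top in `A ∪ O₋` -/
def KK (A : Set P) : Set (Ch P) := {d | d.top ∈ A ∨ d.top ∈ Om A}

theorem om_of_le {a x : P} (ha : a ∈ A) (h : x ≤ a) (hx : x ∉ A) : x ∈ Om A := ⟨hx, a, ha, h⟩

theorem kk_of_le {C : Ch (Ch P)} (hC : C.top.top ∈ A) {d : Ch P} (h : d ≤ C.top) : d ∈ KK A :=
  (Classical.em _).imp id (om_of_le hC (Ch.top_mono h))

theorem mem_of_kk (hA : A.OrdConnected) {d e : Ch P} (hd : d.top ∈ A) (h : d ≤ e)
    (he : e ∈ KK A) : e.top ∈ A :=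
  he.elim id fun ⟨_, _, ha, k⟩ => hA.out hd ha ⟨Ch.top_mono h, k⟩

theorem tt_iff (hA : A.OrdConnected) {C : Ch (Ch P)} :
    C.top.top ∈ A ↔ (∀ d ∈ C.1, d ∈ KK A) ∧ Mt (Ch.top ⁻¹' A) C :=
  ⟨fun h => ⟨fun _ hd => kk_of_le h (Ch.le_top hd), _, C.top_mem, h⟩,
    fun ⟨h, _, hd, k⟩ => mem_of_kk hA k (Ch.le_top hd) (h _ C.top_mem)⟩

/-- a maximum under a point, at a fixed level -/
theorem thk_max (hA : A.OrdConnected) (hw : Coc A w) {a Y : Ch (Ch P)} (ha : a.top.top ∈ A)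
    (h : a ≤ Y) : ∃ m : Ch (Ch P), m.top.top ∈ A ∧ m ≤ Y ∧ thk A w m Y = thk A w a Y ∧
      ∀ b : Ch (Ch P), b.top.top ∈ A → b ≤ Y → thk A w b Y = thk A w a Y → b ≤ m := by
  have hT := dom2 ha (Or.inl h)
  have ho := Y.top.top_mem
  have s : ∀ b : Ch (Ch P), b.top.top ∈ A → b ≤ Y → sv A w Y.top.top b ≤ sv A w Y.top.top a →
      b.1 ⊆ Y.1.filter fun d => d ∈ KK A ∧ mv A w Y.top.top d ≤ sv A w Y.top.top a :=
    fun b hb k l d hd => mem_filter.2 ⟨k hd, kk_of_le hb (Ch.le_top hd), (le_sv _ hd).trans l⟩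
  have sa := s a ha h le_rfl
  let m := Y.sub _ (a.2.1.mono sa) (filter_subset _ _)
  have hm : m ≤ Y := filter_subset _ _
  refine ⟨m, mem_of_kk hA ha (Ch.top_mono (show a ≤ m from sa)) (mem_filter.1 m.top_mem).2.1, hm,
    ?_, fun b hb k e => s b hb k ?_⟩
  · rw [thk_eq hw hT ho hm, thk_eq hw hT ho h,
      le_antisymm (sv_le.2 fun d hd => (mem_filter.1 hd).2.2) (sv_mono _ (show a ≤ m from sa))]
  · rw [thk_eq hw hT ho k, thk_eq hw hT ho h] at e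
    omega

theorem ctr_over (hA : A.OrdConnected) (hN : Nice A) {X : Ch (Ch P)} (hX : X.top.top ∈ Om A)
    {Z : Set (Ch P)} (hZ : ∀ d : Ch P, d.top ∈ A → d ∈ Z) (hXZ : ∀ d ∈ X.1, d ∈ Z) :
    Ctr {C | X ≤ C ∧ (∀ d ∈ C.1, d ∈ Z) ∧ Mt (Ch.top ⁻¹' A) C} := by
  rw [meet X Z (Ch.top ⁻¹' A) fun d hd => ⟨hXZ d hd, (om_dn hA hX (Ch.top_mono (Ch.le_top hd))).1⟩]
  convert (ws_up X.top A).ctr_iff.2 (Nice.ctr_ge hA hN hX) using 1
  ext d
  exact ⟨fun k => ⟨(k.2.2 _ X.top_mem).resolve_left fun l =>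
    (om_dn hA hX (Ch.top_mono l)).1 k.1, k.1⟩,
    fun k => ⟨k.2, hZ d k.2, fun x hx => Or.inr ((Ch.le_top hx).trans k.1)⟩⟩

section low
variable (hA : A.OrdConnected) (hw : Coc A w) (hm : Mono A w) {X : Ch (Ch P)}
  (hX : X.top.top ∈ Om A)
include hA hw hm hX

/-- over a point of `O₋`: the value of `thk` -/
theorem thk_om (hj : JK A w) {b : Ch (Ch P)} (hb : b.top.top ∈ A) (h : X ≤ b) :
    0 ≤ thk A w X b ∧ thk A w X b ≤ 1 ∧ (0 < thk A w X b ↔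
      Mt {d : Ch P | d.top ∈ Om A ∧ X.top.top ≤ d.top ∧ 0 < w X.top.top d.top} b) := by
  have hT := dom2 hb Cm.rfl
  have hl := Ch.top_mono h
  have ho := hl X.top.top_mem
  have le0 : ∀ p ∈ b.top.1, p ≤ X.top.top → pot w X.top.top p ≤ 0 := fun p hp k =>
    (pot_mono hw hm hT ho hp ho k).trans_eq (pot_self hw hT ho)
  have e0 : sv A w X.top.top X = 0 := le_antisymm (sv_le.2 fun d hd =>
    (mv_le_top hw hm hT ho ((Ch.le_top hd).trans hl)).trans (le0 _ (hl (Ch.le_top hd d.top_mem))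
      (Ch.top_mono (Ch.le_top hd))))
    ((le_sv _ X.top_mem).trans' (by rw [mv_out hX.1, pot_self hw hT ho]))
  have k : ∀ d ∈ b.1, mv A w X.top.top d ≤ 0 ∨
      (d.top ∈ Om A ∧ X.top.top ≤ d.top ∧ mv A w X.top.top d = w X.top.top d.top) := by
    intro d hd
    have hd' := Ch.le_top hd
    by_cases a : d.top ∈ A
    · have : X.top ≤ d := (b.total (h X.top_mem) hd).resolve_right fun l =>
        (om_dn hA hX (Ch.top_mono l)).1 a
      exact Or.inl (mv_in a ▸ le0 _ (hd' d.bot_mem) (Ch.bot_le (this X.top.top_mem)))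
    · rw [mv_out a]
      exact (b.top.total (hd' d.top_mem) ho).imp (le0 _ (hd' d.top_mem)) fun l =>
        ⟨om_of_le hb (Ch.top_mono hd') a, l, pot_ge w l⟩
  rw [thk_eq hw hT ho h, e0, sub_zero]
  refine ⟨e0 ▸ sv_mono _ h, sv_le.2 fun d hd => ?_, lt_sv.trans ⟨fun ⟨d, hd, l⟩ => ?_,
    fun ⟨d, hd, l⟩ => ⟨d, hd, by rw [mv_out l.1.1, pot_ge w l.2.1]; exact l.2.2⟩⟩⟩
  · rcases k d hd with a | a
    · omega
    · exact a.2.2 ▸ hj _ _ (Or.inr a.1) a.2.1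
  · rcases k d hd with a | a
    · omega
    · exact ⟨d, hd, a.1, a.2.1, a.2.2 ▸ l⟩

theorem ctr_om (hN : Nice A) (hj : JK A w) (hr : BR A w) {a : Ch (Ch P)} (ha : a.top.top ∈ A)
    (h : X ≤ a) :
    Ctr {b : Ch (Ch P) | b.top.top ∈ A ∧ X ≤ b ∧ thk A w X b = thk A w X a} := by
  set S := {d : Ch P | d.top ∈ Om A ∧ X.top.top ≤ d.top ∧ 0 < w X.top.top d.top} with hS
  have H := fun b hb k => thk_om hA hw hm hX hj (b := b) hb k
  rw [← hS] at H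
  have Ha := H a ha h
  have om : ∀ D : Ch (Ch P), D.top.top ∈ Om A → ∀ d ∈ D.1, d.top ∈ Om A := fun D hD d hd =>
    om_dn hA hD (Ch.top_mono (Ch.le_top hd))
  by_cases h0 : Mt S a
  swap
  · convert ctr_over hA hN hX (Z := KK A \ S) (fun d hd => ⟨Or.inl hd, fun k => k.1.1 hd⟩)
      fun d hd => ⟨Or.inr (om X hX d hd), fun k => h0 ⟨d, h hd, k⟩⟩ using 1
    ext b
    refine ⟨fun ⟨hb, k, e⟩ => ⟨k, fun d hd => ⟨kk_of_le hb (Ch.le_top hd), fun l => ?_⟩,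
      _, b.top_mem, hb⟩, fun ⟨k, l, m⟩ => ?_⟩
    · exact h0 (Ha.2.2.1 (e ▸ (H b hb k).2.2.2 ⟨d, hd, l⟩))
    · have hb := (tt_iff hA).2 ⟨fun d hd => (l d hd).1, m⟩
      have Hb := H b hb k
      have n1 := mt Hb.2.2.1 fun ⟨d, hd, k⟩ => (l d hd).2 k
      have n2 := mt Ha.2.2.1 h0
      exact ⟨hb, k, by omega⟩
  have k : ∀ C : Ch (Ch P), ∃ D : Ch (Ch P), X ≤ C → D.1 = C.1.filter (·.top ∉ A) := fun C => by
    by_cases l : X ≤ C
    · exact ⟨C.sub _ ⟨_, mem_filter.2 ⟨l X.top_mem, hX.1⟩⟩ (filter_subset _ _), fun _ => rfl⟩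
    · exact ⟨C, fun k => absurd k l⟩
  choose f hf using k
  have mf : ∀ C, X ≤ C → ∀ d, d ∈ (f C).1 ↔ d ∈ C.1 ∧ d.top ∉ A := fun C l d => by
    rw [hf C l, mem_filter]
  have one := Ha.2.2.2 h0
  obtain ⟨d₀, -, k0⟩ := h0
  refine (WS.ctr_iff (f := f) ?_).2 ((ctr_up2 X {y | y ∈ Om A ∧ 0 < w X.top.top y}).2 (by
    convert hr _ hX _ k0.1 k0.2.1 k0.2.2 using 1
    ext; simp only [Set.mem_setOf_eq]; tauto))
  refine WS.of_ge (fun C hC => ?_) (fun C hC D hD l d hd => (mf D hD.2.1 d).2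
    ⟨l ((mf C hC.2.1 d).1 hd).1, ((mf C hC.2.1 d).1 hd).2⟩) fun D hD => ?_
  · obtain ⟨t1, t2⟩ := (mf C hC.2.1 _).1 (f C).top_mem
    obtain ⟨d, hd, l⟩ := (H C hC.1 hC.2.1).2.2.1 (hC.2.2 ▸ one)
    refine ⟨fun x hx => (mf C hC.2.1 x).2 ⟨hC.2.1 hx, (om X hX x hx).1⟩,
      om_of_le hC.1 (Ch.top_mono (Ch.le_top t1)) t2, ?_⟩
    have l1 := Ch.top_mono (Ch.le_top ((mf C hC.2.1 d).2 ⟨hd, l.1.1⟩))
    have := pot_mono hw hm (dom2 hC.1 Cm.rfl) (Ch.top_mono hC.2.1 X.top.top_mem)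
      (Ch.le_top hd d.top_mem) (Ch.le_top t1 (f C).top.top_mem) l1
    rw [pot_ge w l.2.1, pot_ge w (l.2.1.trans l1)] at this
    exact l.2.2.trans_le this
  · convert ctr_over hA hN hD.2.1 (Z := KK A) (fun d hd => Or.inl hd)
      fun d hd => Or.inr (om D hD.2.1 d hd) using 1
    ext b
    refine ⟨fun ⟨⟨hb, k, _⟩, l⟩ => ⟨fun d hd => ((mf b k d).1 (l hd)).1, (tt_iff hA).1 hb⟩,
      fun ⟨k, l⟩ => ?_⟩
    have hb := (tt_iff hA).2 l
    have k' := hD.1.trans k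
    have Hb := H b hb k'
    have := Hb.2.2.2 ⟨_, k D.top_mem, hD.2.1, Ch.top_mono (Ch.top_mono hD.1), hD.2.2⟩
    exact ⟨⟨hb, k', by omega⟩, fun d hd => (mf b k' d).2 ⟨k hd, (om D hD.2.1 d hd).1⟩⟩

end low

end Crest.Agent.X212.Alg36
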