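import Crest.Agent.X212.Alg36.Cut2b

/-! CUT2 (helper36): the cut along a thickened surface is nice and thick. -/

set_option autoImplicit false
set_option linter.unusedSectionVars false

namespace Crest.Agent.X212.Alg36

open Finset Classical
open Crest.Agent.X212.Hp13
open Crest.Agent.X212.Kh11 (WS sctr_min sctr_max)
open Crest.Agent.X212.Cut21 (pot pot_ge pot_le thk JK BR om_dn Fr Thick Cut2Stmt)

variable {P : Type} [PartialOrder P] [Fintype P] {A : Set P} {w : P → P → ℤ}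

/-- the first vertex with top in `A` -/
theorem exists_first (hA : A.OrdConnected) {X : Ch (Ch P)} (hX : X.top.top ∈ A) :
    ∃ y ∈ X.1, y.top ∈ A ∧ (∀ x ∈ X.1, x.top ∈ A → y ≤ x) ∧
      ∀ x ∈ X.1, x.top ∉ A → x ≤ y ∧ ∀ p ∈ x.1, p ∉ A := by
  let S := X.sub (X.1.filter (·.top ∈ A)) ⟨_, mem_filter.2 ⟨X.top_mem, hX⟩⟩ (filter_subset _ _)
  obtain ⟨h1, h2⟩ := mem_filter.1 S.bot_mem
  refine ⟨S.bot, h1, h2, fun x hx k => Ch.bot_le (c := S) (mem_filter.2 ⟨hx, k⟩),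
    fun x hx k => ⟨(X.total hx h1).resolve_right fun l => k ?_, fun p hp => ?_⟩⟩
  · exact hA.out h2 hX ⟨Ch.top_mono l, Ch.top_mono (Ch.le_top hx)⟩
  · exact (om_dn hA (om_of_le hX (Ch.top_mono (Ch.le_top hx)) k) (Ch.le_top hp)).1

theorem top_eq_of {C D : Ch P} (h : D ≤ C) (k : C.top ∈ D.1) : D.top = C.top :=
  le_antisymm (Ch.top_mono h) (Ch.le_top k)

section hi
variable (hA : A.OrdConnected) (hw : Coc A w) (hm : Mono A w) {X : Ch (Ch P)}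
  (hX : X.top.top ∈ A)
include hA hw hm hX

theorem thk_up {C : Ch (Ch P)} (h : X ≤ C) :
    thk A w X C = sv A w X.top.top C - sv A w X.top.top X :=
  thk_eq hw (dom2 hX (Or.inl h)) (Ch.top_mono h X.top.top_mem) h

theorem umono {T : Ch P} (h : X.top ≤ T) {p q : P} (hp : p ∈ T.1) (hq : q ∈ T.1) (k : p ≤ q) :
    pot w X.top.top p ≤ pot w X.top.top q :=
  pot_mono hw hm (dom_of_cm hX (Or.inl h)) (h X.top.top_mem) hp hq k

theorem mv_le {T d : Ch P} (h : X.top ≤ T) (k : d ≤ T) :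
    mv A w X.top.top d ≤ pot w X.top.top d.top :=
  mv_le_top hw hm (dom_of_cm hX (Or.inl h)) (h X.top.top_mem) k

/-- vertices over a vertex of `X` with top in `A` are low -/
theorem low_of_ge {T x d : Ch P} (h : X.top ≤ T) (hx : x ∈ X.1) (k : x ≤ d) (hd : d ≤ T) :
    pot w X.top.top d.bot ≤ sv A w X.top.top X := by
  have hx' := (Ch.le_top hx).trans h
  refine (umono hA hw hm hX h (hd d.bot_mem) (hx' x.bot_mem) (Ch.bot_anti k)).trans
    (le_trans ?_ (le_sv _ hx))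
  unfold mv
  split_ifs
  exacts [le_rfl, umono hA hw hm hX h (hx' x.bot_mem) (hx' x.top_mem) x.bot_le_top]

theorem hi_le {b : Ch (Ch P)} (hb : b.top.top ∈ A) (h : X ≤ b) {d : Ch P} (hd : d ∈ b.1)
    (k : sv A w X.top.top X < mv A w X.top.top d) : d ≤ X.top :=
  (b.total hd (h X.top_mem)).resolve_right fun l => k.not_ge (by
    rw [mv_in (hA.out hX hb ⟨Ch.top_mono l, Ch.top_mono (Ch.le_top hd)⟩)]
    exact low_of_ge hA hw hm hX (Ch.top_mono h) X.top_mem l (Ch.le_top hd))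

theorem thk_le_one (hj : JK A w) {b : Ch (Ch P)} (hb : b.top.top ∈ A) (h : X ≤ b) :
    thk A w X b ≤ 1 := by
  rw [thk_up hA hw hm hX h, sub_le_iff_le_add', sv_le]
  intro d hd
  by_contra k
  have l := hi_le hA hw hm hX hb h hd (by omega)
  have h1 := mv_le hA hw hm hX le_rfl l
  have h2 := umono hA hw hm hX le_rfl (l d.top_mem) X.top.top_mem (Ch.top_mono l)
  have h3 := le_sv (A := A) (w := w) X.top.top X.top_mem
  have h4 := hj _ _ (Or.inl hX) X.top.bot_le_top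
  rw [pot_self hw (dom2 hX Cm.rfl) X.top.top_mem] at h2
  rw [mv_in hX, pot_le hw hX X.top.bot_le_top] at h3
  omega

/-- the insertable high vertices -/
theorem ctr_H {d₀ : Ch P} (h0 : d₀ ∈ {d : Ch P | d ∈ {d : Ch P | d ≤ X.top ∧
    sv A w X.top.top X < mv A w X.top.top d} ∧ d ∈ KK A ∧ ∀ x ∈ X.1, Cm d x}) :
    Ctr {d : Ch P | d ∈ {d : Ch P | d ≤ X.top ∧ sv A w X.top.top X < mv A w X.top.top d} ∧
      d ∈ KK A ∧ ∀ x ∈ X.1, Cm d x} := by
  obtain ⟨y, hy, y1, y2, y3⟩ := exists_first hA hX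
  have hyT := Ch.le_top hy
  set H := {d : Ch P | d ∈ {d : Ch P | d ≤ X.top ∧ sv A w X.top.top X < mv A w X.top.top d} ∧
      d ∈ KK A ∧ ∀ x ∈ X.1, Cm d x} with hH
  have um := fun p q => umono hA hw hm hX (p := p) (q := q) le_rfl
  have ley : ∀ d ∈ H, d ≤ y := fun d hd => (hd.2.2 y hy).resolve_right fun l => hd.1.2.not_ge (by
    rw [mv_in (mem_of_kk hA y1 l hd.2.1)]
    exact low_of_ge hA hw hm hX le_rfl hy l hd.1.1)
  have hit : ∀ d ∈ H, sv A w X.top.top X < pot w X.top.top d.top := fun d hd =>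
    hd.1.2.trans_le (mv_le hA hw hm hX le_rfl hd.1.1)
  by_cases hx : ∃ x ∈ X.1, x.top ∉ A
  · obtain ⟨x, hx, hx'⟩ := hx
    have out : ∀ d ∈ H, d.1 ⊆ y.1.filter (· ∉ A) := fun d hd p hp => by
      refine mem_filter.2 ⟨ley d hd hp, (om_dn hA (om_of_le y1 (Ch.top_mono (ley d hd))
        fun k => ?_) (Ch.le_top hp)).1⟩
      rcases hd.2.2 x hx with l | l
      · exact hx' (hA.out k y1 ⟨Ch.top_mono l, Ch.top_mono (y3 x hx hx').1⟩)
      · exact hd.1.2.not_ge (mv_in k ▸ low_of_ge hA hw hm hX le_rfl hx l hd.1.1)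
    let j := y.sub _ (d₀.2.1.mono (out d₀ h0)) (filter_subset _ _)
    have hj : j ≤ y := filter_subset _ _
    refine sctr_max (m := j) ⟨⟨hj.trans hyT, ?_⟩, kk_of_le hX (hj.trans hyT), fun t ht => ?_⟩ out
    · rw [mv_out (mem_filter.1 j.top_mem).2]
      exact (hit d₀ h0).trans_le (um _ _ (h0.1.1 d₀.top_mem) (hyT (hj j.top_mem))
        (Ch.top_mono (show d₀ ≤ j from out d₀ h0)))
    · by_cases k : t.top ∈ A
      · exact Or.inl (hj.trans (y2 t ht k))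
      · exact Or.inr fun p hp => mem_filter.2 ⟨(y3 t ht k).1 hp, (y3 t ht k).2 p hp⟩
  · push Not at hx
    have mem : ∀ d : Ch P, d ≤ y → (∀ p ∈ d.1, sv A w X.top.top X < pot w X.top.top p) → d ∈ H :=
      fun d k l => ⟨⟨k.trans hyT, by unfold mv; split_ifs; exacts [l _ d.bot_mem, l _ d.top_mem]⟩,
        kk_of_le hX (k.trans hyT), fun t ht => Or.inl (k.trans (y2 t ht (hx t ht)))⟩
    have ws : WS {d : Ch P | d ≤ y ∧ ∀ p ∈ d.1, sv A w X.top.top X < pot w X.top.top p} H id :=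
      WS.of_int' (fun d hd => mem d hd.1 hd.2) fun d hd =>
        ⟨d.sub (d.1.filter fun p => sv A w X.top.top X < pot w X.top.top p)
          ⟨_, mem_filter.2 ⟨d.top_mem, hit d hd⟩⟩ (filter_subset _ _),
          ⟨(filter_subset _ _).trans (ley d hd), fun p hp => (mem_filter.1 hp).2⟩,
          filter_subset _ _, fun b hb k p hp => mem_filter.2 ⟨k hp, hb.2 p hp⟩⟩
    exact ws.ctr_iff.1 (sctr_max (m := y.sub
      (y.1.filter fun p => sv A w X.top.top X < pot w X.top.top p)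
        ⟨_, mem_filter.2 ⟨ley d₀ h0 d₀.top_mem, hit d₀ h0⟩⟩ (filter_subset _ _))
      ⟨filter_subset _ _, fun p hp => (mem_filter.1 hp).2⟩
      fun b hb p hp => mem_filter.2 ⟨hb.1 hp, hb.2 p hp⟩)

theorem exists_hi {b : Ch (Ch P)} (hb : b.top.top ∈ A) (h : X ≤ b) (k : 0 < thk A w X b) :
    ∃ d ∈ b.1, d ≤ X.top ∧ sv A w X.top.top X < mv A w X.top.top d := by
  rw [thk_up hA hw hm hX h, sub_pos, lt_sv] at k
  obtain ⟨d, hd, k⟩ := k
  exact ⟨d, hd, hi_le hA hw hm hX hb h hd k, k⟩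

theorem ctr_hi {a : Ch (Ch P)} (ha : a.top.top ∈ A) (h : X ≤ a) (k : 0 < thk A w X a) :
    Ctr {b : Ch (Ch P) | b.top.top ∈ A ∧ X ≤ b ∧ 0 < thk A w X b} := by
  obtain ⟨d, hd, l⟩ := exists_hi hA hw hm hX ha h k
  convert (meet X (KK A) {d : Ch P | d ≤ X.top ∧ sv A w X.top.top X < mv A w X.top.top d}
    fun x hx => ⟨kk_of_le hX (Ch.le_top hx), fun k => k.2.not_ge (le_sv _ hx)⟩).2
    (ctr_H hA hw hm hX ⟨l, kk_of_le ha (Ch.le_top hd), fun x hx => a.cm hd (h hx)⟩) using 1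
  ext b
  refine ⟨fun ⟨hb, k, l⟩ => ⟨k, ((tt_iff hA).1 hb).1, exists_hi hA hw hm hX hb k l⟩,
    fun ⟨k, l, e, he, m⟩ => ⟨mem_of_kk hA hX (Ch.top_mono k) (l _ b.top_mem), k, ?_⟩⟩
  rw [thk_up hA hw hm hX k, sub_pos, lt_sv]
  exact ⟨e, he, m.2⟩

theorem conn_out (ht : Thick A) :
    Conn {Y : Ch (Ch P) | X ≤ Y ∧ (Y.top.top ∉ A ∨ 0 < thk A w X Y)} := by
  have c1 := (conn_up2 X Aᶜ).2 (ht.out _ hX)
  have s1 : {C : Ch (Ch P) | X ≤ C ∧ C.top.top ∈ Aᶜ} ⊆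
      {Y : Ch (Ch P) | X ≤ Y ∧ (Y.top.top ∉ A ∨ 0 < thk A w X Y)} := fun _ k => ⟨k.1, Or.inl k.2⟩
  have s2 : {b : Ch (Ch P) | b.top.top ∈ A ∧ X ≤ b ∧ 0 < thk A w X b} ⊆
      {Y : Ch (Ch P) | X ≤ Y ∧ (Y.top.top ∉ A ∨ 0 < thk A w X Y)} :=
    fun _ k => ⟨k.2.1, Or.inr k.2.2⟩
  have mixed : ∀ Y Z : Ch (Ch P), X ≤ Y → Y.top.top ∉ A → Z.top.top ∈ A → X ≤ Z →
      0 < thk A w X Z → Rch {Y : Ch (Ch P) | X ≤ Y ∧ (Y.top.top ∉ A ∨ 0 < thk A w X Y)} Z Y := by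
    intro Y Z y1 y2 z1 z2 z3
    obtain ⟨d, hd, l1, l2⟩ := exists_hi hA hw hm hX z1 z2 z3
    have cd : ∀ x ∈ X.1, Cm d x := fun x hx => Z.cm hd (z2 hx)
    have m1 : X.ins d cd ∈ {b : Ch (Ch P) | b.top.top ∈ A ∧ X ≤ b ∧ 0 < thk A w X b} :=
      ⟨by rwa [top_ins cd l1], X.le_ins _ _, by
        rw [thk_up hA hw hm hX (X.le_ins _ _), sub_pos, lt_sv]
        exact ⟨d, mem_insert_self _ _, l2⟩⟩
    have e : (X.ins d cd).top ≤ Y.top := by rw [top_ins cd l1]; exact Ch.top_mono y1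
    have ct : ∀ x ∈ (X.ins d cd).1, Cm Y.top x := fun x hx => Or.inr ((Ch.le_top hx).trans e)
    have m2 : (X.ins d cd).ins _ ct ∈ {C : Ch (Ch P) | X ≤ C ∧ C.top.top ∈ Aᶜ} :=
      ⟨(X.le_ins _ _).trans (Ch.le_ins _ _ _), by rwa [top_ins' ct e]⟩
    exact (((ctr_hi hA hw hm hX z1 z2 z3).conn _ ⟨z1, z2, z3⟩ _ m1).mono s2).trans
      ((Rch.of_cm (s2 m1) (s1 m2) (Or.inl (Ch.le_ins _ _ _))).trans ((c1 _ m2 _ ⟨y1, y2⟩).mono s1))
  intro Y hY Z hZ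
  by_cases a : Y.top.top ∈ A <;> by_cases b : Z.top.top ∈ A
  · have y := hY.2.resolve_left (not_not.2 a)
    exact ((ctr_hi hA hw hm hX a hY.1 y).conn _ ⟨a, hY.1, y⟩ _
      ⟨b, hZ.1, hZ.2.resolve_left (not_not.2 b)⟩).mono s2
  · exact mixed Z Y hZ.1 b a hY.1 (hY.2.resolve_left (not_not.2 a))
  · exact (mixed Y Z hY.1 a b hZ.1 (hZ.2.resolve_left (not_not.2 b))).symm
  · exact (c1 _ ⟨hY.1, a⟩ _ ⟨hZ.1, b⟩).mono s1

theorem ctr_inn (ht : Thick A) : Ctr {C : Ch (Ch P) | X ≤ C ∧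
    ∀ Y, C ≤ Y → Y.top.top ∈ A ∧ thk A w X Y = 0} := by
  obtain ⟨y, hy, y1, y2, y3⟩ := exists_first hA hX
  have hyT := Ch.le_top hy
  have yb := low_of_ge hA hw hm hX le_rfl hy le_rfl hyT
  let l := y.sub (y.1.filter fun p => pot w X.top.top p ≤ sv A w X.top.top X)
    ⟨_, mem_filter.2 ⟨y.bot_mem, yb⟩⟩ (filter_subset _ _)
  let k := y.sub (y.1.filter fun p => p ∈ A ∨ pot w X.top.top p ≤ sv A w X.top.top X)
    ⟨_, mem_filter.2 ⟨y.top_mem, Or.inl y1⟩⟩ (filter_subset _ _)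
  have lk : l ≤ k := fun p hp => mem_filter.2 ⟨(mem_filter.1 hp).1, Or.inr (mem_filter.1 hp).2⟩
  have ky : k ≤ y := filter_subset _ _
  have kt : k.top ∈ A := by
    rw [top_eq_of ky (mem_filter.2 ⟨y.top_mem, Or.inl y1⟩)]; exact y1
  have xl : ∀ x ∈ X.1, y ≤ x ∨ x ≤ l := fun x hx => by
    by_cases a : x.top ∈ A
    · exact Or.inl (y2 x hx a)
    · refine Or.inr fun p hp => mem_filter.2 ⟨(y3 x hx a).1 hp, ?_⟩
      exact (umono hA hw hm hX le_rfl (Ch.le_top hx hp) (Ch.le_top hx x.top_mem)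
        (Ch.le_top hp)).trans (mv_out (w := w) a ▸ le_sv _ hx)
  have cl : ∀ x ∈ X.1, Cm l x := fun x hx => (xl x hx).imp ((lk.trans ky).trans) id
  have ck : ∀ x ∈ X.1, Cm k x := fun x hx => (xl x hx).imp ky.trans (·.trans lk)
  let E : Set P := {e | ∀ p, e ≤ p → p ∈ A}
  let F : Set (Ch (Ch P)) := {C | X ≤ C ∧ (∃ d ∈ C.1, d ≤ l) ∧ (∃ d ∈ C.1, d.top ∈ A ∧ d ≤ k) ∧
    C.top.top ∈ E}
  have up : IsUpperSet F := fun C D h ⟨a, ⟨d, hd, b⟩, ⟨e, he, c⟩, t⟩ =>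
    ⟨a.trans h, ⟨d, h hd, b⟩, ⟨e, h he, c⟩, fun p hp =>
      t p ((Ch.top_mono (Ch.top_mono h)).trans hp)⟩
  have e0 : {C : Ch (Ch P) | X ≤ C ∧ ∀ Y, C ≤ Y → Y.top.top ∈ A ∧ thk A w X Y = 0} = F := by
    ext C
    refine and_congr_right fun hC => ⟨fun H => ?_, fun ⟨⟨d, hd, b⟩, ⟨e, he, c⟩, t⟩ Y hY => ?_⟩
    · have hT := Ch.top_mono hC
      have hCA := (H C le_rfl).1
      have low : ∀ d (c : ∀ x ∈ C.1, Cm d x), mv A w X.top.top d ≤ sv A w X.top.top X :=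
        fun d c => by
          have := (H _ (C.le_ins d c)).2
          rw [thk_up hA hw hm hX (hC.trans (C.le_ins d c))] at this
          have := le_sv (A := A) (w := w) X.top.top (C := C.ins d c) (mem_insert_self _ _)
          omega
      refine ⟨⟨C.bot, C.bot_mem, fun p hp => mem_filter.2 ⟨Ch.bot_le (hC hy) hp, ?_⟩⟩, ?_,
        fun p hp => ?_⟩
      · exact mv_pt (A := A) (w := w) _ p ▸ low (Ch.pt p) fun x hx =>
          Or.inl (Ch.pt_le.2 (Ch.bot_le hx hp))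
      · obtain ⟨u, hu, u1, u2, u3⟩ := exists_first hA hCA
        refine ⟨u, hu, u1, fun p hp => mem_filter.2 ⟨u2 y (hC hy) y1 hp,
          or_iff_not_imp_left.2 fun a => ?_⟩⟩
        let j := u.sub (u.1.filter (· ∉ A)) ⟨p, mem_filter.2 ⟨hp, a⟩⟩ (filter_subset _ _)
        have hj : j ≤ u := filter_subset _ _
        have := low j fun x hx => by
          by_cases a : x.top ∈ A
          · exact Or.inl (hj.trans (u2 x hx a))
          · exact Or.inr fun q hq => mem_filter.2 ⟨(u3 x hx a).1 hq, (u3 x hx a).2 q hq⟩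
        rw [mv_out (mem_filter.1 j.top_mem).2] at this
        exact (umono hA hw hm hX hT (Ch.le_top hu hp) (Ch.le_top hu (hj j.top_mem))
          (Ch.le_top (c := j) (mem_filter.2 ⟨hp, a⟩))).trans this
      · have c1 : ∀ x ∈ C.top.1, Cm p x := fun x hx => Or.inr ((Ch.le_top hx).trans hp)
        have c2 : ∀ x ∈ C.1, Cm (C.top.ins p c1) x := fun x hx =>
          Or.inr ((Ch.le_top hx).trans (Ch.le_ins _ _ _))
        have := (H _ (C.le_ins _ c2)).1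
        rwa [top_ins' c2 (Ch.le_ins _ _ _), top_ins' c1 hp] at this
    · have hXY := hC.trans hY
      have hT := Ch.top_mono hXY
      have hYA := t _ (Ch.top_mono (Ch.top_mono hY))
      refine ⟨hYA, ?_⟩
      rw [thk_up hA hw hm hX hXY, sub_eq_zero]
      refine le_antisymm (sv_le.2 fun g hg => ?_) (sv_mono _ hXY)
      have g1 := mv_le hA hw hm hX hT (Ch.le_top hg)
      rcases Y.total hg (hY hd) with a | a
      · exact g1.trans (mem_filter.1 (b (a g.top_mem))).2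
      by_cases a' : g.top ∈ A
      · rw [mv_in a']
        exact (umono hA hw hm hX hT (Ch.le_top hg g.bot_mem) (Ch.le_top (hY hd) d.bot_mem)
          (Ch.bot_anti a)).trans (mem_filter.1 (b d.bot_mem)).2
      rcases Y.total hg (hY he) with a'' | a''
      · exact g1.trans ((mem_filter.1 (c.2 (a'' g.top_mem))).2.resolve_left a')
      · exact absurd (hA.out c.1 hYA ⟨Ch.top_mono a'', Ch.top_mono (Ch.le_top hg)⟩) a'
  have sub : ∀ (C : Ch (Ch P)) (m : Ch P), X ≤ C → m ≤ y → (∀ x ∈ X.1, Cm m x) →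
      ∃ D : Ch (Ch P), D ≤ C ∧ X ≤ D ∧ D.top = C.top ∧ ∀ x, x ∈ D.1 ↔ x ∈ C.1 ∧ Cm m x :=
    fun C m hC a b => by
      have s : X.1 ⊆ C.1.filter (Cm m) := fun x hx => mem_filter.2 ⟨hC hx, b x hx⟩
      exact ⟨C.sub _ (X.2.1.mono s) (filter_subset _ _), filter_subset _ _, s,
        top_eq_of (filter_subset _ _) (mem_filter.2 ⟨C.top_mem,
          Or.inl (a.trans (hyT.trans (Ch.top_mono hC)))⟩), fun x => mem_filter⟩
  rw [e0]
  refine (force_up up k fun C ⟨a, ⟨d, hd, b⟩, ⟨e, he, c⟩, t⟩ => ?_).ctr_iff.1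
    ((force_up (F := {C | C ∈ F ∧ k ∈ C.1}) (fun C D h a => ⟨up h a.1, h a.2⟩) l
      fun C ⟨⟨a, ⟨d, hd, b⟩, _, t⟩, c⟩ => ?_).ctr_iff.1 ?_)
  · obtain ⟨D, h1, h2, h3, h4⟩ := sub C k a ky ck
    exact ⟨D, ⟨h2, ⟨d, (h4 d).2 ⟨hd, Or.inr (b.trans lk)⟩, b⟩,
      ⟨e, (h4 e).2 ⟨he, Or.inr c.2⟩, c⟩, h3 ▸ t⟩, h1, fun x hx => ((h4 x).1 hx).2⟩
  · obtain ⟨D, h1, h2, h3, h4⟩ := sub C l a (lk.trans ky) cl
    have := (h4 k).2 ⟨c, Or.inl lk⟩
    exact ⟨D, ⟨⟨h2, ⟨d, (h4 d).2 ⟨hd, Or.inr b⟩, b⟩, ⟨k, this, kt, le_rfl⟩, h3 ▸ t⟩, this⟩, h1,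
      fun x hx => ((h4 x).1 hx).2⟩
  have cl' : ∀ x ∈ (X.ins k ck).1, Cm l x := fun x hx => by
    rcases mem_insert.1 hx with rfl | hx
    exacts [Or.inl lk, cl x hx]
  have e1 : (X.ins k ck).top = X.top := top_ins ck (ky.trans hyT)
  have e2 : ((X.ins k ck).ins l cl').top = X.top := by
    rw [top_ins cl' (e1 ▸ (lk.trans ky).trans hyT), e1]
  have c2 : Ctr {e | e ∈ E ∧ X.top.top ≤ e} := by
    by_cases hf : X.top.top ∈ Fr A
    · convert ht.inn _ hf using 1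
      ext e
      exact ⟨fun a => ⟨a.1 e le_rfl, a.2, fun ⟨_, o, ho, b⟩ => ho (a.1 o b)⟩,
        fun a => ⟨fun p hp => by_contra fun n => a.2.2 ⟨a.1, p, n, hp⟩, a.2.1⟩⟩
    · exact sctr_min (m := X.top.top) ⟨fun p hp => by_contra fun n => hf ⟨hX, p, n, hp⟩, le_rfl⟩
        fun _ a => a.2
  convert (ctr_up2 ((X.ins k ck).ins l cl') E).2 (e2 ▸ c2) using 1
  ext C
  refine ⟨fun ⟨⟨a, b⟩, c⟩ => ⟨insert_subset c (insert_subset b a.1), a.2.2.2⟩, fun ⟨a, b⟩ => ?_⟩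
  have m1 : l ∈ C.1 := a (mem_insert_self _ _)
  have m2 : k ∈ C.1 := a (mem_insert_of_mem (mem_insert_self _ _))
  exact ⟨⟨⟨(X.le_ins _ _).trans ((Ch.le_ins _ _ _).trans a), ⟨l, m1, le_rfl⟩,
    ⟨k, m2, kt, le_rfl⟩, b⟩, m2⟩, m1⟩

end hi

theorem ctr_lev (hA : A.OrdConnected) (hw : Coc A w) (hm : Mono A w) (hN : Nice A) (hj : JK A w)
    (hr : BR A w) {a X : Ch (Ch P)} (ha : a.top.top ∈ A) (k : X ≤ a)
    (l : X.top.top ∉ A ∨ 0 < thk A w X a) :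
    Ctr {b : Ch (Ch P) | b.top.top ∈ A ∧ X ≤ b ∧ thk A w X b = thk A w X a} := by
  by_cases hX : X.top.top ∈ A
  · have l := l.resolve_left (not_not.2 hX)
    convert ctr_hi hA hw hm hX ha k l using 1
    ext b
    refine and_congr_right fun hb => and_congr_right fun k' => ?_
    have := thk_le_one hA hw hm hX hj ha k
    have := thk_le_one hA hw hm hX hj hb k'
    omega
  · exact ctr_om hA hw hm (om_of_le ha (Ch.top_mono (Ch.top_mono k)) hX) hN hj hr ha k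

/-- GOOD-CUT, part 2 -/
theorem cut2Stmt : Cut2Stmt := fun _ _ _ _ _ hs ht hw hm hj hr h =>
  ⟨nice_cut h (convex_pre Ch.top_mono (convex_pre Ch.top_mono hs.conv)) (coc_thk hw)
    (mono_thk hw) (fun _ ha _ k => thk_max hs.conv hw ha k)
      fun _ ha _ k l => ctr_lev hs.conv hw hm hs.nice hj hr ha k l,
    thick_cov h.cov (coc_thk hw) (mono_thk hw) (fun _ ha => ctr_inn hs.conv hw hm ha ht)
      fun _ ha => conn_out hs.conv hw hm ha ht⟩

end Crest.Agent.X212.Alg36
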