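import Crest.Agent.X212.Alg36.Lin

/-! ALG (helper36): cochains on the chains of a finite set `A` of a partial order. -/

set_option autoImplicit false

namespace Crest.Agent.X212.Alg36

open Finset Module

variable {α : Type*} [PartialOrder α]

open Classical in
/-- chains with `k` elements inside `A`. -/
noncomputable def chains (A : Finset α) (k : ℕ) : Finset (Finset α) :=
  A.powerset.filter fun c => IsChain (· ≤ ·) (c : Set α) ∧ c.card = k

theorem mem_chains {A : Finset α} {k : ℕ} {c : Finset α} :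
    c ∈ chains A k ↔ c ⊆ A ∧ IsChain (· ≤ ·) (c : Set α) ∧ c.card = k := by
  classical
  simp [chains]

theorem chains_mono {A B : Finset α} (h : A ⊆ B) (k : ℕ) : chains A k ⊆ chains B k := by
  intro c hc
  rw [mem_chains] at hc ⊢
  exact ⟨hc.1.trans h, hc.2⟩

open Classical in
/-- the sign of `x` in the chain `c`. -/
noncomputable def sg (c : Finset α) (x : α) : ℤ := (-1) ^ (c.filter (· < x)).card

theorem sg_sq (c : Finset α) (x : α) : sg c x * sg c x = 1 := by
  unfold sg
  rw [← pow_add, ← two_mul, pow_mul]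
  simp

theorem sg_ne (K : Type*) [Ring K] [Nontrivial K] (c : Finset α) (x : α) : (sg c x : K) ≠ 0 := by
  intro h
  have := congrArg (fun t : ℤ => (t : K)) (sg_sq c x)
  simp [h] at this

variable [DecidableEq α]

theorem erase_mem_chains {A : Finset α} {k : ℕ} {c : Finset α} (hc : c ∈ chains A (k + 1))
    {x : α} (hx : x ∈ c) : c.erase x ∈ chains A k := by
  rw [mem_chains] at hc ⊢
  refine ⟨(erase_subset _ _).trans hc.1, hc.2.1.mono (by simp), ?_⟩
  rw [card_erase_of_mem hx, hc.2.2]
  rfl

theorem sg_erase_lt {c : Finset α} {x y : α} (hx : x ∈ c) (h : x < y) :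
    sg (c.erase x) y = -sg c y := by
  classical
  unfold sg
  have : c.filter (· < y) = insert x ((c.erase x).filter (· < y)) := by
    ext t
    simp only [mem_filter, mem_insert, mem_erase]
    constructor
    · rintro ⟨h1, h2⟩
      by_cases ht : t = x
      · exact Or.inl ht
      · exact Or.inr ⟨⟨ht, h1⟩, h2⟩
    · rintro (rfl | ⟨⟨_, h1⟩, h2⟩)
      · exact ⟨hx, h⟩
      · exact ⟨h1, h2⟩
  have e : ∀ (s t : Finset α), s = t → s.card = t.card := fun _ _ h => by rw [h]
  have h2 := e _ _ this
  rw [card_insert_of_notMem (by simp)] at h2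
  convert (show (-1 : ℤ) ^ ((c.erase x).filter (· < y)).card =
    -(-1) ^ (c.filter (· < y)).card by rw [h2, pow_succ]; ring)

theorem sg_erase_nlt {c : Finset α} {x y : α} (h : ¬ x < y) : sg (c.erase x) y = sg c y := by
  classical
  unfold sg
  congr 2
  ext t
  simp only [mem_filter, mem_erase]
  constructor
  · rintro ⟨⟨_, h1⟩, h2⟩
    exact ⟨h1, h2⟩
  · rintro ⟨h1, h2⟩
    exact ⟨⟨fun e => h (e ▸ h2), h1⟩, h2⟩

variable {K : Type*} [Field K]

/-- the coboundary. -/
noncomputable def dd (φ : Finset α → K) (c : Finset α) : K := ∑ x ∈ c, (sg c x : K) * φ (c.erase x)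

theorem dd_dd (φ : Finset α → K) {c : Finset α} (hc : IsChain (· ≤ ·) (c : Set α)) :
    dd (dd φ) c = 0 := by
  unfold dd
  simp only [mul_sum]
  rw [sum_sigma']
  refine sum_involution (fun p _ => ⟨p.2, p.1⟩) ?_ ?_ ?_ ?_
  · rintro ⟨x, y⟩ hp
    simp only [mem_sigma, mem_erase] at hp
    obtain ⟨hx, hne, hy⟩ := hp
    simp only
    rw [erase_right_comm (a := y)]
    rcases hc hx hy (Ne.symm hne) with h | h
    · have hl : x < y := lt_of_le_of_ne h (Ne.symm hne)
      rw [sg_erase_lt hx hl, sg_erase_nlt (c := c) (x := y) (y := x) (not_lt_of_gt hl)]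
      push_cast
      ring
    · have hl : y < x := lt_of_le_of_ne h hne
      rw [sg_erase_lt hy hl, sg_erase_nlt (c := c) (x := x) (y := y) (not_lt_of_gt hl)]
      push_cast
      ring
  · rintro ⟨x, y⟩ hp _ h
    simp only [mem_sigma, mem_erase] at hp
    have := congrArg Sigma.fst h
    exact hp.2.1 this
  · rintro ⟨x, y⟩ hp
    simp only [mem_sigma, mem_erase] at hp ⊢
    exact ⟨hp.2.2, Ne.symm hp.2.1, hp.1⟩
  · rintro ⟨x, y⟩ _
    rfl

theorem dd_congr {φ ψ : Finset α → K} {c : Finset α} (h : ∀ x ∈ c, φ (c.erase x) = ψ (c.erase x)) :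
    dd φ c = dd ψ c := sum_congr rfl fun x hx => by rw [h x hx]

/-- the matrix of the coboundary. -/
noncomputable def mat (K : Type*) [Field K] (A : Finset α) (k : ℕ) :
    Matrix (chains A (k + 1)) (chains A k) K :=
  fun c e => ∑ x ∈ c.1, if c.1.erase x = e.1 then (sg c.1 x : K) else 0

/-- extension by zero. -/
noncomputable def ex {A : Finset α} {k : ℕ} (φ : chains A k → K) (c : Finset α) : K :=
  if h : c ∈ chains A k then φ ⟨c, h⟩ else 0

theorem ex_mem {A : Finset α} {k : ℕ} (φ : chains A k → K) {c : Finset α} (h : c ∈ chains A k) :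
    ex φ c = φ ⟨c, h⟩ := by
  simp [ex, h]

theorem ex_not {A : Finset α} {k : ℕ} (φ : chains A k → K) {c : Finset α} (h : c ∉ chains A k) :
    ex φ c = 0 := by
  simp [ex, h]

theorem mat_mulVec {A : Finset α} {k : ℕ} (φ : chains A k → K) (c : chains A (k + 1)) :
    (mat K A k).mulVec φ c = dd (ex φ) c.1 := by
  unfold dd Matrix.mulVec dotProduct mat
  simp only [sum_mul]
  rw [sum_comm]
  refine sum_congr rfl fun x hx => ?_
  have hm := erase_mem_chains c.2 hx
  rw [ex_mem φ hm, sum_eq_single ⟨_, hm⟩]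
  · simp
  · intro e _ he
    rw [if_neg, zero_mul]
    intro h
    exact he (Subtype.ext h.symm)
  · simp

theorem mat_mat {A : Finset α} {k : ℕ} (φ : chains A k → K) :
    (mat K A (k + 1)).mulVec ((mat K A k).mulVec φ) = 0 := by
  funext c
  rw [mat_mulVec, dd_congr (ψ := dd (ex φ))]
  · exact dd_dd _ (mem_chains.1 c.2).2.1
  · intro x hx
    rw [ex_mem _ (erase_mem_chains c.2 hx), mat_mulVec]

/-- the boundary of a chain `u`, read on `e`. -/
noncomputable def bd (A : Finset α) (k : ℕ) (u : Finset α → K) (e : Finset α) : K :=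
  ∑ c ∈ chains A (k + 1), u c * ∑ x ∈ c, if c.erase x = e then (sg c x : K) else 0

theorem vecMul_mat {A : Finset α} {k : ℕ} (u : chains A (k + 1) → K) (e : chains A k) :
    Matrix.vecMul u (mat K A k) e = bd A k (ex u) e.1 := by
  unfold bd Matrix.vecMul dotProduct mat
  rw [← sum_coe_sort (chains A (k + 1))]
  refine sum_congr rfl fun c _ => ?_
  rw [ex_mem u c.2]

/-- the coefficient of `e` in the boundary of `c` is `± 1` when `e` is a facet of `c`. -/
theorem coef_ne {c e : Finset α} (he : e ⊆ c) (hc : c.card = e.card + 1) :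
    (∑ x ∈ c, if c.erase x = e then (sg c x : K) else 0) ≠ 0 := by
  obtain ⟨x, hx, hxe⟩ : ∃ x, x ∈ c ∧ x ∉ e := by
    by_contra h
    push Not at h
    have := card_le_card (show c ⊆ e from h)
    omega
  have hx2 : c.erase x = e := by
    symm
    apply eq_of_subset_of_card_le
    · intro t ht
      exact mem_erase.2 ⟨fun h => hxe (h ▸ ht), he ht⟩
    · rw [card_erase_of_mem hx]
      omega
  rw [sum_eq_single x, if_pos hx2]
  · exact sg_ne K c x
  · intro y hy hyx
    rw [if_neg]
    intro h
    have : x ∈ c.erase y := mem_erase.2 ⟨Ne.symm hyx, hx⟩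
    exact hxe (h ▸ this)
  · intro h
    exact absurd hx h

theorem coef_zero {c e : Finset α} (he : ¬ e ⊆ c) :
    (∑ x ∈ c, if c.erase x = e then (sg c x : K) else 0) = 0 := by
  refine sum_eq_zero fun x _ => if_neg fun h => he ?_
  rw [← h]
  exact erase_subset _ _

end Crest.Agent.X212.Alg36
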