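import Crest.Agent.X212.Sf30.Du
import Crest.Agent.X212.Sup43.Defs

/-! EXT (helper36): a convex connected piece of a surface with positive `ee` is a local
extremum. -/

set_option autoImplicit false
set_option linter.unusedSectionVars false

namespace Crest.Agent.X212.Alg36

open Finset Classical
open Crest.Agent.X212.Hp13

variable {P : Type} [PartialOrder P] [Fintype P] {E : Set P}

/-- the chains that cross `E` from below to above -/
noncomputable def sut (E : Set P) : Finset (Ch P) :=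
  univ.filter fun c => Mt E c ∧ c.bot ∉ E ∧ c.top ∉ E

theorem mem_sut {c : Ch P} : c ∈ sut E ↔ Mt E c ∧ c.bot ∉ E ∧ c.top ∉ E := by simp [sut]

theorem three_le_sut {c : Ch P} (hE : E.OrdConnected) (h : c ∈ sut E) : 3 ≤ c.1.card := by
  obtain ⟨⟨a, ha, k⟩, h1, h2⟩ := mem_sut.1 h
  have e1 : c.bot ≠ a := fun e => h1 (e ▸ k)
  have e2 : a ≠ c.top := fun e => h2 (e ▸ k)
  have e3 : c.bot ≠ c.top := fun e => h1 (hE.out k k ⟨e ▸ Ch.le_top ha, Ch.bot_le ha⟩)
  rw [← card_eq_three.2 ⟨_, _, _, e1, e3, e2, rfl⟩]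
  exact card_le_card (insert_subset c.bot_mem (insert_subset ha (singleton_subset_iff.2 c.top_mem)))

/-- `2 ee = 2 eu - #(ends of sutures)` on a surface -/
theorem Mf.two_ee (h : Mf 2 E) (hE : E.OrdConnected) : 2 * ee E = 2 * eu E - (sut E).card := by
  have h1 := sum_top (ind E)
  have h2 := sum_bot (ind E)
  have h3 : ∑ a, bet a * ind E a = -∑ a, eps a * ind E a := by
    rw [← sum_neg_distrib]
    refine sum_congr rfl fun a _ => ?_
    by_cases k : a ∈ E
    · rw [h.bet_eq k]; ring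
    · simp [ind_of_not k]
  have h4 := Mf.sum_iMt h
  have h5 := eu_eq E
  have h6 : ∑ c : Ch P, c.sg * (if c ∈ sut E then 1 else 0) = -((sut E).card : ℤ) := by
    simp only [mul_ite, mul_one, mul_zero]
    rw [← sum_filter, filter_mem_eq_inter, univ_inter, card_eq_sum_ones, Nat.cast_sum,
      ← sum_neg_distrib]
    refine sum_congr rfl fun c hc => ?_
    rw [Ch.sg, le_antisymm (h.card_le c (mem_sut.1 hc).1) (three_le_sut hE hc)]
    norm_num
  have h7 : ∑ c : Ch P, c.sg * iMt E c = ∑ c : Ch P, c.sg * ind E c.top +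
      ∑ c : Ch P, c.sg * ind E c.bot - ∑ c : Ch P, c.sg * iIn E c +
      ∑ c : Ch P, c.sg * (if c ∈ sut E then 1 else 0) := by
    rw [← sum_add_distrib, ← sum_sub_distrib, ← sum_add_distrib]
    refine sum_congr rfl fun c _ => ?_
    rw [← mul_add, ← mul_sub, ← mul_add]
    congr 1
    by_cases a : c.bot ∈ E <;> by_cases b : c.top ∈ E
    · have : ∀ x ∈ c.1, x ∈ E := fun x hx => hE.out a b ⟨Ch.bot_le hx, Ch.le_top hx⟩
      simp [iMt_of ⟨_, c.top_mem, b⟩, ind_of_mem a, ind_of_mem b, iIn, if_pos this, mem_sut, a]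
    · have : ¬ ∀ x ∈ c.1, x ∈ E := fun k => b (k _ c.top_mem)
      simp [iMt_of ⟨_, c.bot_mem, a⟩, ind_of_mem a, ind_of_not b, iIn, if_neg this, mem_sut, a]
    · have : ¬ ∀ x ∈ c.1, x ∈ E := fun k => a (k _ c.bot_mem)
      simp [iMt_of ⟨_, c.top_mem, b⟩, ind_of_not a, ind_of_mem b, iIn, if_neg this, mem_sut, b]
    · have : ¬ ∀ x ∈ c.1, x ∈ E := fun k => a (k _ c.bot_mem)
      simp [iMt, ind_of_not a, ind_of_not b, iIn, if_neg this, mem_sut, a, b]
  rw [sum_eps_ind] at h1 h3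
  norm_num at h4
  omega

theorem extStmt : Sup43.ExtStmt := by
  intro L _ _ R E hR hE hc hn hp
  have h := hR.mono hE
  have h1 := Mf.two_ee h hc
  by_contra k
  simp only [not_or, IsLowerSet, IsUpperSet, not_forall] at k
  obtain ⟨⟨a, x, hx, ha, hx'⟩, b, y, hy, hb, hy'⟩ := k
  have m1 := pr_mix ha hx' (Or.inr hx)
  have m2 := pr_mix hb hy' (Or.inl hy)
  have h2 := Sf30.eu_le_one' h hn ⟨_, m1⟩
  rcases (sut E).eq_empty_or_nonempty with e | e
  · have n : ∀ c : Ch L, Mt E c → c.bot ∉ E → c.top ∈ E := fun c k1 k2 => by_contra fun k3 =>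
      notMem_empty c (e ▸ mem_sut.2 ⟨k1, k2, k3⟩)
    have := Sf30.eu_add_le h hn (fun c => c.bot ∈ E) (fun c m d k => propext ⟨fun l => ?_,
      fun l => ?_⟩) univ fun i _ => ?_
    · simp only [card_univ, Fintype.card_prop] at this
      omega
    · by_contra l'
      exact ((mt_compl hc m.1).1 m.2).resolve_left (not_not.2 l)
        (hc.out l (n d (m.1.mono k) l') ⟨c.bot_le_top, Ch.top_mono k⟩)
    · obtain ⟨t, ht, ht'⟩ := m.1
      exact hc.out l ht' ⟨Ch.bot_anti k, Ch.bot_le ht⟩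
    · by_cases k : i
      · exact ⟨_, m2, by rw [bot_pr hy]; simp [hb, k]⟩
      · refine ⟨_, m1, propext ⟨fun l => absurd ?_ hx', fun l => absurd l k⟩⟩
        exact hc.out l ha ⟨Ch.bot_le ((mem_pr _).2 (Or.inr rfl)), hx⟩
  · have := e.card_pos
    omega

end Crest.Agent.X212.Alg36
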