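import Crest.Agent.X212.Alg36.Cx

/-! ALG (helper36): in a strongly connected 3-dimensional pseudo-manifold, a proper part `A` with
`χ(A) ≤ 0` carries an integer cocycle that is not a coboundary. -/

set_option autoImplicit false

namespace Crest.Agent.X212.Alg36

open Finset Module

variable {α : Type*} [PartialOrder α]

/-- `z` is a cocycle on `A` (a functor from the order on `A` to `G`). -/
def FCoc {G : Type*} [Add G] (A : Finset α) (z : α → α → G) : Prop :=
  ∀ x ∈ A, ∀ y ∈ A, ∀ t ∈ A, x ≤ y → y ≤ t → z x t = z x y + z y t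

/-- `z` is a coboundary on `A`. -/
def FEx {G : Type*} [Sub G] (A : Finset α) (z : α → α → G) : Prop :=
  ∃ g : α → G, ∀ x ∈ A, ∀ y ∈ A, x ≤ y → z x y = g y - g x

/-- two `n + 1`-element chains of `P` share a facet. -/
def Adj (P : Finset α) (n : ℕ) (c c' : Finset α) : Prop :=
  c ∈ chains P (n + 1) ∧ c' ∈ chains P (n + 1) ∧ ∃ e ∈ chains P n, e ⊆ c ∧ e ⊆ c'

/-- pseudo-manifold: a chain with `n` elements has at most two extensions, and the top chains are
connected through facets. -/
structure PM (P : Finset α) (n : ℕ) : Prop where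
  two : ∀ e ∈ chains P n, ∀ a ∈ chains P (n + 1), ∀ b ∈ chains P (n + 1), ∀ c ∈ chains P (n + 1),
    e ⊆ a → e ⊆ b → e ⊆ c → a = b ∨ a = c ∨ b = c
  conn : ∀ a ∈ chains P (n + 1), ∀ b ∈ chains P (n + 1), Relation.ReflTransGen (Adj P n) a b

variable [DecidableEq α] {K : Type*} [Field K]

theorem PM.step {P : Finset α} {n : ℕ} (h : PM P n) {u : Finset α → K}
    (hu : ∀ e ∈ chains P n, bd P n u e = 0) {a b : Finset α} (hab : Adj P n a b) (ha : u a = 0) :
    u b = 0 := by
  obtain ⟨h1, h2, e, he, hea, heb⟩ := hab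
  by_cases hE : a = b
  · exact hE ▸ ha
  have := hu e he
  unfold bd at this
  rw [sum_eq_single b] at this
  · rcases mul_eq_zero.1 this with h0 | h0
    · exact h0
    · refine absurd h0 (coef_ne heb ?_)
      rw [(mem_chains.1 h2).2.2, (mem_chains.1 he).2.2]
  · intro c hc hcb
    by_cases hec : e ⊆ c
    · rcases h.two e he a h1 b h2 c hc hea heb hec with h3 | h3 | h3
      · exact absurd h3 hE
      · rw [← h3, ha, zero_mul]
      · exact absurd h3.symm hcb
    · rw [coef_zero hec, mul_zero]
  · intro h3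
    exact absurd h2 h3

/-- a top cycle supported in a proper part vanishes. -/
theorem PM.cyc_zero {P A : Finset α} {n : ℕ} (h : PM P n) (hA : A ⊆ P) {c0 : Finset α}
    (h0 : c0 ∈ chains P (n + 1)) (h0A : ¬ c0 ⊆ A) (u : chains A (n + 1) → K)
    (hu : Matrix.vecMul u (mat K A n) = 0) : u = 0 := by
  have key : ∀ e ∈ chains P n, bd P n (ex u) e = 0 := by
    intro e he
    have e1 : bd P n (ex u) e = bd A n (ex u) e := by
      unfold bd
      symm
      refine sum_subset (chains_mono hA _) fun c _ hc => ?_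
      rw [ex_not u hc, zero_mul]
    rw [e1]
    by_cases heA : e ∈ chains A n
    · have := congrFun hu ⟨e, heA⟩
      rwa [vecMul_mat] at this
    · unfold bd
      refine sum_eq_zero fun c hc => ?_
      rw [coef_zero, mul_zero]
      intro hec
      exact heA (mem_chains.2 ⟨hec.trans (mem_chains.1 hc).1, (mem_chains.1 he).2⟩)
  have z0 : ex u c0 = 0 := ex_not u fun hc => h0A (mem_chains.1 hc).1
  funext c
  have hc := h.conn c0 h0 c.1 (chains_mono hA _ c.2)
  have : ex u c.1 = 0 := by
    generalize c.1 = d at hc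
    induction hc with
    | refl => exact z0
    | tail _ h2 ih => exact h.step key h2 ih
  rwa [ex_mem u c.2] at this

theorem sg_eq {c : Finset α} {x : α} {s : Finset α} (h : ∀ t, (t ∈ c ∧ t < x) ↔ t ∈ s) :
    sg c x = (-1) ^ s.card := by
  classical
  unfold sg
  congr 2
  ext t
  rw [mem_filter, h]

theorem dd_pair (φ : Finset α → K) {x y : α} (h : x < y) : dd φ {x, y} = φ {y} - φ {x} := by
  unfold dd
  rw [sum_pair h.ne]
  have s1 : sg ({x, y} : Finset α) x = (-1) ^ (∅ : Finset α).card := sg_eq fun t => by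
    simp only [mem_insert, mem_singleton, notMem_empty, iff_false]
    rintro ⟨rfl | rfl, h2⟩
    · exact lt_irrefl _ h2
    · exact lt_asymm h h2
  have s2 : sg ({x, y} : Finset α) y = (-1) ^ ({x} : Finset α).card := sg_eq fun t => by
    simp only [mem_insert, mem_singleton]
    constructor
    · rintro ⟨rfl | rfl, h2⟩
      · rfl
      · exact absurd h2 (lt_irrefl _)
    · rintro rfl
      exact ⟨Or.inl rfl, h⟩
  have e1 : ({x, y} : Finset α).erase x = {y} := by
    rw [erase_insert (by simpa using h.ne)]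
  have e2 : ({x, y} : Finset α).erase y = {x} := by
    rw [pair_comm, erase_insert (by simpa using h.ne')]
  rw [s1, s2, e1, e2]
  simp
  ring

theorem dd_triple (φ : Finset α → K) {x y t : α} (h : x < y) (h' : y < t) :
    dd φ {x, y, t} = φ {y, t} - φ {x, t} + φ {x, y} := by
  have h'' := h.trans h'
  have n1 : x ∉ ({y, t} : Finset α) := by simp [h.ne, h''.ne]
  have n2 : y ∉ ({x, t} : Finset α) := by simp [h.ne', h'.ne]
  have n3 : t ∉ ({x, y} : Finset α) := by simp [h''.ne', h'.ne']
  unfold dd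
  rw [sum_insert n1, sum_pair h'.ne]
  have s1 : sg ({x, y, t} : Finset α) x = (-1) ^ (∅ : Finset α).card := sg_eq fun s => by
    simp only [mem_insert, mem_singleton, notMem_empty, iff_false]
    rintro ⟨rfl | rfl | rfl, h2⟩
    · exact lt_irrefl _ h2
    · exact lt_asymm h h2
    · exact lt_asymm h'' h2
  have s2 : sg ({x, y, t} : Finset α) y = (-1) ^ ({x} : Finset α).card := sg_eq fun s => by
    simp only [mem_insert, mem_singleton]
    constructor
    · rintro ⟨rfl | rfl | rfl, h2⟩
      · rfl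
      · exact absurd h2 (lt_irrefl _)
      · exact absurd h2 (lt_asymm h')
    · rintro rfl
      exact ⟨Or.inl rfl, h⟩
  have s3 : sg ({x, y, t} : Finset α) t = (-1) ^ ({x, y} : Finset α).card := sg_eq fun s => by
    simp only [mem_insert, mem_singleton]
    constructor
    · rintro ⟨rfl | rfl | rfl, h2⟩
      · exact Or.inl rfl
      · exact Or.inr rfl
      · exact absurd h2 (lt_irrefl _)
    · rintro (rfl | rfl)
      · exact ⟨Or.inl rfl, h''⟩
      · exact ⟨Or.inr (Or.inl rfl), h'⟩
  have e1 : ({x, y, t} : Finset α).erase x = {y, t} := erase_insert n1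
  have e2 : ({x, y, t} : Finset α).erase y = {x, t} := by
    rw [insert_comm]
    exact erase_insert n2
  have e3 : ({x, y, t} : Finset α).erase t = {x, y} := by
    rw [show ({x, y, t} : Finset α) = {t, x, y} by
      ext s
      simp only [mem_insert, mem_singleton]
      tauto]
    exact erase_insert n3
  rw [s1, s2, s3, e1, e2, e3, card_pair h.ne]
  simp
  ring

theorem pair_mem {A : Finset α} {x y : α} (hx : x ∈ A) (hy : y ∈ A) (h : x < y) :
    ({x, y} : Finset α) ∈ chains A 2 := by
  refine mem_chains.2 ⟨?_, ?_, card_pair h.ne⟩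
  · intro t ht
    simp only [mem_insert, mem_singleton] at ht
    rcases ht with rfl | rfl <;> assumption
  · rw [coe_pair]
    exact IsChain.pair h.le

theorem triple_mem {A : Finset α} {x y t : α} (hx : x ∈ A) (hy : y ∈ A) (ht : t ∈ A) (h : x < y)
    (h' : y < t) : ({x, y, t} : Finset α) ∈ chains A 3 := by
  have h'' := h.trans h'
  refine mem_chains.2 ⟨?_, ?_, ?_⟩
  · intro s hs
    simp only [mem_insert, mem_singleton] at hs
    rcases hs with rfl | rfl | rfl <;> assumption
  · rw [coe_insert, coe_pair]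
    refine (IsChain.pair h'.le).insert ?_
    rintro b (rfl | rfl) _
    · exact Or.inl h.le
    · exact Or.inl h''.le
  · rw [card_insert_of_notMem (by simp [h.ne, h''.ne]), card_pair h'.ne]

omit [DecidableEq α] in
theorem single_mem {A : Finset α} {x : α} (hx : x ∈ A) : ({x} : Finset α) ∈ chains A 1 :=
  mem_chains.2 ⟨by simpa using hx, by simp, card_singleton _⟩

theorem eq_pair {A c : Finset α} (hc : c ∈ chains A 2) :
    ∃ x ∈ A, ∃ y ∈ A, x < y ∧ c = {x, y} := by
  obtain ⟨h1, h2, h3⟩ := mem_chains.1 hc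
  obtain ⟨x, y, hne, rfl⟩ := card_eq_two.1 h3
  have hx : x ∈ A := h1 (by simp)
  have hy : y ∈ A := h1 (by simp)
  rcases h2 (show x ∈ _ by simp) (show y ∈ _ by simp) hne with h | h
  · exact ⟨x, hx, y, hy, lt_of_le_of_ne h hne, rfl⟩
  · exact ⟨y, hy, x, hx, lt_of_le_of_ne h hne.symm, pair_comm _ _⟩

/-- Euler characteristic of the 3-skeleton of the order complex of `A`. -/
noncomputable def chi4 (A : Finset α) : ℤ :=
  ((chains A 1).card : ℤ) - (chains A 2).card + (chains A 3).card - (chains A 4).card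

theorem ker_d1 {A : Finset α} (hex : ∀ z : α → α → K, FCoc A z → FEx A z)
    (φ : chains A 2 → K) (hφ : (mat K A 2).mulVec φ = 0) :
    ∃ ψ : chains A 1 → K, (mat K A 1).mulVec ψ = φ := by
  classical
  let z : α → α → K := fun x y => if x < y then ex φ {x, y} else 0
  have hz : FCoc A z := by
    intro x hx y hy t ht h h'
    rcases h.eq_or_lt with rfl | h
    · simp [z]
    rcases h'.eq_or_lt with rfl | h'
    · simp [z]
    have := congrFun hφ ⟨_, triple_mem hx hy ht h h'⟩
    rw [mat_mulVec, dd_triple _ h h'] at this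
    simp only [z, if_pos h, if_pos h', if_pos (h.trans h')]
    simp only [Pi.zero_apply] at this
    linear_combination -this
  obtain ⟨g, hg⟩ := hex z hz
  refine ⟨fun e => ∑ x ∈ e.1, g x, funext fun c => ?_⟩
  obtain ⟨x, hx, y, hy, h, hc⟩ := eq_pair c.2
  have e1 := hg x hx y hy h.le
  simp only [z, if_pos h] at e1
  rw [mat_mulVec, hc, dd_pair _ h, ex_mem _ (single_mem hx), ex_mem _ (single_mem hy)]
  simp only [sum_singleton]
  rw [← e1, ex_mem _ (pair_mem hx hy h)]
  congr 1
  exact Subtype.ext hc.symm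

/-- no first cohomology and no top cycle: the Euler characteristic is at least one. -/
theorem one_le_chi4 {A : Finset α} (hne : A.Nonempty)
    (htop : ∀ u : chains A 4 → K, Matrix.vecMul u (mat K A 3) = 0 → u = 0)
    (hex : ∀ z : α → α → K, FCoc A z → FEx A z) : 1 ≤ chi4 A := by
  classical
  have h := rank_four (mat K A 1).mulVecLin (mat K A 2).mulVecLin (mat K A 3).mulVecLin
    (fun x => mat_mat x) (surj_of_transpose _ htop) (fun φ hφ => ker_d1 hex φ hφ)
  have h1 : 1 ≤ finrank K (LinearMap.ker (mat K A 1).mulVecLin) := by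
    rw [Nat.one_le_iff_ne_zero, Ne, Submodule.finrank_eq_zero, LinearMap.ker_eq_bot']
    intro h0
    obtain ⟨x, hx⟩ := hne
    have : (fun _ => (1 : K) : chains A 1 → K) = 0 := by
      apply h0
      funext c
      obtain ⟨a, ha, b, hb, hab, hc⟩ := eq_pair c.2
      rw [Matrix.mulVecLin_apply, mat_mulVec, hc, dd_pair _ hab, ex_mem _ (single_mem ha),
        ex_mem _ (single_mem hb)]
      simp
    exact one_ne_zero (congrFun this ⟨_, single_mem hx⟩)
  simp only [finrank_fintype_fun_eq_card, Fintype.card_coe, Nat.reduceAdd] at h h1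
  unfold chi4
  omega

/-- clearing denominators. -/
theorem exists_int_coc {A : Finset α} {z : α → α → ℚ} (hz : FCoc A z) (hn : ¬ FEx A z) :
    ∃ w : α → α → ℤ, FCoc A w ∧ ¬ FEx A fun x y => (w x y : ℚ) := by
  classical
  let N : ℕ := ∏ p ∈ A ×ˢ A, (z p.1 p.2).den
  have hN : (N : ℚ) ≠ 0 := by
    have : N ≠ 0 := prod_ne_zero_iff.2 fun p _ => (z p.1 p.2).den_nz
    exact_mod_cast this
  have hw : ∀ x ∈ A, ∀ y ∈ A, ((((N : ℚ) * z x y).num : ℤ) : ℚ) = N * z x y := by
    intro x hx y hy
    obtain ⟨m, hm⟩ : (z x y).den ∣ N :=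
      dvd_prod_of_mem (fun p : α × α => (z p.1 p.2).den) (mem_product.2 ⟨hx, hy⟩ : (x, y) ∈ _)
    have : (N : ℚ) * z x y = ((m * (z x y).num : ℤ) : ℚ) := by
      rw [hm]
      push_cast
      rw [mul_right_comm, mul_comm ((z x y).den : ℚ), Rat.mul_den_eq_num]
      ring
    rw [this, Rat.num_intCast]
  refine ⟨fun x y => ((N : ℚ) * z x y).num, ?_, ?_⟩
  · intro x hx y hy t ht h h'
    have : ((((N : ℚ) * z x t).num : ℤ) : ℚ) =
        ((((N : ℚ) * z x y).num + ((N : ℚ) * z y t).num : ℤ) : ℚ) := by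
      push_cast
      rw [hw x hx t ht, hw x hx y hy, hw y hy t ht, hz x hx y hy t ht h h']
      ring
    exact_mod_cast this
  · rintro ⟨g, hg⟩
    refine hn ⟨fun x => g x / N, fun x hx y hy h => ?_⟩
    have := hg x hx y hy h
    simp only at this
    rw [hw x hx y hy] at this
    field_simp
    linear_combination this

/-- HALF, format-free: a proper nonempty part with `χ ≤ 0` of a 3-dimensional pseudo-manifold
carries an integer cocycle which is not a coboundary (not even over `ℚ`). -/
theorem PM.exists_coc {P A : Finset α} (h : PM P 3) (hA : A ⊆ P) (hne : A.Nonempty)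
    {c0 : Finset α} (h0 : c0 ∈ chains P 4) (h0A : ¬ c0 ⊆ A) (hχ : chi4 A ≤ 0) :
    ∃ w : α → α → ℤ, FCoc A w ∧ ¬ FEx A fun x y => (w x y : ℚ) := by
  by_contra hc
  have := one_le_chi4 (K := ℚ) hne (fun u hu => h.cyc_zero hA h0 h0A u hu) fun z hz => by
    by_contra hn
    exact hc (exists_int_coc hz hn)
  omega

omit [DecidableEq α] in
theorem FEx.cast {A : Finset α} {w : α → α → ℤ} (h : FEx A w) : FEx A fun x y => (w x y : ℚ) := by
  obtain ⟨g, hg⟩ := h
  refine ⟨fun x => g x, fun x hx y hy hxy => ?_⟩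
  simp only [hg x hx y hy hxy]
  push_cast
  rfl

end Crest.Agent.X212.Alg36
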