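import Crest.Agent.X212.Alg36.Two
import Crest.Agent.X212.Hp13.Defs

/-! ALG (helper36) on `Hp13/Defs`: bridge to `Kh11`, top cycles of a manifold state, discs and
spheres have no `H^1`, existence of a non exact cocycle. -/

set_option autoImplicit false
set_option linter.unusedSectionVars false

namespace Crest.Agent.X212.Alg36

open Finset Module Classical
open Crest.Agent.X212.Hp13

variable {P : Type} [PartialOrder P] [Fintype P]

/-- a set as a `Finset`. -/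
noncomputable def fs (E : Set P) : Finset P := univ.filter (· ∈ E)

@[simp] theorem mem_fs {E : Set P} {x : P} : x ∈ fs E ↔ x ∈ E := by simp [fs]

theorem rch_fs {E : Set P} {x y : P} : Kh11.Rch (fs E) x y ↔ Rch E x y := by
  unfold Kh11.Rch Rch
  have : Kh11.Stp (fs E) = fun x y => x ∈ E ∧ y ∈ E ∧ Cm x y := by
    funext x y
    simp [Kh11.Stp, Cm]
  rw [this]

theorem cn_fs {E : Set P} : Kh11.Cn (fs E) ↔ Conn E := by
  simp only [Kh11.Cn, Conn, mem_fs, rch_fs]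

theorem coc_fs {G : Type} [AddCommGroup G] {E : Set P} {z : P → P → G} :
    Kh11.Coc (fs E) z ↔ CocOn E z := by
  simp only [Kh11.Coc, CocOn, mem_fs]

theorem ex_fs {G : Type} [AddCommGroup G] {E : Set P} {z : P → P → G} :
    Kh11.Ex (fs E) z ↔ ExOn E z := by
  simp only [Kh11.Ex, ExOn, mem_fs]

theorem chi_fs (E : Set P) : Kh11.chi (fs E) = eu E := by
  unfold Kh11.chi Kh11.red eu
  rw [← add_sum_erase _ _ (Kh11.empty_mem_chs (fs E))]
  have : ∑ c ∈ (Kh11.chs (fs E)).erase ∅, (-1 : ℤ) ^ c.card =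
      ∑ c ∈ univ.filter (fun c : Ch P => ∀ x ∈ c.1, x ∈ E), c.sg := by
    symm
    refine sum_bij (fun c _ => c.1) ?_ ?_ ?_ ?_
    · intro c hc
      simp only [mem_filter, mem_univ, true_and] at hc
      rw [mem_erase, Kh11.mem_chs]
      exact ⟨c.2.1.ne_empty, fun x hx => mem_fs.2 (hc x hx), c.2.2⟩
    · intro c _ d _ h
      exact Ch.ext h
    · intro c hc
      rw [mem_erase, Kh11.mem_chs] at hc
      refine ⟨⟨c, nonempty_iff_ne_empty.2 hc.1, hc.2.2⟩, ?_, rfl⟩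
      exact mem_filter.2 ⟨mem_univ _, fun x hx => mem_fs.1 (hc.2.1 hx)⟩
    · intro c _
      rfl
  rw [this]
  simp

/-- `H^1 = 0` on the full subposet, all coefficients. -/
def H1 (E : Set P) : Prop :=
  ∀ (G : Type) [AddCommGroup G] (z : P → P → G), CocOn E z → ExOn E z

theorem h1_fs {E : Set P} : Kh11.H1z (fs E) ↔ H1 E := by
  simp only [Kh11.H1z, H1, coc_fs, ex_fs]

theorem ctr_fs {E : Set P} : Kh11.Ctr (fs E) ↔ Ctr E := by
  constructor
  · rintro ⟨⟨x, hx⟩, h2, h3, h4⟩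
    exact ⟨⟨x, mem_fs.1 hx⟩, cn_fs.1 h2, h1_fs.1 h4, chi_fs E ▸ h3⟩
  · rintro ⟨⟨x, hx⟩, h2, h3, h4⟩
    exact ⟨⟨x, mem_fs.2 hx⟩, cn_fs.2 h2, (chi_fs E).symm ▸ h4, h1_fs.2 h3⟩

theorem rch_symm {E : Set P} {x y : P} (h : Rch E x y) : Rch E y x :=
  rch_fs.1 (rch_fs.2 h).symm

theorem rch_ind {E : Set P} {x y : P} (h : Rch E x y) {p : P → Prop} (hx : p x)
    (hp : ∀ a ∈ E, ∀ b ∈ E, a ≤ b → (p a ↔ p b)) : p y :=
  (rch_fs.2 h).ind hx fun a ha b hb => hp a (mem_fs.1 ha) b (mem_fs.1 hb)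

/-- the chain with two (possibly equal) comparable elements. -/
noncomputable def pr {x y : P} (h : Cm x y) : Ch P :=
  ⟨{x, y}, insert_nonempty _ _, by
    rw [coe_pair]
    exact h.elim IsChain.pair fun h => Set.pair_comm y x ▸ IsChain.pair h⟩

theorem mem_pr {x y : P} (h : Cm x y) {t : P} : t ∈ (pr h).1 ↔ t = x ∨ t = y := by
  simp [pr]

theorem pt_le {x : P} {c : Ch P} : Ch.pt x ≤ c ↔ x ∈ c.1 := by
  rw [Ch.le_iff, Ch.pt_val, singleton_subset_iff]

variable {d : ℕ} {A : Set P}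

theorem Mf.dim (h : Mf d A) {E : Set P} (hE : E ⊆ A) : Dim (fs E) (d + 1) := by
  intro c hc hch
  rcases c.eq_empty_or_nonempty with rfl | ⟨x, hx⟩
  · simp
  · exact h.card_le ⟨c, ⟨x, hx⟩, hch⟩ ⟨x, hx, hE (mem_fs.1 (hc hx))⟩

/-- a chain with `d` elements meeting `A` has exactly two extensions. -/
theorem Mf.card_two (h : Mf d A) {e : Ch P} (he : Mt A e) (hc : e.1.card = d) :
    (univ.filter (e < ·)).card = 2 := by
  have h1 := h.eul e he
  have e1 : univ.filter (e ≤ ·) = insert e (univ.filter (e < ·)) := by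
    ext c
    simp only [mem_filter, mem_univ, true_and, mem_insert]
    rw [le_iff_eq_or_lt, eq_comm]
  rw [e1, sum_insert (by simp), sum_congr rfl (g := fun _ => (-1 : ℤ) ^ (d + 1)), sum_const,
    nsmul_eq_mul, Ch.sg, hc, pow_succ] at h1
  · have h2 : ((-1 : ℤ) ^ d) ≠ 0 := pow_ne_zero _ (by norm_num)
    have h3 : (((univ.filter (e < ·)).card : ℤ) - 2) * (-1) ^ d = 0 := by linear_combination -h1
    have := (mul_eq_zero.1 h3).resolve_right h2
    omega
  · intro c hc'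
    simp only [mem_filter, mem_univ, true_and] at hc'
    have h4 := h.card_le c (he.mono hc'.le)
    have h5 : e.1.card < c.1.card := card_lt_card hc'
    rw [Ch.sg, show c.1.card = d + 1 by omega]

theorem Mf.two (h : Mf d A) {e : Ch P} (he : Mt A e) (hc : e.1.card = d) {a b c : Ch P}
    (ha : e < a) (hb : e < b) (hc' : e < c) : a = b ∨ a = c ∨ b = c := by
  by_contra hn
  push Not at hn
  have h3 : ({a, b, c} : Finset (Ch P)) ⊆ univ.filter (e < ·) := by
    intro t ht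
    simp only [mem_insert, mem_singleton] at ht
    rcases ht with rfl | rfl | rfl <;> simpa
  have := card_le_card h3
  rw [Mf.card_two h he hc, card_insert_of_notMem (by simp [hn.1, hn.2.1]), card_pair hn.2.2] at this
  omega

/-- a property of top chains that passes through facets is constant on the star of a cell. -/
theorem Mf.star (h : Mf d A) (Z : Ch P → Prop)
    (hZ : ∀ e : Ch P, Mt A e → e.1.card = d → ∀ a b, e < a → e < b → Z a → Z b)
    {c : Ch P} (hc : Mt A c) {a b : Ch P} (ha : c ≤ a) (hb : c ≤ b) (ha' : a.1.card = d + 1)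
    (hb' : b.1.card = d + 1) (hz : Z a) : Z b := by
  induction hn : d + 1 - c.1.card using Nat.strong_induction_on generalizing c a b with
  | _ n ih =>
  have hle := h.card_le c hc
  by_cases h1 : c.1.card = d + 1
  · have e1 : c = a := Ch.ext (eq_of_subset_of_card_le ha (by omega))
    have e2 : c = b := Ch.ext (eq_of_subset_of_card_le hb (by omega))
    exact e2 ▸ e1 ▸ hz
  have la : c < a := lt_of_le_of_ne ha fun e => h1 (e ▸ ha')
  have lb : c < b := lt_of_le_of_ne hb fun e => h1 (e ▸ hb')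
  by_cases h2 : c.1.card = d
  · exact hZ c hc h2 a b la lb hz
  have hconn := h.conn c hc (by omega) a la b lb
  have := rch_ind hconn (p := fun t => ∀ s, t ≤ s → s.1.card = d + 1 → Z s) ?_ ?_
  · exact this b le_rfl hb'
  · intro s hs hs'
    have e1 : a = s := Ch.ext (eq_of_subset_of_card_le hs (by omega))
    exact e1 ▸ hz
  · intro t ht t' ht' htt
    refine ⟨fun H s hs hs' => H s (htt.trans hs) hs', fun H s hs hs' => ?_⟩
    have hm : Mt A t := hc.mono (le_of_lt ht)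
    obtain ⟨r, hr, hr'⟩ := h.pure t' (hm.mono htt)
    have hlt : c.1.card < t.1.card := card_lt_card ht
    have := h.card_le t hm
    exact ih _ (by omega) hm (htt.trans hr) hs hr' hs' (H r hr hr') rfl

/-- the same along a component of `A`. -/
theorem Mf.along (h : Mf d A) (Z : Ch P → Prop)
    (hZ : ∀ e : Ch P, Mt A e → e.1.card = d → ∀ a b, e < a → e < b → Z a → Z b)
    {x y : P} (hx : x ∈ A) (hxy : Rch A x y) {a b : Ch P} (ha : x ∈ a.1) (hb : y ∈ b.1)
    (ha' : a.1.card = d + 1) (hb' : b.1.card = d + 1) (hz : Z a) : Z b := by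
  have mt : ∀ t ∈ A, Mt A (Ch.pt t) := fun t ht => ⟨t, by simp, ht⟩
  have := rch_ind hxy (p := fun t => ∀ s : Ch P, t ∈ s.1 → s.1.card = d + 1 → Z s) ?_ ?_
  · exact this b hb hb'
  · intro s hs hs'
    exact Mf.star h Z hZ (mt x hx) (pt_le.2 ha) (pt_le.2 hs) ha' hs' hz
  · intro t ht t' ht' htt
    obtain ⟨r, hr, hr'⟩ := h.pure (pr (Or.inl htt)) ⟨t, (mem_pr _).2 (Or.inl rfl), ht⟩
    have m1 : t ∈ r.1 := hr ((mem_pr _).2 (Or.inl rfl))
    have m2 : t' ∈ r.1 := hr ((mem_pr _).2 (Or.inr rfl))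
    exact ⟨fun H s hs hs' => Mf.star h Z hZ (mt t' ht') (pt_le.2 m2) (pt_le.2 hs) hr' hs'
        (H r m1 hr'),
      fun H s hs hs' => Mf.star h Z hZ (mt t ht) (pt_le.2 m1) (pt_le.2 hs) hr' hs' (H r m2 hr')⟩

section cyc

variable {K : Type*} [Field K]

theorem Mf.cyc_step (h : Mf d A) {E : Set P} {u : chains (fs E) (d + 1) → K}
    (hu : Matrix.vecMul u (mat K (fs E) d) = 0) (e : Ch P) (he : Mt A e) (hc : e.1.card = d)
    (a b : Ch P) (ha : e < a) (hb : e < b) (hz : ex u a.1 = 0) : ex u b.1 = 0 := by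
  by_cases hE : a = b
  · exact hE ▸ hz
  by_cases hbE : b.1 ∈ chains (fs E) (d + 1)
  swap
  · exact ex_not u hbE
  have heE : e.1 ∈ chains (fs E) d :=
    mem_chains.2 ⟨(Ch.le_iff.1 hb.le).trans (mem_chains.1 hbE).1, e.2.2, hc⟩
  have := congrFun hu ⟨e.1, heE⟩
  rw [vecMul_mat] at this
  unfold bd at this
  rw [sum_eq_single b.1] at this
  · refine (mul_eq_zero.1 this).resolve_right (coef_ne hb.le ?_)
    rw [(mem_chains.1 hbE).2.2, hc]
  · intro c hc' hcb
    by_cases hec : e.1 ⊆ c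
    · obtain ⟨-, h2, h3⟩ := mem_chains.1 hc'
      let c' : Ch P := ⟨c, card_pos.1 (by omega), h2⟩
      have hl : e < c' := lt_of_le_of_ne hec fun h4 => by
        have : e.1.card = c.card := congrArg (fun t : Ch P => t.1.card) h4
        omega
      rcases Mf.two h he hc ha hb hl with h4 | h4 | h4
      · exact absurd h4 hE
      · rw [show c = a.1 from (congrArg Subtype.val h4).symm, hz, zero_mul]
      · exact absurd (congrArg Subtype.val h4).symm hcb
    · rw [coef_zero hec, mul_zero]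
  · intro h3
    exact absurd hbE h3

end cyc

/-- from every point of `E` one can leave `E` through `A`. -/
def Esc (A E : Set P) : Prop := ∀ a ∈ E, ∃ b ∈ A, Rch A a b ∧ ∃ x, x ∉ E ∧ Cm b x

theorem Mf.noCyc (h : Mf d A) {E : Set P} (hE : E ⊆ A) (hesc : Esc A E) : NoCyc (fs E) d := by
  intro K _
  refine cyc_eq_bot fun u hu => funext fun c => ?_
  obtain ⟨h1, h2, h3⟩ := mem_chains.1 c.2
  obtain ⟨a, ha⟩ : c.1.Nonempty := card_pos.1 (by omega)
  have haE : a ∈ E := mem_fs.1 (h1 ha)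
  obtain ⟨b, hb, hab, x, hx, hbx⟩ := hesc a haE
  obtain ⟨r, hr, hr'⟩ := h.pure (pr hbx) ⟨b, (mem_pr _).2 (Or.inl rfl), hb⟩
  have z0 : ex u r.1 = 0 := ex_not u fun hh =>
    hx (mem_fs.1 ((mem_chains.1 hh).1 (hr ((mem_pr _).2 (Or.inr rfl)))))
  have := Mf.along h (fun s => ex u s.1 = 0) (Mf.cyc_step h hu) hb (rch_symm hab)
    (a := r) (b := ⟨c.1, ⟨a, ha⟩, h2⟩) (hr ((mem_pr _).2 (Or.inl rfl))) ha hr' h3 z0
  simp only at this
  rwa [ex_mem u c.2] at this

theorem Mf.cyc_le (h : Mf d A) {E : Set P} (hE : E ⊆ A) (hc : ∀ x ∈ E, ∀ y ∈ E, Rch A x y)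
    (K : Type*) [Field K] : finrank K (Cyc K (fs E) d) ≤ 1 := by
  rcases (chains (fs E) (d + 1)).eq_empty_or_nonempty with h0 | ⟨c0, h0⟩
  · refine (Submodule.finrank_le _).trans ?_
    simp [h0]
  let ev : Cyc K (fs E) d →ₗ[K] K := (LinearMap.proj ⟨c0, h0⟩).comp (Submodule.subtype _)
  have hinj : Function.Injective ev := by
    rw [← LinearMap.ker_eq_bot, LinearMap.ker_eq_bot']
    rintro ⟨u, hu⟩ hz
    have z1 : u ⟨c0, h0⟩ = 0 := hz
    apply Subtype.ext
    funext c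
    obtain ⟨h1, h2, h3⟩ := mem_chains.1 c.2
    obtain ⟨a, ha⟩ : c.1.Nonempty := card_pos.1 (by omega)
    obtain ⟨k1, k2, k3⟩ := mem_chains.1 h0
    obtain ⟨b, hb⟩ : c0.Nonempty := card_pos.1 (by omega)
    have := Mf.along h (fun s => ex u s.1 = 0) (Mf.cyc_step h (mem_cyc.1 hu))
      (hE (mem_fs.1 (k1 hb))) (hc b (mem_fs.1 (k1 hb)) a (mem_fs.1 (h1 ha)))
      (a := ⟨c0, ⟨b, hb⟩, k2⟩) (b := ⟨c.1, ⟨a, ha⟩, h2⟩) hb ha k3 h3
      (by simp only; rw [ex_mem _ h0, z1])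
    simp only at this
    rwa [ex_mem u c.2] at this
  simpa using LinearMap.finrank_le_finrank_of_injective hinj

theorem rch_mono {E F : Set P} (h : E ⊆ F) {x y : P} (hr : Rch E x y) : Rch F x y :=
  rch_fs.1 ((rch_fs.2 hr).mono fun _ ht => mem_fs.2 (h (mem_fs.1 ht)))

/-- a connected part of a surface has `eu ≤ 2`. -/
theorem Mf.eu_le_two (h : Mf 2 A) {E : Set P} (hE : E ⊆ A) (hc : Conn E) : eu E ≤ 2 := by
  have h1 := (chi_le_of_dim_three (K := ℚ) (Mf.dim h hE) (cn_fs.2 hc)).1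
  have h2 := Mf.cyc_le h hE (fun x hx y hy => rch_mono hE (hc x hx y hy)) ℚ
  rw [chi_fs] at h1
  omega

/-- SPHERE: `eu = 2` kills `H^1`. -/
theorem Mf.h1_of_eu_two (h : Mf 2 A) {E : Set P} (hE : E ⊆ A) (hc : Conn E) (hχ : 2 ≤ eu E) :
    H1 E := by
  refine h1_fs.1 (h1z_of_fields (cn_fs.2 hc) fun K _ z hz => ?_)
  by_contra hn
  have h1 := (chi_le_of_dim_three (K := K) (Mf.dim h hE) (cn_fs.2 hc)).2 z hz hn
  have h2 := Mf.cyc_le h hE (fun x hx y hy => rch_mono hE (hc x hx y hy)) K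
  rw [chi_fs] at h1
  omega

/-- a connected part with boundary has `eu ≤ 1`. -/
theorem Mf.eu_le_one (h : Mf 2 A) {E : Set P} (hE : E ⊆ A) (hc : Conn E) (hesc : Esc A E) :
    eu E ≤ 1 :=
  chi_fs E ▸ (Mf.noCyc h hE hesc).chi_le_one (Mf.dim h hE) (cn_fs.2 hc)

/-- DISC: connected, with boundary, `eu = 1`. -/
theorem Mf.ctr_of_eu (h : Mf 2 A) {E : Set P} (hE : E ⊆ A) (hc : Conn E) (hesc : Esc A E)
    (hχ : 1 ≤ eu E) : Ctr E :=
  ctr_fs.1 ((Mf.noCyc h hE hesc).ctr (Mf.dim h hE) (cn_fs.2 hc) (chi_fs E ▸ hχ))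

/-- HALF, first form: a part of a 3-manifold with `eu ≤ 0` has `H^1(·; ℤ) ≠ 0`. -/
theorem Mf.exists_cocOn (h : Mf 3 A) {E : Set P} (hE : E ⊆ A) (hne : E.Nonempty)
    (hesc : Esc A E) (hχ : eu E ≤ 0) :
    ∃ w : P → P → ℤ, CocOn E w ∧ ¬ ExOn E w ∧ ¬ ExOn E fun x y => (w x y : ℚ) := by
  obtain ⟨x, hx⟩ := hne
  obtain ⟨w, h1, h2, h3⟩ := (Mf.noCyc h hE hesc).exists_coc (Mf.dim h hE) ⟨x, mem_fs.2 hx⟩
    (chi_fs E ▸ hχ)
  exact ⟨w, coc_fs.1 h1, fun h => h2 (ex_fs.2 h), fun h => h3 (ex_fs.2 h)⟩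

end Crest.Agent.X212.Alg36
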