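import Crest.Agent.X212.Alg36.Hp3

/-! ALG (helper36) on `Hp13/Defs`: the boundary `mix A` is a connected closed surface;
`eu A ≤ 1`, and `eu A = 1` kills `H^1`. -/

set_option autoImplicit false
set_option linter.unusedSectionVars false

namespace Crest.Agent.X212.Alg36

open Finset Classical
open Crest.Agent.X212.Hp13

theorem eq_triple {α : Type*} [PartialOrder α] [DecidableEq α] {A c : Finset α}
    (hc : c ∈ chains A 3) : ∃ x ∈ A, ∃ y ∈ A, ∃ t ∈ A, x < y ∧ y < t ∧ c = {x, y, t} := by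
  obtain ⟨h1, h2, h3⟩ := mem_chains.1 hc
  obtain ⟨t, ht, htop⟩ := Kh11.exists_top h2 (card_pos.1 (by omega))
  obtain ⟨a, ha, b, hb, hab, he⟩ := eq_pair (erase_mem_chains hc ht)
  have hb' : b ∈ c.erase t := he ▸ (by simp)
  refine ⟨a, ha, b, hb, t, h1 ht, hab,
    lt_of_le_of_ne (htop b (mem_of_mem_erase hb')) (ne_of_mem_erase hb'), ?_⟩
  rw [← insert_erase ht, he]
  ext s
  simp only [mem_insert, mem_singleton]
  tauto

variable {P : Type} [PartialOrder P] [Fintype P] {A : Set P} {d : ℕ} {G : Type} [AddCommGroup G]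

theorem pr_mix {a x : P} (ha : a ∈ A) (hx : x ∉ A) (h : Cm a x) : pr h ∈ mix A :=
  ⟨⟨a, (mem_pr h).2 (Or.inl rfl), ha⟩, ⟨x, (mem_pr h).2 (Or.inr rfl), hx⟩⟩

theorem pr_le {a x : P} (h : Cm a x) {c : Ch P} (ha : a ∈ c.1) (hx : x ∈ c.1) : pr h ≤ c := by
  intro t ht
  rcases (mem_pr h).1 ht with rfl | rfl <;> assumption

/-- the chain with three comparable elements. -/
noncomputable def tr {a x y : P} (h1 : Cm a x) (h2 : Cm a y) (h3 : Cm x y) : Ch P :=
  (pr h3).ins a fun t ht => by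
    rcases (mem_pr h3).1 ht with rfl | rfl <;> assumption

theorem mem_tr {a x y : P} (h1 : Cm a x) (h2 : Cm a y) (h3 : Cm x y) :
    a ∈ (tr h1 h2 h3).1 ∧ x ∈ (tr h1 h2 h3).1 ∧ y ∈ (tr h1 h2 h3).1 := by
  simp [tr, mem_pr]

/-- data `v c x` on the points of mixed chains, constant along inclusions, descend to the points
off `A`. -/
theorem Nice.desc {γ : Type} [Nonempty γ] (hN : Nice A) (v : Ch P → P → γ)
    (hv : ∀ c ∈ mix A, ∀ e, c ≤ e → ∀ x ∈ c.1, v c x = v e x) :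
    ∃ g : P → γ, ∀ c ∈ mix A, ∀ x ∈ c.1, x ∉ A → g x = v c x := by
  let u : P → P → γ := fun x a => if h : Cm a x then v (pr h) x else Classical.arbitrary γ
  let g : P → γ := fun x => if h : (Fb A x x).Nonempty then u x h.choose else Classical.arbitrary γ
  refine ⟨g, fun c hc x hx hxA => ?_⟩
  obtain ⟨a, ha, haA⟩ := hc.1
  have c1 : Cm a x := c.total ha hx
  have h0 : (Fb A x x).Nonempty := ⟨a, haA, c1, c1⟩
  simp only [g, dif_pos h0]
  rw [rch_eq (Nice.conn_fb hN (cm_refl x) _ h0.choose_spec a ⟨haA, c1, c1⟩) (g := u x)]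
  · simp only [u, dif_pos c1]
    exact hv _ (pr_mix haA hxA c1) c (pr_le c1 ha hx) x ((mem_pr c1).2 (Or.inr rfl))
  · intro s hs t ht hst
    simp only [u, dif_pos hs.2.1, dif_pos ht.2.1]
    have m := mem_tr (Or.inl hst) hs.2.1 ht.2.1
    rw [hv _ (pr_mix hs.1 hxA hs.2.1) _ (pr_le _ m.1 m.2.2) x ((mem_pr _).2 (Or.inr rfl)),
      hv _ (pr_mix ht.1 hxA ht.2.1) _ (pr_le _ m.2.1 m.2.2) x ((mem_pr _).2 (Or.inr rfl))]

theorem tr_mix {a x y : P} (ha : a ∈ A) (hx : x ∉ A) (h1 : Cm a x) (h2 : Cm a y) (h3 : Cm x y) :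
    tr h1 h2 h3 ∈ mix A :=
  ⟨⟨a, (mem_tr h1 h2 h3).1, ha⟩, ⟨x, (mem_tr h1 h2 h3).2.1, hx⟩⟩

/-- the boundary of a connected manifold in which closed surfaces bound is connected. -/
theorem conn_mix (hN : Nice A) (hB : Bnd (ZMod 2) A) (hc : Conn A) : Conn (mix A) := by
  intro c0 h0 c1 h1
  let κ : Ch P → ZMod 2 := fun c => if Rch (mix A) c0 c then 1 else 0
  obtain ⟨g, hg⟩ := Nice.desc hN (fun c _ => κ c) fun c hc e hce _ _ => by
    have s : Rch (mix A) c e := Rch.of_cm hc (mix_upper hc hce) (Or.inl hce)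
    simp only [κ]
    by_cases h : Rch (mix A) c0 c
    · rw [if_pos h, if_pos (h.trans s)]
    · rw [if_neg h, if_neg fun h' => h (h'.trans s.symm)]
  obtain ⟨g', e1, e2⟩ := Bnd.eqD_cb hB (z := 0) coc_zero (g := g) fun x y hd hx hy => by
    obtain ⟨hxy, a, ha, c1, c2⟩ := hd
    have m := mem_tr c1 c2 (Or.inl hxy)
    have hm := tr_mix ha hx c1 c2 (Or.inl hxy)
    rw [hg _ hm x m.2.1 hx, hg _ hm y m.2.2 hy]
    simp
  have e3 : ∀ x y, Dp A x y → g' x = g' y := fun x y hd => by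
    have := e2 x y hd
    simp only [Pi.zero_apply, cb] at this
    exact (sub_eq_zero.1 this.symm).symm
  have key : ∀ c ∈ mix A, ∃ a ∈ A, κ c = g' a := by
    rintro c ⟨⟨a, ha, haA⟩, ⟨x, hx, hxA⟩⟩
    refine ⟨a, haA, ?_⟩
    rw [← hg c ⟨⟨a, ha, haA⟩, ⟨x, hx, hxA⟩⟩ x hx hxA, ← e1 x hxA]
    rcases c.total ha hx with h | h
    · exact (e3 a x (Dp.of_left haA h)).symm
    · exact e3 x a (Dp.of_right haA h)
  obtain ⟨a0, ha0, k0⟩ := key c0 h0
  obtain ⟨a1, ha1, k1⟩ := key c1 h1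
  have := rch_eq (hc a0 ha0 a1 ha1) (g := g') fun a ha b _ hab => e3 a b (Dp.of_left ha hab)
  rw [← k0, ← k1] at this
  by_contra hn
  simp only [κ, if_pos Rch.rfl, if_neg hn] at this
  exact one_ne_zero this

theorem Coc.cocOn_mix {z : P → P → G} (hz : Coc A z) : CocOn (mix A) (pb Ch.top z) :=
  fun _ _ _ _ f hf h1 h2 =>
    hz.add' hf.1.dom ((h1.trans h2) (Ch.top_mem _)) (h2 (Ch.top_mem _)) f.top_mem
      (Ch.top_mono h1) (Ch.top_mono h2)

/-- exact on the boundary surface means exact on the boundary edges. -/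
theorem Nice.bEx_of_mix (hN : Nice A) {z : P → P → G} (hz : Coc A z)
    (h : ExOn (mix A) (pb Ch.top z)) : BEx A z := by
  obtain ⟨k, hk⟩ := h
  obtain ⟨g, hg⟩ := Nice.desc hN (fun c x => k c - z x c.top) fun c hc e hce x hx => by
    have he := mix_upper hc hce
    have e1 := hk c hc e he hce
    simp only [pb] at e1
    rw [hz.add' he.1.dom (hce hx) (hce c.top_mem) e.top_mem (Ch.le_top hx) (Ch.top_mono hce), e1]
    abel
  refine ⟨g, ?_⟩
  rintro x y ⟨hxy, a, ha, c1, c2⟩ hx hy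
  have m := mem_tr c1 c2 (Or.inl hxy)
  have hm := tr_mix ha hx c1 c2 (Or.inl hxy)
  rw [hg _ hm x m.2.1 hx, hg _ hm y m.2.2 hy,
    hz.add' hm.1.dom m.2.1 m.2.2 (Ch.top_mem _) hxy (Ch.le_top m.2.2)]
  abel

theorem two_le_card {c : Ch P} (hc : c ∈ mix A) : 2 ≤ c.1.card := by
  obtain ⟨⟨a, ha, haA⟩, ⟨x, hx, hxA⟩⟩ := hc
  exact one_lt_card.2 ⟨a, ha, x, hx, fun e => hxA (e ▸ haA)⟩

theorem Mf.dim_mix (h : Mf d A) : Dim (fs (mix A)) d := by
  intro c hc hch
  have : c.card ≤ (Finset.Icc 2 (d + 1)).card := by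
    refine card_le_card_of_injOn (fun e => e.1.card) (fun e he => ?_) fun e he f hf hef => ?_
    · have hm := mem_fs.1 (hc he)
      exact mem_coe.2 (mem_Icc.2 ⟨two_le_card hm, h.card_le e hm.1⟩)
    · by_contra hne
      rcases hch he hf hne with h1 | h1
      · exact absurd hef (Ch.card_lt (lt_of_le_of_ne h1 hne)).ne
      · exact absurd hef (Ch.card_lt (lt_of_le_of_ne h1 (Ne.symm hne))).ne'
  simpa using this

/-- `Mf.star` above a fixed cell. -/
theorem Mf.star' (h : Mf d A) (Z : Ch P → Prop) {c : Ch P} (hc : Mt A c)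
    (hZ : ∀ e : Ch P, c ≤ e → e.1.card = d → ∀ a b, e < a → e < b → Z a → Z b)
    {a b : Ch P} (ha : c ≤ a) (hb : c ≤ b) (ha' : a.1.card = d + 1)
    (hb' : b.1.card = d + 1) (hz : Z a) : Z b := by
  induction hn : d + 1 - c.1.card using Nat.strong_induction_on generalizing c a b with
  | _ n ih =>
  have hle := h.card_le c hc
  by_cases h1 : c.1.card = d + 1
  · have e1 : c = a := Ch.ext (eq_of_subset_of_card_le ha (by omega))
    have e2 : c = b := Ch.ext (eq_of_subset_of_card_le hb (by omega))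
    exact e2 ▸ e1 ▸ hz
  have la : c < a := lt_of_le_of_ne ha fun e => h1 (e ▸ ha')
  have lb : c < b := lt_of_le_of_ne hb fun e => h1 (e ▸ hb')
  by_cases h2 : c.1.card = d
  · exact hZ c le_rfl h2 a b la lb hz
  have hconn := h.conn c hc (by omega) a la b lb
  have := rch_ind hconn (p := fun t => ∀ s, t ≤ s → s.1.card = d + 1 → Z s) ?_ ?_
  · exact this b le_rfl hb'
  · intro s hs hs'
    have e1 : a = s := Ch.ext (eq_of_subset_of_card_le hs (by omega))
    exact e1 ▸ hz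
  · intro t ht t' ht' htt
    refine ⟨fun H s hs hs' => H s (htt.trans hs) hs', fun H s hs hs' => ?_⟩
    have hm : Mt A t := hc.mono (le_of_lt ht)
    obtain ⟨r, hr, hr'⟩ := h.pure t' (hm.mono htt)
    have hlt : c.1.card < t.1.card := card_lt_card ht
    have := h.card_le t hm
    exact ih _ (by omega) hm (fun e he => hZ e ((le_of_lt ht).trans he)) (htt.trans hr) hs hr' hs'
      (H r hr hr') rfl

theorem cards_flag (h : Mf 3 A) {p q r : Ch P} (hp : p ∈ mix A) (h1 : p < q) (h2 : q < r) :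
    p.1.card = 2 ∧ q.1.card = 3 ∧ r.1.card = 4 := by
  have e1 := two_le_card hp
  have e2 := Ch.card_lt h1
  have e3 := Ch.card_lt h2
  have e4 := h.card_le r (hp.1.mono (h1.trans h2).le)
  omega

theorem flag_mem {p q r : Ch P} (hp : p ∈ mix A) (h1 : p < q) (h2 : q < r) :
    ({p, q, r} : Finset (Ch P)) ∈ chains (fs (mix A)) 3 :=
  triple_mem (mem_fs.2 hp) (mem_fs.2 (mix_upper hp h1.le))
    (mem_fs.2 (mix_upper hp (h1.trans h2).le)) h1 h2

theorem third {α : Type*} [DecidableEq α] {e a : Finset α} (h : e ⊆ a) (hc : a.card = e.card + 1) :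
    ∃ x ∈ a, x ∉ e ∧ a = insert x e := by
  obtain ⟨x, hx, hxe⟩ : ∃ x, x ∈ a ∧ x ∉ e := by
    by_contra h
    push Not at h
    have := card_le_card (show a ⊆ e from h)
    omega
  refine ⟨x, hx, hxe, (eq_of_subset_of_card_le (insert_subset hx h) ?_).symm⟩
  rw [card_insert_of_notMem hxe]
  omega

theorem mix_two (h : Mf 3 A) {p q : Ch P} (hp : p ∈ mix A) (hpq : p < q) {a b c : Ch P}
    (ha : a ∈ mix A ∧ a ≠ p ∧ a ≠ q ∧ Cm a p ∧ Cm a q)
    (hb : b ∈ mix A ∧ b ≠ p ∧ b ≠ q ∧ Cm b p ∧ Cm b q)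
    (hc : c ∈ mix A ∧ c ≠ p ∧ c ≠ q ∧ Cm c p ∧ Cm c q) : a = b ∨ a = c ∨ b = c := by
  have tri : ∀ a : Ch P, a ∈ mix A ∧ a ≠ p ∧ a ≠ q ∧ Cm a p ∧ Cm a q →
      (a < p ∧ p.1.card = 3 ∧ q.1.card = 4 ∧ a.1.card = 2) ∨
      (p < a ∧ a < q ∧ p.1.card = 2 ∧ q.1.card = 4 ∧ a.1.card = 3) ∨
      (q < a ∧ p.1.card = 2 ∧ q.1.card = 3) := by
    rintro a ⟨hm, n1, n2, c1 | c1, c2⟩
    · have l := lt_of_le_of_ne c1 n1
      have := cards_flag h hm l hpq
      exact Or.inl ⟨l, this.2.1, this.2.2, this.1⟩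
    have l := lt_of_le_of_ne c1 n1.symm
    rcases c2 with c2 | c2
    · have l2 := lt_of_le_of_ne c2 n2
      have := cards_flag h hp l l2
      exact Or.inr (Or.inl ⟨l, l2, this.1, this.2.2, this.2.1⟩)
    · have l2 := lt_of_le_of_ne c2 n2.symm
      have := cards_flag h hp hpq l2
      exact Or.inr (Or.inr ⟨l2, this.1, this.2.1⟩)
  rcases tri a ha with ta | ta | ta <;> rcases tri b hb with tb | tb | tb <;>
    rcases tri c hc with tc | tc | tc <;> try omega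
  · by_contra hn
    push Not at hn
    obtain ⟨x, hx, nx, ex⟩ := third (e := a.1) (a := p.1) ta.1.le (by omega)
    obtain ⟨y, hy, ny, ey⟩ := third (e := b.1) (a := p.1) tb.1.le (by omega)
    obtain ⟨w, hw, nw, ew⟩ := third (e := c.1) (a := p.1) tc.1.le (by omega)
    have er : ∀ {s : Finset P} {t : P}, t ∉ s → p.1 = insert t s → s = p.1.erase t :=
      fun h1 h2 => by rw [h2, erase_insert h1]
    have n1 : x ≠ y := fun e => hn.1 (Ch.ext (by rw [er nx ex, er ny ey, e]))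
    have n2 : x ≠ w := fun e => hn.2.1 (Ch.ext (by rw [er nx ex, er nw ew, e]))
    have n3 : y ≠ w := fun e => hn.2.2 (Ch.ext (by rw [er ny ey, er nw ew, e]))
    have ep : p.1 = {x, y, w} := by
      symm
      refine eq_of_subset_of_card_le (by simp [insert_subset_iff, hx, hy, hw]) ?_
      rw [card_insert_of_notMem (by simp [n1, n2]), card_pair n3]
      omega
    have mx : ∀ {s : Ch P} {t u v : P}, s ∈ mix A → t ∉ s.1 → s < p →
        (∀ r ∈ p.1, r = t ∨ r = u ∨ r = v) → ¬ (u ∈ A ↔ v ∈ A) := by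
      rintro s t u v ⟨⟨i, hi, hiA⟩, ⟨j, hj, hjA⟩⟩ ht hs hall hiff
      rcases hall i (hs.le hi) with rfl | rfl | rfl <;>
        rcases hall j (hs.le hj) with rfl | rfl | rfl <;>
        first
          | exact ht hi
          | exact ht hj
          | exact hjA hiA
          | exact hjA (hiff.1 hiA)
          | exact hjA (hiff.2 hiA)
    have m1 := mx (t := x) (u := y) (v := w) ha.1 nx ta.1 (by rw [ep]; simp)
    have m2 := mx (t := y) (u := x) (v := w) hb.1 ny tb.1 (by rw [ep]; simp)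
    have m3 := mx (t := w) (u := x) (v := y) hc.1 nw tc.1 (by rw [ep]; simp)
    tauto
  · obtain ⟨x, hx, nx, ex⟩ := third (e := p.1) (a := a.1) ta.1.le (by omega)
    obtain ⟨y, hy, ny, ey⟩ := third (e := p.1) (a := b.1) tb.1.le (by omega)
    obtain ⟨w, hw, nw, ew⟩ := third (e := p.1) (a := c.1) tc.1.le (by omega)
    by_contra hn
    push Not at hn
    have n1 : x ≠ y := fun e => hn.1 (Ch.ext (by rw [ex, ey, e]))
    have n2 : x ≠ w := fun e => hn.2.1 (Ch.ext (by rw [ex, ew, e]))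
    have n3 : y ≠ w := fun e => hn.2.2 (Ch.ext (by rw [ey, ew, e]))
    have hs : ({x, y, w} : Finset P) ⊆ q.1 \ p.1 := by
      simp [insert_subset_iff, ta.2.1.le hx, tb.2.1.le hy, tc.2.1.le hw, nx, ny, nw]
    have := card_le_card hs
    rw [card_insert_of_notMem (by simp [n1, n2]), card_pair n3, card_sdiff_of_subset hpq.le] at this
    omega
  · exact Mf.two h (hp.1.mono hpq.le) ta.2.2 ta.1 tb.1 tc.1

theorem Mf.pm_mix (h : Mf 3 A) (hc : Conn (mix A)) : PM (fs (mix A)) 2 := by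
  constructor
  · intro e he a ha b hb c hc' ea eb ec
    obtain ⟨p, hp, q, hq, hpq, rfl⟩ := eq_pair he
    have k : ∀ a ∈ chains (fs (mix A)) (2 + 1), ({p, q} : Finset (Ch P)) ⊆ a →
        ∃ x, (x ∈ mix A ∧ x ≠ p ∧ x ≠ q ∧ Cm x p ∧ Cm x q) ∧ a = insert x {p, q} := by
      intro a ha ea
      obtain ⟨h1, h2, h3⟩ := mem_chains.1 ha
      obtain ⟨x, hx, nx, ex⟩ := third ea (by rw [h3, card_pair hpq.ne])
      simp only [mem_insert, mem_singleton, not_or] at nx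
      exact ⟨x, ⟨mem_fs.1 (h1 hx), nx.1, nx.2, h2.total (mem_coe.2 hx) (mem_coe.2 (ea (by simp))),
        h2.total (mem_coe.2 hx) (mem_coe.2 (ea (by simp)))⟩, ex⟩
    obtain ⟨x, hx, rfl⟩ := k a ha ea
    obtain ⟨y, hy, rfl⟩ := k b hb eb
    obtain ⟨w, hw, rfl⟩ := k c hc' ec
    rcases mix_two h (mem_fs.1 hp) hpq hx hy hw with rfl | rfl | rfl <;> simp
  intro a0 h0 b hb
  set Z : Finset (Ch P) → Prop := Relation.ReflTransGen (Adj (fs (mix A)) 2) a0
  have up : ∀ {p q : Ch P}, p ∈ mix A → p < q → q ∈ fs (mix A) :=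
    fun hp l => mem_fs.2 (mix_upper hp l.le)
  have a1 : ∀ {p p' q r : Ch P}, p ∈ mix A → p' ∈ mix A → p < q → p' < q → q < r →
      Z {p, q, r} → Z {p', q, r} := fun hp hp' l1 l2 l3 hz =>
    hz.tail ⟨flag_mem hp l1 l3, flag_mem hp' l2 l3, _, pair_mem (up hp l1) (up hp (l1.trans l3)) l3,
      subset_insert _ _, subset_insert _ _⟩
  have a2 : ∀ {p q q' r : Ch P}, p ∈ mix A → p < q → p < q' → q < r → q' < r →
      Z {p, q, r} → Z {p, q', r} := fun hp l1 l2 l3 l4 hz =>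
    hz.tail ⟨flag_mem hp l1 l3, flag_mem hp l2 l4, _,
      pair_mem (mem_fs.2 hp) (up hp (l1.trans l3)) (l1.trans l3),
      by simp [insert_subset_iff], by simp [insert_subset_iff]⟩
  have a3 : ∀ {p q r r' : Ch P}, p ∈ mix A → p < q → q < r → q < r' →
      Z {p, q, r} → Z {p, q, r'} := fun hp l1 l3 l4 hz =>
    hz.tail ⟨flag_mem hp l1 l3, flag_mem hp l1 l4, _, pair_mem (mem_fs.2 hp) (up hp l1) l1,
      by simp [insert_subset_iff], by simp [insert_subset_iff]⟩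
  let W : Ch P → Ch P → Prop := fun p r => ∀ q, p < q → q < r → Z {p, q, r}
  have st : ∀ {p p' r : Ch P}, p ∈ mix A → p' ∈ mix A → p ≤ r → p' ≤ r → r.1.card = 4 →
      p.1.card = 2 → p'.1.card = 2 → (p.1 ∪ p'.1).card ≤ 3 → W p r → W p' r := by
    intro p p' r hp hp' l l' c4 c2 c2' cu hw q l1 l2
    obtain ⟨s, s1, s2, s3⟩ := exists_subsuperset_card_eq (union_subset l l') cu (by omega : 3 ≤ _)
    let q0 : Ch P := r.sub s (card_pos.1 (by omega)) s2
    have lt : ∀ {u v : Ch P}, u ≤ v → u.1.card < v.1.card → u < v :=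
      fun h1 h2 => lt_of_le_of_ne h1 fun e => by rw [e] at h2; omega
    have k1 : p < q0 := lt (subset_union_left.trans s1) (by simp [q0]; omega)
    have k2 : p' < q0 := lt (subset_union_right.trans s1) (by simp [q0]; omega)
    have k3 : q0 < r := lt s2 (by simp [q0]; omega)
    exact a2 hp' k2 l1 k3 l2 (a1 hp hp' k1 k2 k3 (hw q0 k1 k3))
  have prc : ∀ {a x : P} (c : Cm a x), a ∈ A → x ∉ A → (pr c).1.card = 2 :=
    fun c ha hx => card_pair fun e => hx (e ▸ ha)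
  have preq : ∀ {p : Ch P}, p ∈ mix A → p.1.card = 2 →
      ∃ a x, ∃ c : Cm a x, a ∈ A ∧ x ∉ A ∧ p = pr c := by
    rintro p ⟨⟨a, ha, haA⟩, ⟨x, hx, hxA⟩⟩ c2
    refine ⟨a, x, p.total ha hx, haA, hxA, Ch.ext (eq_of_subset_of_card_le (pr_le _ ha hx) ?_).symm⟩
    exact c2.le.trans (prc _ haA hxA).ge
  let V : Ch P → Prop := fun r => ∀ p ∈ mix A, ∀ q, p < q → q < r → Z {p, q, r}
  have toV : ∀ {p q r : Ch P}, p ∈ mix A → p < q → q < r → Z {p, q, r} → V r := by
    intro p q r hp l1 l2 hz p' hp' q' l1' l2'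
    have k := cards_flag h hp l1 l2
    have k' := cards_flag h hp' l1' l2'
    obtain ⟨a, x, c, ha, hx, rfl⟩ := preq hp k.1
    obtain ⟨a', x', c', ha', hx', rfl⟩ := preq hp' k'.1
    have l := (l1.trans l2).le
    have l' := (l1'.trans l2').le
    have m1 : a ∈ r.1 := l ((mem_pr c).2 (Or.inl rfl))
    have m2 : x' ∈ r.1 := l' ((mem_pr c').2 (Or.inr rfl))
    have c'' : Cm a x' := r.total m1 m2
    have w1 : W (pr c) r := fun s s1 s2 => a2 hp l1 s1 l2 s2 hz
    have w2 : W (pr c'') r := st hp (pr_mix ha hx' c'') l (pr_le _ m1 m2) k.2.2 k.1 (prc _ ha hx')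
      ((card_le_card (show _ ⊆ ({a, x, x'} : Finset P) by
        simp [pr, insert_subset_iff, union_subset_iff])).trans card_le_three) w1
    exact st (pr_mix ha hx' c'') hp' (pr_le _ m1 m2) l' k.2.2 (prc _ ha hx') k'.1
      ((card_le_card (show _ ⊆ ({a, a', x'} : Finset P) by
        simp [pr, insert_subset_iff, union_subset_iff])).trans card_le_three) w2 q' l1' l2'
  have fac : ∀ e ∈ mix A, e.1.card = 3 → ∀ r r', e < r → e < r' → V r → V r' := by
    rintro e he c3 r r' l l' hv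
    obtain ⟨⟨a, ha, haA⟩, ⟨x, hx, hxA⟩⟩ := id he
    have c := e.total ha hx
    have lt : pr c < e := lt_of_le_of_ne (pr_le c ha hx) fun h' => by
      have := prc c haA hxA
      rw [h'] at this
      omega
    exact toV (pr_mix haA hxA c) lt l' (a3 (pr_mix haA hxA c) lt l l' (hv _ (pr_mix haA hxA c) e lt l))
  have sta : ∀ c ∈ mix A, ∀ r r', c ≤ r → c ≤ r' → r.1.card = 4 → r'.1.card = 4 → V r → V r' :=
    fun c hc' r r' l l' c4 c4' => Mf.star' h V hc'.1
      (fun e he c3 => fac e (mix_upper hc' he) c3) l l' c4 c4'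
  obtain ⟨p, hp, q, -, r, hr, l1, l2, rfl⟩ := eq_triple h0
  obtain ⟨p', hp', q', -, r', hr', l1', l2', rfl⟩ := eq_triple hb
  have k := cards_flag h (mem_fs.1 hp) l1 l2
  have k' := cards_flag h (mem_fs.1 hp') l1' l2'
  have v0 : V r := toV (mem_fs.1 hp) l1 l2 Relation.ReflTransGen.refl
  have := rch_ind (hc r (mem_fs.1 hr) r' (mem_fs.1 hr'))
    (p := fun t => ∀ s, t ≤ s → s.1.card = 4 → V s)
    (fun s hs c4 => sta r (mem_fs.1 hr) r s le_rfl hs k.2.2 c4 v0) fun t ht t' ht' htt => by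
      refine ⟨fun H s hs c4 => H s (htt.trans hs) c4, fun H s hs c4 => ?_⟩
      obtain ⟨u, hu, hu'⟩ := h.pure t' ht'.1
      exact sta t ht u s (htt.trans hu) hs hu' c4 (H u hu hu')
  exact this r' le_rfl k'.2.2 p' (mem_fs.1 hp') q' l1' l2'

/-- a connected manifold in which closed surfaces bound has `eu ≤ 1`. -/
theorem eu_le_one (h : Mf 3 A) (hN : Nice A) (hB : Bnd (ZMod 2) A) (hc : Conn A) : eu A ≤ 1 := by
  have hm := conn_mix hN hB hc
  have := (Mf.pm_mix h hm).chi_le_two (Mf.dim_mix h) (cn_fs.2 hm)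
  rw [chi_fs, Mf.eu_mix h] at this
  omega

/-- `eu = 1`: the boundary is a sphere. -/
theorem h1_mix (h : Mf 3 A) (hN : Nice A) (hB : Bnd (ZMod 2) A) (hc : Conn A) (hχ : 1 ≤ eu A) :
    H1 (mix A) := by
  have hm := conn_mix hN hB hc
  refine h1_fs.1 ((Mf.pm_mix h hm).h1z_of_chi_two (Mf.dim_mix h) (cn_fs.2 hm) ?_)
  rw [chi_fs, Mf.eu_mix h]
  omega

theorem bEx_of_eu (h : Mf 3 A) (hN : Nice A) (hB : Bnd (ZMod 2) A) (hc : Conn A) (hχ : 1 ≤ eu A)
    {z : P → P → G} (hz : Coc A z) : BEx A z :=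
  Nice.bEx_of_mix hN hz (h1_mix h hN hB hc hχ G _ (Coc.cocOn_mix hz))

/-- (S): in a ball every cocycle is a coboundary on the whole star. -/
theorem eqD_cb_of_eu (h : Mf 3 A) (hN : Nice A) (hB : Bnd (ZMod 2) A) (hG : Bnd G A)
    (hc : Conn A) (hχ : 1 ≤ eu A) {z : P → P → G} (hz : Coc A z) :
    ∃ g : P → G, EqD A z (cb g) :=
  let ⟨_, hg⟩ := bEx_of_eu h hN hB hc hχ hz
  let ⟨g', _, h'⟩ := Bnd.eqD_cb hG hz hg
  ⟨g', h'⟩

end Crest.Agent.X212.Alg36
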