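import Crest.Agent.X212.Alg36.Sd1
import Crest.Agent.X212.Alg36.Hp4
import Crest.Agent.X212.Kh11.Ref

/-! SD (helper36): `Nice`, `Bnd`, `Esc`, `Good`, `Taut` under subdivision. -/

set_option autoImplicit false
set_option linter.unusedSectionVars false

namespace Crest.Agent.X212.Alg36

open Finset Classical
open Crest.Agent.X212.Hp13
open Crest.Agent.X212.Kh11 (WS sctr_min sctr_max ce_top Ch.dn)

variable {P : Type} [PartialOrder P] [Fintype P] {A : Set P} {G : Type} [AddCommGroup G]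

/-- the chains over `L` with top in `E` -/
theorem ws_up (L : Ch P) (E : Set P) :
    WS {C : Ch P | L ≤ C ∧ C.top ∈ E} {e | e ∈ E ∧ L.top ≤ e} Ch.top := by
  refine WS.of_le (fun C hC => ⟨hC.2, Ch.top_mono hC.1⟩) (fun _ _ _ _ h => Ch.top_mono h)
    fun e he => ?_
  have k : ∀ C : Ch P, C.top ≤ e → ∀ x ∈ C.1, Cm e x := fun C h x hx =>
    Or.inr ((Ch.le_top hx).trans h)
  have w : WS {C : Ch P | L ≤ C ∧ C.top = e}
      {C | C ∈ {C : Ch P | L ≤ C ∧ C.top ∈ E} ∧ C.top ≤ e} id :=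
    WS.of_clo' (fun C hC => ⟨⟨hC.1, hC.2 ▸ he.1⟩, hC.2.le⟩) fun C hC =>
      ⟨C.ins e (k C hC.2), ⟨hC.1.1.trans (C.le_ins _ _), top_ins' _ hC.2⟩, C.le_ins _ _,
        fun b hb h => insert_subset (hb.2 ▸ b.top_mem) h⟩
  exact w.ctr_iff.1 (sctr_min (m := L.ins e (k L he.2)) ⟨L.le_ins _ _, top_ins' _ he.2⟩
    fun C hC => insert_subset (hC.2 ▸ C.top_mem) hC.1)

theorem mem_dn {c : Ch P} {x y : P} {h : c.bot ≤ x} : y ∈ (Ch.dn c x h).1 ↔ y ∈ c.1 ∧ y ≤ x :=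
  mem_filter

theorem top_dn {c : Ch P} {x : P} (hx : x ∈ c.1) (h : c.bot ≤ x) : (Ch.dn c x h).top = x :=
  Ch.top_eq (mem_dn.2 ⟨hx, le_rfl⟩) fun _ hy => (mem_dn.1 hy).2

theorem dn_le {c : Ch P} {x : P} {h : c.bot ≤ x} : Ch.dn c x h ≤ c := filter_subset _ _

theorem le_dn {c e : Ch P} {x : P} {h : c.bot ≤ x} (he : e ≤ c) (hx : e.top ≤ x) :
    e ≤ Ch.dn c x h := fun _ hy => mem_dn.2 ⟨he hy, (Ch.le_top hy).trans hx⟩

theorem dn_mono {c e : Ch P} {x y : P} {h : c.bot ≤ x} {h' : e.bot ≤ y} (he : c ≤ e)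
    (hx : x ≤ y) : Ch.dn c x h ≤ Ch.dn e y h' :=
  fun _ hy => mem_dn.2 ⟨he (mem_dn.1 hy).1, (mem_dn.1 hy).2.trans hx⟩

/-- SD for `Nice` -/
theorem Nice.sd (hA : A.OrdConnected) (hN : Nice A) : Nice (Ch.top ⁻¹' A) := by
  rintro D ⟨C₀, h0, c0⟩ hD
  have off : ∀ E ∈ D.1, E.top ∉ A := fun E hE k => hD ⟨E, hE, k⟩
  by_cases hu : ∃ E ∈ D.1, C₀ ≤ E
  · obtain ⟨E, hE, hle⟩ := hu
    let U := (D.sub (D.1.filter (C₀ ≤ ·)) ⟨E, mem_filter.2 ⟨hE, hle⟩⟩ (filter_subset _ _)).bot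
    have hU : U ∈ D.1.filter (C₀ ≤ ·) := Ch.bot_mem (D.sub _ ⟨E, mem_filter.2 ⟨hE, hle⟩⟩ _)
    have hU' : ∀ F ∈ D.1, C₀ ≤ F → U ≤ F := fun F hF k =>
      Ch.bot_le (c := D.sub _ ⟨E, mem_filter.2 ⟨hE, hle⟩⟩ _) (mem_filter.2 ⟨hF, k⟩)
    obtain ⟨hU, hU0⟩ := mem_filter.1 hU
    let S := U.sub (U.1.filter (· ∈ A)) ⟨C₀.top, mem_filter.2 ⟨hU0 C₀.top_mem, h0⟩⟩
      (filter_subset _ _)
    obtain ⟨ha, ha'⟩ := mem_filter.1 S.top_mem
    have key : ∀ C : Ch P, C.top ∈ A → C ≤ U → C ≤ Ch.dn U S.top (Ch.bot_le ha) := fun C hC k =>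
      le_dn k (Ch.le_top (c := S) (mem_filter.2 ⟨k C.top_mem, hC⟩))
    refine sctr_max (m := Ch.dn U S.top (Ch.bot_le ha)) ⟨?_, fun F hF => ?_⟩ fun C hC => ?_
    · show Ch.top _ ∈ A
      rw [top_dn ha]; exact ha'
    · rcases c0 F hF with k | k
      · exact Or.inl (dn_le.trans (hU' F hF k))
      · exact Or.inr (k.trans (key C₀ h0 hU0))
    · refine key C hC.1 ((hC.2 U hU).resolve_right fun k => off U hU ?_)
      exact hA.out h0 hC.1 ⟨Ch.top_mono hU0, Ch.top_mono k⟩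
  · push Not at hu
    have hL : D.top ≤ C₀ := (c0 _ D.top_mem).resolve_left (hu _ D.top_mem)
    have hx := off _ D.top_mem
    have h1 := hN (Ch.pt D.top.top) ⟨_, h0, by simpa [Cm] using Or.inr (Ch.top_mono hL)⟩
      (by simpa [mt_pt] using hx)
    have e1 : {a | a ∈ A ∧ ∀ x ∈ (Ch.pt D.top.top).1, Cm a x} = {e | e ∈ A ∧ D.top.top ≤ e} := by
      ext a
      simp only [Set.mem_setOf_eq, Ch.pt_val, mem_singleton, forall_eq]
      exact and_congr_right fun ha => ⟨fun k => k.resolve_left fun k' =>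
        hx (hA.out ha h0 ⟨k', Ch.top_mono hL⟩), Or.inr⟩
    rw [e1, ← (ws_up D.top A).ctr_iff] at h1
    convert h1 using 1
    ext C
    refine ⟨fun k => ⟨(k.2 _ D.top_mem).resolve_left fun k' => hx ?_, k.1⟩,
      fun k => ⟨k.2, fun E hE => Or.inr ((Ch.le_top hE).trans k.1)⟩⟩
    exact hA.out k.1 h0 ⟨Ch.top_mono k', Ch.top_mono hL⟩

theorem ws_sd (E : Set P) : WS (Ch.top ⁻¹' E) E (Ch.top : Ch P → P) := ce_top.ws_pre E

/-- every cocycle of the subdivision comes from below -/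
theorem Nice.exists_pb (hA : A.OrdConnected) (hN : Nice A) {z : Ch P → Ch P → G}
    (hz : Coc (Ch.top ⁻¹' A) z) :
    ∃ (w : P → P → G) (g : Ch P → G), Coc A w ∧ EqD (Ch.top ⁻¹' A) z (pb Ch.top w + cb g) := by
  obtain ⟨w₀, h0, he⟩ := (ws_sd A).onto (Coc.cocOn hz)
  obtain ⟨w, hw, e⟩ := Nice.exists_coc hN h0
  obtain ⟨g, hg⟩ := Nice.eqD_cb (Nice.sd hA hN) (hz.sub (hw.pb Ch.top_mono))
    (ExOn.congr he fun x hx y hy k => by
      simp only [Pi.sub_apply, pb, e _ hx _ hy (Ch.top_mono k)])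
  exact ⟨w, g, hw, fun x y k => by rw [Pi.add_apply, Pi.add_apply, ← hg x y k]; simp⟩

theorem dp_dn {c e : Ch P} (h : c ≤ e) {a x y : P} (ha : a ∈ c.1) (ha' : a ∈ A) (hx : x ∈ c.1)
    (hy : y ∈ e.1) (hxy : x ≤ y) :
    Dp (Ch.top ⁻¹' A) (Ch.dn c x (Ch.bot_le hx)) (Ch.dn e y (Ch.bot_le hy)) := by
  refine ⟨dn_mono h hxy, ?_⟩
  rcases c.total ha hx with k | k
  · exact ⟨Ch.pt a, by simpa using ha', Or.inl (Ch.pt_le.2 (mem_dn.2 ⟨ha, k⟩)),
      Or.inl (Ch.pt_le.2 (mem_dn.2 ⟨h ha, k.trans hxy⟩))⟩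
  · refine ⟨Ch.dn e a (Ch.bot_le (h ha)), ?_, Or.inr (dn_mono h k), ?_⟩
    · show Ch.top _ ∈ A
      rw [top_dn (h ha)]; exact ha'
    · exact (e.total (h ha) hy).imp (dn_mono le_rfl) (dn_mono le_rfl)

/-- SD for `Bnd` -/
theorem Bnd.sd (hA : A.OrdConnected) (hN : Nice A) (hB : Bnd G A) : Bnd G (Ch.top ⁻¹' A) := by
  intro z hz h0
  obtain ⟨w, g, hw, e⟩ := Nice.exists_pb hA hN hz
  have key : ∀ C C', Dp (Ch.top ⁻¹' A) C C' → C.top ∉ A → C'.top ∉ A →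
      w C.top C'.top = -g C' - -g C := fun C C' k h1 h2 => by
    have := (h0 C C' k h1 h2).symm.trans (e C C' k)
    simp only [Pi.add_apply, pb, cb] at this
    rw [eq_neg_of_add_eq_zero_left this.symm]; abel
  have same : ∀ C C', Dp (Ch.top ⁻¹' A) C C' → C.top ∉ A → C'.top = C.top → g C = g C' :=
    fun C C' k h1 h2 => by
      have := key C C' k h1 (h2 ▸ h1)
      obtain ⟨-, a, ha, c, -⟩ := k
      rw [h2, hw.self ha (c.map Ch.top_mono)] at this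
      exact (neg_injective (sub_eq_zero.1 this.symm)).symm
  obtain ⟨γ, hγ⟩ := Nice.desc hN
    (fun c x => if h : x ∈ c.1 ∧ x ∉ A then -g (Ch.dn c x (Ch.bot_le h.1)) else 0)
    fun c hc e he x hx => by
      by_cases k : x ∈ A
      · simp [k]
      · obtain ⟨a, ha, ha'⟩ := hc.1
        rw [dif_pos ⟨hx, k⟩, dif_pos ⟨he hx, k⟩, same _ _ (dp_dn he ha ha' hx (he hx) le_rfl)
          (by rwa [top_dn hx]) (by rw [top_dn hx, top_dn (he hx)])]
  have hγ' : ∀ c ∈ mix A, ∀ x (hx : x ∈ c.1), x ∉ A → γ x = -g (Ch.dn c x (Ch.bot_le hx)) :=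
    fun c hc x hx k => (hγ c hc x hx k).trans (dif_pos ⟨hx, k⟩)
  obtain ⟨g', hg', e'⟩ := Bnd.eqD_cb hB hw (g := γ) fun x y ⟨hxy, a, ha, c1, c2⟩ hx hy => by
    obtain ⟨m1, m2, m3⟩ := mem_tr c1 c2 (Or.inl hxy)
    have hm := tr_mix ha hx c1 c2 (Or.inl hxy)
    have := key _ _ (dp_dn le_rfl m1 ha m2 m3 hxy) (by rwa [top_dn m2]) (by rwa [top_dn m3])
    rwa [top_dn m2, top_dn m3, ← hγ' _ hm x m2 hx, ← hγ' _ hm y m3 hy] at this
  have zero : ∀ C₀ C : Ch P, C₀.top ∈ A → Cm C₀ C → C.top ∉ A → g' C.top + g C = 0 :=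
    fun C₀ C k c h => by
      rw [hg' _ h]
      rcases c with c | c
      · rw [hγ' C ⟨⟨_, c C₀.top_mem, k⟩, _, C.top_mem, h⟩ _ C.top_mem h,
          le_antisymm dn_le (le_dn le_rfl le_rfl), neg_add_cancel]
      · rw [hγ' C₀ ⟨⟨_, C₀.top_mem, k⟩, _, c C.top_mem, h⟩ _ (c C.top_mem) h,
          same C _ ⟨le_dn (h := Ch.bot_le (c C.top_mem)) c le_rfl, C₀, k, Or.inr c,
            Or.inr dn_le⟩ h (top_dn (c C.top_mem) _),
          neg_add_cancel]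
  refine ⟨fun C => if C.top ∈ A then g' C.top + g C else 0, fun C h => if_neg h, fun C C' k => ?_⟩
  have v : ∀ C₀ C : Ch P, C₀.top ∈ A → Cm C₀ C →
      (if C.top ∈ A then g' C.top + g C else 0) = g' C.top + g C := fun C₀ C k c => by
    split_ifs with h
    exacts [rfl, (zero C₀ C k c h).symm]
  have h1 := e C C' k
  have h2 := e' _ _ (k.map Ch.top_mono)
  obtain ⟨-, a, ha, c1, c2⟩ := k
  simp only [Pi.add_apply, Pi.zero_apply, pb, cb, v a _ ha c1, v a _ ha c2] at h1 h2 ⊢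
  rw [h1, h2]; abel

/-- SD for `Esc` -/
theorem Esc.sd {E : Set P} (h : Esc A E) : Esc (Ch.top ⁻¹' A) (Ch.top ⁻¹' E) := fun C hC => by
  obtain ⟨b, hb, r, x, hx, c⟩ := h _ hC
  have hC' : C.top ∈ A := r.symm.mem hb
  rcases c with c | c
  · exact ⟨Ch.pt b, by simpa using hb, ((ws_sd A).rch_iff hC' (by simpa using hb)).2
      (by simpa using r), Ch.pr b x c, by simpa using hx, Or.inl (Ch.pt_le.2 (by simp))⟩
  · exact ⟨Ch.pr x b c, by simpa using hb, ((ws_sd A).rch_iff hC' (by simpa using hb)).2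
      (by simpa using r), Ch.pt x, by simpa using hx, Or.inr (Ch.pt_le.2 (by simp))⟩

variable {s t : St} {f : t.P → s.P}

theorem Good.sd (h : Good s) : Good s.sd :=
  ⟨convex_pre Ch.top_mono h.conv, Mf.sd h.mf, Nice.sd h.conv h.nice,
    Bnd.sd h.conv h.nice h.bnd, Bnd.sd h.conv h.nice h.bnd2⟩

theorem Good.desc (h : Good s) (hd : Desc s t f) : Good t := by
  induction hd with
  | refl => exact h
  | step _ ih => exact Good.sd ih

theorem Nice.desc' (hA : s.A.OrdConnected) (h : Nice s.A) (hd : Desc s t f) : Nice t.A := by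
  induction hd with
  | refl => exact h
  | step k ih => exact Nice.sd (k.conv hA) ih

theorem Bnd.desc (hA : s.A.OrdConnected) (hN : Nice s.A) (h : Bnd G s.A) (hd : Desc s t f) :
    Bnd G t.A := by
  induction hd with
  | refl => exact h
  | step k ih => exact Bnd.sd (k.conv hA) (Nice.desc' hA hN k) ih

theorem Esc.desc {E : Set s.P} (h : Esc s.A E) (hd : Desc s t f) : Esc t.A (f ⁻¹' E) := by
  induction hd with
  | refl => exact h
  | step _ ih => exact Esc.sd ih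

theorem Esc.desc' (h : Esc s.A s.A) (hd : Desc s t f) : Esc t.A t.A := by
  have := Esc.desc h hd
  rwa [← hd.A_eq] at this

theorem max_congr {z z' : s.P → s.P → ℤ} (h : Max s z) (e : EqD s.A z z') : Max s z' :=
  h.of_eqv (Eqv.of_eqD e) (chi_congr e).le

theorem Taut.desc (h : Taut s) (hd : Desc s t f) : Taut t :=
  ⟨Good.desc h.toGood hd, Kh11.sf_congr (hd.sf h.sfm) (hd.Rm h.conv).symm,
    Kh11.sf_congr (hd.sf h.sfp) (hd.Rp h.conv).symm, hd.ee_A.trans h.bal,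
    max_congr (h.max.desc hd) (hd.Rm h.conv)⟩

theorem Taut.sd (h : Taut s) : Taut s.sd := Taut.desc h (Desc.sd s)

/-- every cocycle of a descendant comes from below -/
theorem Nice.exists_pb_desc (hA : s.A.OrdConnected) (hN : Nice s.A) (hd : Desc s t f)
    {z : t.P → t.P → G} (hz : Coc t.A z) :
    ∃ (w : s.P → s.P → G) (g : t.P → G), Coc s.A w ∧ EqD t.A z (pb f w + cb g) := by
  induction hd with
  | refl => exact ⟨z, 0, hz, by rw [cb_zero, add_zero]; exact EqD.rfl⟩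
  | @step t f k ih =>
    obtain ⟨w, g, hw, e⟩ := Nice.exists_pb (k.conv hA) (Nice.desc' hA hN k) hz
    obtain ⟨w', g', hw', e'⟩ := ih hw
    refine ⟨w', g' ∘ Ch.top + g, hw', e.trans ?_⟩
    have := (e'.pb Ch.top_mono).add (EqD.rfl (z := cb g))
    rwa [pb_add, pb_cb, add_assoc, ← cb_add] at this

end Crest.Agent.X212.Alg36
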