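import Crest.Agent.X212.Hp13.Tst
import Crest.Agent.X212.Sup43.Defs
import Crest.Agent.X212.Alg36.Sd2

/-! INC (helper36), part 1: a disc cut off by the curve `∂E` gives a positive closed piece. -/

set_option autoImplicit false
set_option linter.unusedSectionVars false

namespace Crest.Agent.X212.Alg36

open Finset Classical
open Crest.Agent.X212.Hp13
open Crest.Agent.X212.Sup43 (nu th Pc)
open Crest.Agent.X212.Sf30 (lo lo_iff lo_of_le lt_of_lo exists_dn lo_bot not_lo_top la_upper)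

variable {P Q : Type} [PartialOrder P] [Fintype P] [PartialOrder Q] [Fintype Q] {A : Set P}
  {X Y : P → P → ℤ} {ω : P → ℤ}

/-- closed curves have Euler characteristic zero -/
theorem Mf.sum_clo_mix {E : Set P} (h : Mf 2 E) {K : Set (Ch P)} (hK : K ⊆ mix E)
    (hc : ∀ c ∈ K, ∀ e ∈ mix E, Cm c e → e ∈ K) : ∑ c ∈ univ.filter (· ∈ K), c.sg = 0 := by
  have h1 := Mf.dual_sum h (ind K) fun e he => ind_of_not fun k => he (hK k).1
  have h2 : ∀ c : Ch P, ∑ e ∈ univ.filter (· ≤ c), e.sg * ind K e = ind K c := fun c => by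
    by_cases k : c ∈ K
    · rw [ind_of_mem k, ← sum_faces_mix (hK k)]
      refine sum_congr rfl fun e he => ?_
      by_cases l : e ∈ mix E
      · rw [ind_of_mem (hc c k e l (Or.inr (mem_filter.1 he).2)), iMt_of l.1, iMt_of l.2, one_mul]
      · rw [ind_of_not fun a => l (hK a)]
        rcases not_and_or.1 l with a | a <;> simp [iMt_not a]
    · rw [ind_of_not k]
      refine sum_eq_zero fun e he => ?_
      rw [ind_of_not fun a => k (hc e a c (mix_upper (hK a) (mem_filter.1 he).2)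
        (Or.inl (mem_filter.1 he).2)), mul_zero]
  simp only [h2] at h1
  have h3 : ∑ c ∈ univ.filter (· ∈ K), c.sg = ∑ c : Ch P, c.sg * ind K c := by
    rw [sum_filter]
    exact sum_congr rfl fun c _ => by unfold ind; split_ifs <;> simp
  norm_num at h1
  omega

theorem nu_anti [hX : IsCoc A X] (hY : Mono A Y) (ex : EqD A (X + Y) (cb ω)) :
    Antitone (nu ω : Lv A X → ℤ) := fun p q h => by
  obtain ⟨h1, h2⟩ := Lv.le_iff.1 h
  have d := q.2.1.dp q.1.1.bot_mem (h1 p.1.1.bot_mem) (Ch.bot_anti h1)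
  have e := ex _ _ d
  have := hY _ _ d
  simp only [Pi.add_apply, cb] at e
  simp only [nu]
  omega

theorem th_le [hY : IsCoc A Y] (hX : Coc A X) (ex : EqD A (X + Y) (cb ω)) {p q : Lv A Y}
    (h : p ≤ q) : th X ω q = th X ω p + X p.1.1.top q.1.1.top := by
  obtain ⟨h1, h2⟩ := Lv.le_iff.1 h
  have e := ex _ _ (q.2.1.dp q.1.1.bot_mem (h1 p.1.1.bot_mem) (Ch.bot_anti h1))
  have e1 := hX.add' q.2.1 q.1.1.bot_mem (h1 p.1.1.bot_mem) q.1.1.top_mem (Ch.bot_anti h1)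
    (Ch.le_top (h1 p.1.1.bot_mem))
  have e2 := hX.add' q.2.1 (h1 p.1.1.bot_mem) (h1 p.1.1.top_mem) q.1.1.top_mem p.1.1.bot_le_top
    (Ch.top_mono h1)
  simp only [Pi.add_apply, cb] at e
  simp only [th]
  omega

/-- DOWN: a positive closed union of pieces at a finer level -/
theorem down [IsCoc A X] {f : Q → P} {B : Set Q} {w : Q → Q → ℤ} [IsCoc B w]
    (h : Kh11.Rf f A X B w) (hX : Mono A X) (hY : Mono A Y) (ex : EqD A (X + Y) (cb ω))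
    {D : Set (Lv B w)} (hD : ∀ p ∈ D, ∀ q, q ≤ p → q ∈ LA B w)
    (hc : ∀ p ∈ D, ∀ r ∈ LA B w, Cm p r → nu (ω ∘ f) r = nu (ω ∘ f) p → r ∈ D)
    (hp : 0 < chiC D) : ∃ E', Pc (LA A X) (nu ω) E' ∧ 0 < chiC E' := by
  have e : ∀ p, nu ω (h.map p) = nu (ω ∘ f) p := fun p => by
    simp only [nu, Kh11.Rf.map_ch, Kh11.Rf.map_lv, h.im_bot, Function.comp]
  obtain ⟨n, hn⟩ : ∃ n, 0 < chiC {p | p ∈ D ∧ nu (ω ∘ f) p = n} := by
    by_contra k
    push Not at k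
    refine hp.not_ge ?_
    rw [chiC, ← sum_fiberwise_of_maps_to (t := (univ.filter (· ∈ D)).image (nu (ω ∘ f)))
      (g := nu (ω ∘ f)) fun p hp => mem_image_of_mem _ hp]
    refine sum_nonpos fun n _ => le_of_eq_of_le ?_ (k n)
    rw [chiC, filter_filter]
    exact sum_congr (by ext; simp) fun _ _ => rfl
  let V : Set (Lv A X) := {p | p ∈ LA A X ∧ nu ω p = n}
  have hV : V.OrdConnected := ⟨fun a ha b hb c hc => ⟨la_upper hc.1 ha.1, le_antisymm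
    (ha.2 ▸ nu_anti hY ex hc.1) (hb.2 ▸ nu_anti hY ex hc.2)⟩⟩
  have ws := h.ws hX (V := V) (fun _ k => k.1) hV
  have mem : ∀ p, p ∈ h.map ⁻¹' V ↔ p ∈ LA B w ∧ nu (ω ∘ f) p = n := fun p => by
    rw [← h.map_LA, ← e]; rfl
  have sub : {p | p ∈ D ∧ nu (ω ∘ f) p = n} ⊆ h.map ⁻¹' V := fun p k =>
    (mem p).2 ⟨hD p k.1 p le_rfl, k.2⟩
  have clo : ∀ p ∈ {p | p ∈ D ∧ nu (ω ∘ f) p = n}, ∀ q ∈ h.map ⁻¹' V, Cm p q →
      q ∈ {p | p ∈ D ∧ nu (ω ∘ f) p = n} := fun p k q l c =>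
    ⟨hc p k.1 q ((mem q).1 l).1 c (((mem q).1 l).2.trans k.2.symm), ((mem q).1 l).2⟩
  obtain ⟨p, k, l⟩ := exists_cmp_pos sub clo hn
  obtain ⟨E', h1, h2⟩ := ws.isCmp_ex (isCmp_cmp (sub k))
  have h3 : cmp (h.map ⁻¹' V) p = h.map ⁻¹' E' :=
    h2.trans (Set.ext fun t => ⟨fun a => a.2, fun a => ⟨h1.sub a, a⟩⟩)
  refine ⟨E', ⟨⟨n, h1⟩, fun a ha q hq => ?_⟩, by rwa [← h.chiC_pre fun _ a => (h1.sub a).1, ← h3]⟩
  obtain ⟨a, rfl⟩ := h.surj (h1.sub ha).1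
  obtain ⟨q, hq', rfl⟩ := h.face hq
  have : a ∈ cmp (h.map ⁻¹' V) p := h3 ▸ ha
  exact h.map_LA.2 (hD a ((this.2.in_clopen clo k).mem k).1 q hq')

theorem chiC_eq_of {α : Type} [Fintype α] {T : Set α} {G : Set (Lv A X)} (s : α → ℤ)
    (R : α → Lv A X → Prop) (h1 : ∀ a ∈ T, ∃ p ∈ G, R a p) (h2 : ∀ p ∈ G, ∃ a ∈ T, R a p)
    (h3 : ∀ a ∈ T, ∀ b ∈ T, ∀ p, R a p → R b p → a = b) (h4 : ∀ a p q, R a p → R a q → p = q)
    (h5 : ∀ a p, R a p → s a = p.1.1.sg) : chiC G = ∑ a ∈ univ.filter (· ∈ T), s a := by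
  choose g hg hg' using h1
  refine (sum_bij (fun a h => g a (mem_filter.1 h).2) (fun a h => mem_filter.2 ⟨mem_univ _, hg a _⟩)
    (fun a h b h' e => h3 a (mem_filter.1 h).2 b (mem_filter.1 h').2 _ (hg' a _) (e ▸ hg' b _))
    (fun p h => ?_) fun a h => h5 _ _ (hg' a _)).symm
  obtain ⟨a, ha, k⟩ := h2 p (mem_filter.1 h).2
  exact ⟨a, mem_filter.2 ⟨mem_univ _, ha⟩, h4 a _ _ (hg' a _) k⟩

section io
variable [IsCoc A Y]

/-- the chain of chains under a chain of cells -/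
noncomputable def io (K : Ch (Lv A Y)) : Ch (Ch P) := Ch.img Lv.ch (fun _ _ h => Lv.ch_le h) K

theorem mem_io {K : Ch (Lv A Y)} {c : Ch P} : c ∈ (io K).1 ↔ ∃ p ∈ K.1, p.1.1 = c := Ch.mem_img
theorem io_mem {K : Ch (Lv A Y)} {p : Lv A Y} (h : p ∈ K.1) : p.1.1 ∈ (io K).1 :=
  mem_io.2 ⟨p, h, rfl⟩
theorem top_io (K : Ch (Lv A Y)) : (io K).top = K.top.1.1 := Ch.top_img _ K
theorem bot_io (K : Ch (Lv A Y)) : (io K).bot = K.bot.1.1 := Ch.bot_img _ K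
theorem io_mono {K L : Ch (Lv A Y)} (h : K ≤ L) : io K ≤ io L := Ch.img_mono _ h

theorem sg_io (K : Ch (Lv A Y)) : (io K).sg = K.sg := by
  rw [Ch.sg, Ch.sg]
  congr 1
  exact card_image_of_injOn fun p hp q hq e => (K.total hp hq).elim
    (fun k => Sf30.lv_eq_of_le k e) fun k => (Sf30.lv_eq_of_le k e.symm).symm

theorem io_face {K : Ch (Lv A Y)} {C : Ch (Ch P)} (h : C ≤ io K) : ∃ L, L ≤ K ∧ io L = C := by
  obtain ⟨p, hp, e⟩ := mem_io.1 (h C.top_mem)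
  refine ⟨K.sub (K.1.filter fun p => p.1.1 ∈ C.1) ⟨p, mem_filter.2 ⟨hp, e ▸ C.top_mem⟩⟩
    (filter_subset _ _), filter_subset _ _, Ch.ext (Finset.ext fun c => mem_io.trans ?_)⟩
  refine ⟨fun ⟨q, hq, e⟩ => e ▸ (mem_filter.1 hq).2, fun k => ?_⟩
  obtain ⟨q, hq, rfl⟩ := mem_io.1 (h k)
  exact ⟨q, mem_filter.2 ⟨hq, k⟩, rfl⟩

theorem io_lift (hm : Mono A Y) (k : Lv A Y) {C : Ch (Ch P)} (h : k.1.1 ≤ C.bot)
    (hd : Dom A C.top) : ∃ K, io K = C ∧ ∀ p ∈ K.1, k ≤ p := by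
  have e : ∀ c, ∃ q : Lv A Y, c ∈ C.1 → q.1.1 = c ∧ k ≤ q := fun c => by
    by_cases hc : c ∈ C.1
    · obtain ⟨q, h1⟩ := Lv.exists_ge hm k (hd.mono (Ch.le_top hc)) (h.trans (Ch.bot_le hc))
      exact ⟨q, fun _ => h1⟩
    · exact ⟨k, fun a => absurd a hc⟩
  choose g hg using e
  refine ⟨Ch.mk' (C.1.image g) (C.2.1.image g) fun a ha b hb => ?_, Ch.ext (Finset.ext fun c =>
    mem_io.trans ⟨?_, fun a => ⟨g c, mem_image_of_mem _ a, (hg c a).1⟩⟩),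
    fun p hp => ?_⟩
  · obtain ⟨c, hc, rfl⟩ := mem_image.1 ha
    obtain ⟨d, hd, rfl⟩ := mem_image.1 hb
    exact (C.total hc hd).imp
      (fun l => Sf30.lv_le_of_ge (hg c hc).2 (hg d hd).2 (by rwa [(hg c hc).1, (hg d hd).1]))
      fun l => Sf30.lv_le_of_ge (hg d hd).2 (hg c hc).2 (by rwa [(hg c hc).1, (hg d hd).1])
  · rintro ⟨q, hq, e⟩
    obtain ⟨d, hd, rfl⟩ := mem_image.1 hq
    rw [← e, (hg d hd).1]; exact hd
  · obtain ⟨d, hd, rfl⟩ := mem_image.1 hp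
    exact (hg d hd).2

/-- the cells next to `E` are determined by their chains -/
def Inj (E : Set (Lv A Y)) : Prop :=
  ∀ p q : Lv A Y, (∃ e ∈ E, Cm e p) → (∃ e ∈ E, Cm e q) → p.1.1 = q.1.1 → p = q

variable {E : Set (Lv A Y)}

theorem Inj.le (h : Inj E) {K L : Ch (Lv A Y)} (hK : ∀ p ∈ K.1, ∃ e ∈ E, Cm e p)
    (hL : ∀ p ∈ L.1, ∃ e ∈ E, Cm e p) (k : io K ≤ io L) : K ≤ L := fun p hp => by
  obtain ⟨q, hq, e⟩ := mem_io.1 (k (io_mem hp))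
  exact h q p (hL q hq) (hK p hp) e ▸ hq

theorem near {K : Ch (Lv A Y)} (h : Mt E K) : ∀ p ∈ K.1, ∃ e ∈ E, Cm e p :=
  fun _ hp => let ⟨e, he, k⟩ := h; ⟨e, k, K.cm he hp⟩

/-- the curve `∂E` on the surface `X`, one level up -/
def Gam (X : P → P → ℤ) (E : Set (Lv A Y)) : Set (Lv (Ch.top ⁻¹' A) (pb Ch.top X)) :=
  {p | ∃ K ∈ mix E, io K = p.1.1}

/-- the high part of the chain of a cell -/
noncomputable def hp (k : Lv A Y) : Ch P :=
  k.1.1.sub (k.1.1.1.filter fun x => ¬ lo k x) ⟨_, mem_filter.2 ⟨k.1.1.top_mem, not_lo_top k⟩⟩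
    (filter_subset _ _)

theorem hp_le (k : Lv A Y) : hp k ≤ k.1.1 := filter_subset _ _

theorem hp_mono {k l : Lv A Y} (h : k ≤ l) : hp k ≤ hp l := fun x hx =>
  mem_filter.2 ⟨Lv.ch_le h (mem_filter.1 hx).1,
    fun a => (mem_filter.1 hx).2 ((lo_iff h (mem_filter.1 hx).1).1 a)⟩

theorem not_le_hp {k l : Lv A Y} (h : k ≤ l) : ¬ k.1.1 ≤ hp l := fun a =>
  (mem_filter.1 (a k.1.1.bot_mem)).2 ((lo_iff h k.1.1.bot_mem).2 (lo_bot k))

end io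

/-- FIN -/
theorem fin_piece [IsCoc A X] [hY : IsCoc A Y] [IsCoc (Ch.top ⁻¹' A) (pb Ch.top X)]
    (hM : Mf 3 A) (mX : Mono A X) (mY : Mono A Y) (jx : ∀ x y, Dp A x y → X x y ≤ 1)
    (ex : EqD A (X + Y) (cb ω)) {E : Set (Lv A Y)} (hE : E ⊆ LA A Y)
    (hA : ∀ p ∈ E, p.1.1.top ∈ A) (hi : Inj E)
    (hc : ∀ K ∈ mix E, 0 < X K.bot.1.1.top K.top.1.1.top) (hl : IsLowerSet (Gam X E))
    {D : Set (Lv (Ch.top ⁻¹' A) (pb Ch.top X))} (hD : D ⊆ LA _ _ \ Gam X E)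
    (hcl : ∀ p ∈ D, ∀ r ∈ LA _ _ \ Gam X E, Cm p r → r ∈ D) (hT : ¬ Tch _ _ D)
    (hp0 : 0 < chiC D) : ∃ E', Pc (LA A X) (nu ω) E' ∧ 0 < chiC E' := by
  have m1 : Mono (Ch.top ⁻¹' A) (pb Ch.top X) := mX.pb Ch.top_mono
  have emb := emb_univ m1 fun x y k => jx _ _ (k.map Ch.top_mono)
  have le : ∀ p q : Lv (Ch.top ⁻¹' A) (pb Ch.top X), p.1.1 ≤ q.1.1 → p ≤ q :=
    fun p q => emb p trivial q trivial
  have mt : ∀ K ∈ mix E, Mt (Ch.top ⁻¹' A) (io K) := fun K ⟨⟨e, he, k⟩, _⟩ =>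
    ⟨_, io_mem he, hA e k⟩
  have cell : ∀ K ∈ mix E, ∀ C, io K ≤ C → ∃ r ∈ LA (Ch.top ⁻¹' A) (pb Ch.top X), r.1.1 = C := by
    intro K hK C k
    obtain ⟨r, h, -⟩ := Lv.exists_ge m1 ⟨(io K, 0), (mt K hK).dom, le_rfl, by
      show 0 < X (io K).bot.top (io K).top.top
      rw [bot_io, top_io]; exact hc K hK⟩ ((mt K hK).mono k).dom k
    exact ⟨r, show Mt _ _ from h ▸ (mt K hK).mono k, h⟩
  have nG : ∀ K ∈ mix E, ∀ r : Lv (Ch.top ⁻¹' A) (pb Ch.top X), io K ≤ r.1.1 →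
      r.1.1.bot ≤ hp K.bot → r ∉ Gam X E := by
    rintro K hK r k l ⟨L, hL, e⟩
    rw [← e] at k l
    rw [bot_io] at l
    exact not_le_hp (Ch.bot_anti (hi.le (near hK.1) (near hL.1) k)) l
  have ins : ∀ (K : Ch (Lv A Y)) (c : Ch P), c ≤ hp K.bot → ∀ x ∈ (io K).1, Cm c x :=
    fun K c k x hx => Or.inl (k.trans ((hp_le _).trans (bot_io K ▸ Ch.bot_le hx)))
  -- all the high neighbours of a cell of the curve lie on one side
  have side : ∀ K ∈ mix E, ∀ r t : Lv (Ch.top ⁻¹' A) (pb Ch.top X), io K ≤ r.1.1 →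
      r.1.1.bot ≤ hp K.bot → t.1.1 = (io K).ins _ (ins K _ le_rfl) → (r ∈ D ↔ t ∈ D) := by
    intro K hK r t k l e
    have c2 : ∀ x ∈ ((io K).ins _ (ins K _ le_rfl)).1, Cm r.1.1.bot x := fun x hx => by
      rcases mem_insert.1 hx with rfl | hx
      exacts [Or.inl l, ins K _ l x hx]
    obtain ⟨a, ha, ea⟩ := cell K hK _ ((io K).le_ins _ (ins K _ l))
    obtain ⟨b, hb, eb⟩ := cell K hK _ (((io K).le_ins _ _).trans (Ch.le_ins _ _ c2))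
    have ar : a ≤ r := le _ _ (ea ▸ insert_subset r.1.1.bot_mem k)
    have ab : a ≤ b := le _ _ (by
      rw [ea, eb]; exact insert_subset_insert _ (subset_insert _ _))
    have tb : t ≤ b := le _ _ (by rw [e, eb]; exact Ch.le_ins _ _ _)
    have ka : io K ≤ a.1.1 := ea ▸ Ch.le_ins _ _ _
    have kt : io K ≤ t.1.1 := e ▸ Ch.le_ins _ _ _
    have na := nG K hK a ka ((Ch.bot_le (ea ▸ mem_insert_self _ _)).trans l)
    have nt := nG K hK t kt (Ch.bot_le (e ▸ mem_insert_self _ _))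
    have nb : b ∉ Gam X E := fun k => na (hl ab k)
    have nr : r ∉ Gam X E := fun k => na (hl ar k)
    have lt : t ∈ LA _ _ := (mt K hK).mono kt
    exact ⟨fun h => hcl _ (hcl _ (hcl _ h a ⟨ha, na⟩ (Or.inr ar)) b ⟨hb, nb⟩ (Or.inl ab)) t
      ⟨lt, nt⟩ (Or.inr tb), fun h => hcl _ (hcl _ (hcl _ h b ⟨hb, nb⟩ (Or.inl tb)) a ⟨ha, na⟩
        (Or.inr ab)) r ⟨la_upper ar ha, nr⟩ (Or.inl ar)⟩
  let KK : Set (Ch (Lv A Y)) := {K | K ∈ mix E ∧ ∃ r ∈ D, io K ≤ r.1.1 ∧ r.1.1.bot ≤ hp K.bot}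
  have all : ∀ K ∈ KK, ∀ r : Lv (Ch.top ⁻¹' A) (pb Ch.top X), io K ≤ r.1.1 →
      r.1.1.bot ≤ hp K.bot → r ∈ D := fun K ⟨hK, a, ha, k1, k2⟩ r k l => by
    obtain ⟨t, -, e⟩ := cell K hK _ ((io K).le_ins _ (ins K _ le_rfl))
    exact (side K hK r t k l e).2 ((side K hK a t k1 k2 e).1 ha)
  have clo : ∀ K ∈ KK, ∀ L ∈ mix E, Cm K L → L ∈ KK := fun K hK L hL c => by
    rcases c with c | c
    · obtain ⟨t, -, e⟩ := cell L hL _ ((io L).le_ins _ (ins L _ le_rfl))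
      have k1 : io L ≤ t.1.1 := e ▸ Ch.le_ins _ _ _
      have k2 : t.1.1.bot ≤ hp L.bot := Ch.bot_le (e ▸ mem_insert_self _ _)
      exact ⟨hL, t, all K hK t ((io_mono c).trans k1) (k2.trans (hp_mono (Ch.bot_anti c))), k1, k2⟩
    · obtain ⟨-, r, hr, k1, k2⟩ := hK
      exact ⟨hL, r, hr, (io_mono c).trans k1, k2.trans (hp_mono (Ch.bot_anti c))⟩
  -- above a cell of the curve and at the same level: on the curve or high
  have high : ∀ K ∈ mix E, ∀ p r : Lv (Ch.top ⁻¹' A) (pb Ch.top X), io K = p.1.1 → p ≤ r →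
      r ∉ Gam X E → nu (ω ∘ Ch.top) r = nu (ω ∘ Ch.top) p → r.1.1.bot ≤ hp K.bot := by
    intro K hK p r e k n l
    obtain ⟨k1, k2⟩ := Lv.le_iff.1 k
    have hb : r.1.1.bot ≤ K.bot.1.1 := by rw [← bot_io, e]; exact Ch.bot_anti k1
    have d := K.bot.2.1.dp (hb r.1.1.bot.top_mem) K.bot.1.1.top_mem (Ch.top_mono hb)
    have e1 := ex _ _ d
    have e2 := hY.coc.add' K.bot.2.1 K.bot.1.1.bot_mem (hb r.1.1.bot.top_mem) K.bot.1.1.top_mem
      (Ch.bot_le (hb r.1.1.bot.top_mem)) (Ch.top_mono hb)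
    have e3 := K.bot.2.2.2
    simp only [nu, Function.comp, pb, ← e, bot_io, Pi.add_apply, cb] at l k2 e1
    have t : ¬ lo K.bot r.1.1.bot.top := by unfold lo; omega
    refine fun x hx => mem_filter.2 ⟨hb hx, fun a => n ?_⟩
    obtain ⟨q, q1, q2⟩ := exists_dn mY K.bot hb hx r.1.1.bot.top_mem a t
    obtain ⟨a, ha, c⟩ := r.2.1
    obtain ⟨L, l1, l2⟩ := io_lift mY q (C := r.1.1) q1.le (dom_of_cm ha (c _ r.1.1.top_mem))
    have : K ≤ L := fun u hu => by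
      obtain ⟨v, hv, ev⟩ := mem_io.1 (l1 ▸ k1 (e ▸ io_mem hu))
      exact Sf30.lv_eq_of_ge (l2 v hv) (q2.trans (Ch.bot_le hu)) ev ▸ hv
    exact ⟨L, mix_upper hK this, l1⟩
  let G : Set (Lv (Ch.top ⁻¹' A) (pb Ch.top X)) := {p | ∃ K ∈ KK, io K = p.1.1}
  have GG : G ⊆ Gam X E := fun p ⟨K, hK, e⟩ => ⟨K, hK.1, e⟩
  have gla : Gam X E ⊆ LA (Ch.top ⁻¹' A) (pb Ch.top X) := fun p ⟨K, hK, e⟩ => show Mt _ _ from e ▸ mt K hK
  have z : chiC G = 0 := by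
    rw [← Mf.sum_clo_mix ((Sf30.mf_LA hM mY).mono hE) (fun _ k => k.1) clo]
    refine chiC_eq_of Ch.sg (fun K p => io K = p.1.1) (fun K h => ?_) (fun p h => h)
      (fun K h L h' p e e' => ?_) (fun K p q e e' => ?_) fun K p e => by rw [← e, sg_io]
    · obtain ⟨r, -, e⟩ := cell K h.1 _ le_rfl
      exact ⟨r, ⟨K, h, e.symm⟩, e.symm⟩
    · have n1 := near h.1.1
      have n2 := near h'.1.1
      exact le_antisymm (hi.le n1 n2 (e.trans e'.symm).le) (hi.le n2 n1 (e.trans e'.symm).ge)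
    · exact le_antisymm (le _ _ (e.symm.trans e').le) (le _ _ (e.symm.trans e').ge)
  refine down (Kh11.ce_top.rf A X) mX mY ex (D := D ∪ G) (fun p k q l => ?_)
    (fun p k r hr c l => ?_) (by
      rwa [chiC_union (Set.disjoint_left.2 fun p a b => (hD a).2 (GG b)), z, add_zero])
  · rcases k with k | k
    · exact by_contra fun n => hT ⟨p, k, q, n, l⟩
    · exact gla (hl l (GG k))
  by_cases g : r ∈ Gam X E
  · obtain ⟨L, hL, e⟩ := id g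
    refine Or.inr ⟨L, ?_, e⟩
    rcases k with k | ⟨K, hK, e'⟩
    · have c := c.resolve_left fun a => (hD k).2 (hl a g)
      exact ⟨hL, p, k, e ▸ Lv.ch_le c, high L hL r p e c (hD k).2 l.symm⟩
    · refine clo K hK L hL (c.imp (fun a => hi.le (near hK.1.1) (near hL.1) ?_)
        fun a => hi.le (near hL.1) (near hK.1.1) ?_) <;> rw [e, e'] <;> exact Lv.ch_le a
  · rcases k with k | ⟨K, hK, e'⟩
    · exact Or.inl (hcl p k r ⟨hr, g⟩ c)
    · have c := c.resolve_right fun a => g (hl a ⟨K, hK.1, e'⟩)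
      exact Or.inl (all K hK r (e' ▸ Lv.ch_le c) (high K hK.1 p r e' c g l))

end Crest.Agent.X212.Alg36
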