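import Crest.Agent.X212.Alg36.Inc1

/-! INC (helper36), part 2: the lower and the upper piece. -/

set_option autoImplicit false
set_option linter.unusedSectionVars false

namespace Crest.Agent.X212.Alg36

open Finset Classical
open Crest.Agent.X212.Hp13
open Crest.Agent.X212.Sup43 (nu th Pc Pos IncLStmt)
open Crest.Agent.X212.Sf30 (lo lo_iff exists_vx lo_bot not_lo_top la_upper lv_le_of_ge)

variable {P : Type} [PartialOrder P] [Fintype P] {A : Set P} {X Y : P → P → ℤ} {ω : P → ℤ}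

theorem emb_lower [hY : IsCoc A Y] (hX : Coc A X) (mX : Mono A X) (mY : Mono A Y)
    (ex : EqD A (X + Y) (cb ω)) {E : Set (Lv A Y)} {n : ℤ}
    (hE : IsCmp {p | p ∈ LA A Y ∧ th X ω p = n} E) (hl : IsLowerSet E) :
    Emb {q | ∃ p ∈ E, p ≤ q} := by
  have aux : ∀ u v : Lv A Y, u.1.1 = v.1.1 → ∀ e ∈ E, ∀ f ∈ E, e ≤ u → f ≤ v →
      ¬ u.1.2 < v.1.2 := by
    intro u v h e he f hf k l lt
    have t1 := th_le hX ex k
    have t2 := th_le hX ex l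
    rw [(hE.sub he).2] at t1
    rw [(hE.sub hf).2] at t2
    have m1 : e.1.1.top ∈ u.1.1.1 := Lv.ch_le k e.1.1.top_mem
    have m2 : f.1.1.top ∈ u.1.1.1 := h ▸ Lv.ch_le l f.1.1.top_mem
    simp only [th, ← h] at t1 t2
    rcases u.1.1.total m1 m2 with a | a
    · have := hX.add' u.2.1 m1 m2 u.1.1.top_mem a (Ch.le_top m2)
      have := mX _ _ (u.2.1.dp m1 m2 a)
      omega
    have nl : ¬ lo u f.1.1.top := fun b => (lo_iff l f.1.1.top_mem).not.2 (not_lo_top f) (by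
      unfold lo at b ⊢; rw [← h]; omega)
    have c : ∀ x ∈ e.1.1.1, Cm f.1.1.top x := fun x hx => u.1.1.cm m2 (Lv.ch_le k hx)
    have c' : e.1.1.ins _ c ≤ u.1.1 := insert_subset m2 (Lv.ch_le k)
    obtain ⟨g, g1, g2⟩ := Lv.exists_ge mY e (u.2.1.mono c') (e.1.1.le_ins _ c)
    have gu : g ≤ u := lv_le_of_ge g2 k (g1 ▸ c')
    have gt : g.1.1.top = e.1.1.top := by rw [g1, top_ins c a]
    have gE : g ∈ E := hE.clopen he ⟨la_upper g2 (hE.sub he).1, by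
      rw [th_le hX ex g2, gt, Kh11.dom_self hX e.2.1 e.1.1.top_mem, add_zero, (hE.sub he).2]⟩
      (Or.inl g2)
    have m3 : f.1.1.top ∈ g.1.1.1 := g1 ▸ mem_insert_self _ _
    obtain ⟨w, w1, w2⟩ := exists_vx mY g g.1.1.bot_mem m3 (lo_bot g) ((lo_iff gu m3).not.1 nl)
    have t3 := th_le hX ex w2
    rw [(hE.sub gE).2, (hE.sub (hl w2 gE)).2, w1, Ch.top_pr, gt] at t3
    have := hX.add' u.2.1 m2 m1 u.1.1.top_mem a (Ch.le_top m1)
    omega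
  rintro p ⟨e, he, k⟩ q ⟨f, hf, l⟩ h
  obtain ⟨u, u1, u2⟩ := Lv.exists_ge mY p q.2.1 h
  exact Lv.ext u1 (le_antisymm (not_lt.1 (aux q u u1.symm f hf e he l (k.trans u2)))
    (not_lt.1 (aux u q u1 e he f hf (k.trans u2) l))) ▸ u2

theorem lev_zero (jx : ∀ x y, Dp A x y → X x y ≤ 1) (p : Lv A X) :
    p.1.2 = 0 ∧ X p.1.1.bot p.1.1.top = 1 := by
  have := jx _ _ p.2.1.bt
  have := p.2.2
  omega

theorem mt_up (hA : IsUpperSet A) {c : Ch P} (h : Mt A c) : c.top ∈ A :=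
  let ⟨_, ha, k⟩ := h; hA (Ch.le_top ha) k

theorem incLStmt : IncLStmt := by
  intro s X Y ω hX hY E h hE h1 hl hu
  obtain ⟨n, hn⟩ := hE.cmp
  have mX := h.sx.mono
  have mY := h.sy.mono
  have emb := emb_lower hX.coc mX mY h.ex hn hl
  have sub : E ⊆ LA s.A Y := fun p k => (hn.sub k).1
  have hA : ∀ p ∈ E, p.1.1.top ∈ s.A := fun p k => mt_up h.up (sub k)
  have star : ∀ p ∈ E, ∀ q, Cm p q → q ∈ {q | ∃ p ∈ E, p ≤ q} := fun p k q c =>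
    c.elim (fun a => ⟨p, k, a⟩) fun a => ⟨q, hl a k, le_rfl⟩
  have ES : E ⊆ {q | ∃ p ∈ E, p ≤ q} := fun p k => ⟨p, k, le_rfl⟩
  have jump : ∀ p ∈ E, ∀ q, p ≤ q → (q ∈ E ↔ X p.1.1.top q.1.1.top = 0) := fun p k q l => by
    have := th_le hX.coc h.ex l
    rw [(hn.sub k).2] at this
    exact ⟨fun a => by rw [(hn.sub a).2] at this; omega,
      fun a => hn.clopen k ⟨la_upper l (sub k), by omega⟩ (Or.inl l)⟩
  have pos : ∀ p ∈ E, ∀ q, p ≤ q → q ∉ E → 0 < X p.1.1.top q.1.1.top := fun p k q l a =>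
    lt_of_le_of_ne (mX _ _ (Dp.of_left (hA p k) (Ch.top_mono (Lv.ch_le l))))
      fun b => a ((jump p k q l).2 b.symm)
  have upp := emb.upp h.good.mf mY sub hA star hl hn.conn (by
    simp only [IsUpperSet, not_forall] at hu
    obtain ⟨p, q, a, b, c⟩ := hu
    exact ⟨p, b, q, c, a⟩)
  haveI : IsCoc (Ch.top ⁻¹' s.A) (pb Ch.top X) := ⟨hX.coc.pb Ch.top_mono⟩
  have k1 : ∀ x y, Dp (Ch.top ⁻¹' s.A) x y → x ∈ Lv.ch '' E → y ∉ Lv.ch '' E →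
      1 ≤ pb Ch.top X x y := by
    rintro _ y k ⟨p, a, rfl⟩ b
    obtain ⟨q, rfl, l⟩ := Lv.exists_ge mY p (Mt.mono (sub a) k.1).dom k.1
    exact pos p a q l fun c => b ⟨q, c, rfl⟩
  have k2 : ∀ x y, Dp (Ch.top ⁻¹' s.A) x y → x ∈ Lv.ch '' E → y ∈ Lv.ch '' E →
      pb Ch.top X x y = 0 := by
    rintro _ _ k ⟨p, a, rfl⟩ ⟨q, b, rfl⟩
    exact (jump p a q (emb p (ES a) q (ES b) k.1)).1 b
  obtain ⟨z', z1, z2, -, -, z3⟩ := swap_up (Mf.sd h.good.mf)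
    (Bnd.sd h.good.conv h.good.nice h.good.bnd) upp
    (by rw [(emb.mono ES).eu, eu_lower h.good.mf mY sub hl, h1])
    (show Sf (Ch.top ⁻¹' s.A) (pb Ch.top X) from (Desc.sd s).sf h.sx) k1 k2
  obtain ⟨D, d1, d2, d3⟩ := z3.resolve_left
    (h.mx.desc (Desc.sd s) _ _ Desc.refl z' z1 z2).not_gt inferInstance
  have bt : ∀ K ∈ mix E, K.bot ∈ E ∧ K.top ∉ E := fun K ⟨⟨_, a, b⟩, _, c, d⟩ =>
    ⟨hl (Ch.bot_le a) b, fun k => d (hl (Ch.le_top c) k)⟩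
  have e : CY (Ch.top ⁻¹' s.A) (pb Ch.top X) (Lv.ch '' E) = Gam X E := by
    ext q
    have q0 := lev_zero (fun x y k => h.jx _ _ (k.map Ch.top_mono)) q
    refine ⟨fun ⟨⟨p, a, b⟩, _⟩ => ?_, fun ⟨K, a, b⟩ => ⟨⟨_, (bt K a).1, ?_⟩, q0.1⟩⟩
    · obtain ⟨c, hc, d⟩ := q.2.1
      obtain ⟨K, l1, l2⟩ := io_lift mY p (C := q.1.1) b.le (dom_of_cm hc (d _ q.1.1.top_mem))
      have e1 : K.bot = p := Sf30.lv_eq_of_ge (l2 _ K.bot_mem) le_rfl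
        (by rw [← bot_io, l1]; exact b.symm)
      refine ⟨K, ⟨⟨_, K.bot_mem, e1 ▸ a⟩, _, K.top_mem, fun k => ?_⟩, l1⟩
      have := (jump p a _ (l2 _ K.top_mem)).1 k
      rw [← e1, ← bot_io, ← top_io, l1] at this
      exact one_ne_zero (q0.2.symm.trans this)
    · rw [← b, bot_io]; rfl
  have low : IsLowerSet (Gam X E) := e ▸ fun _ _ a b =>
    (mv_of_raise (mX.pb Ch.top_mono) k1 k2).Y_low b a
  rw [e] at d1
  exact fin_piece h.good.mf mX mY h.jx h.ex sub hA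
    (fun p q ⟨a, ha, b⟩ ⟨c, hc, d⟩ k => le_antisymm (emb _ (star a ha p b) _ (star c hc q d) k.le)
      (emb _ (star c hc q d) _ (star a ha p b) k.ge))
    (fun K a => pos _ (bt K a).1 _ K.bot_le_top (bt K a).2) low d1.sub
    (fun p a r b c => d1.clopen a b c) d2 (by omega)

/-- STRIP -/
theorem strip {T : Set (Ch P)} {Q : Set P} (r : P → P) (h0 : ∀ c ∈ T, c.top ∉ Q)
    (h1 : ∀ c ∈ T, ∀ x ∈ c.1, x ∉ Q → r x ∈ Q ∧ r x ≤ x ∧ ∀ y ∈ c.1, y ∈ Q → y ≤ x → y ≤ r x)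
    (h2 : ∀ c ∈ T, ∀ x ∈ c.1, x ∉ Q → ∀ d : Ch P,
      d.1 = insert (r x) c.1 ∨ d.1 = c.1.erase (r x) → d ∈ T) :
    ∑ c ∈ univ.filter (· ∈ T), c.sg = 0 := by
  have k : ∀ c : Ch P, ∃ x ∈ c.1, c.top ∉ Q → x ∉ Q ∧ ∀ y ∈ c.1, y ∉ Q → x ≤ y := fun c => by
    by_cases h : c.top ∈ Q
    · exact ⟨_, c.top_mem, fun a => absurd h a⟩
    · let S := c.sub (c.1.filter (· ∉ Q)) ⟨_, mem_filter.2 ⟨c.top_mem, h⟩⟩ (filter_subset _ _)
      exact ⟨S.bot, (mem_filter.1 S.bot_mem).1, fun _ => ⟨(mem_filter.1 S.bot_mem).2,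
        fun y hy a => Ch.bot_le (c := S) (mem_filter.2 ⟨hy, a⟩)⟩⟩
  choose f f1 f2 using k
  have uq : ∀ c ∈ T, ∀ x ∈ c.1, x ∉ Q → (∀ y ∈ c.1, y ∉ Q → x ≤ y) → f c = x :=
    fun c hc x a b d => le_antisymm ((f2 c (h0 c hc)).2 x a b) (d _ (f1 c) (f2 c (h0 c hc)).1)
  rw [← sum_fiberwise (g := f)]
  refine sum_eq_zero fun x _ => ?_
  have m : ∀ c, c ∈ (univ.filter (· ∈ T)).filter (f · = x) ↔ c ∈ T ∧ f c = x := by simp
  refine toggle _ (r x) (fun c hc y hy => ?_) (fun c hc a => ?_) fun c hc => ?_ <;>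
    replace hc := (m c).1 hc <;> obtain ⟨hc, rfl⟩ := hc <;> have g := f2 c (h0 c hc) <;>
    have g' := h1 c hc _ (f1 c) g.1
  · rcases c.total (f1 c) hy with a | a
    · exact Or.inl (g'.2.1.trans a)
    · by_cases b : y ∈ Q
      exacts [Or.inr (g'.2.2 y hy b a), Or.inl (g'.2.1.trans (g.2 y hy b))]
  · have t := h2 c hc _ (f1 c) g.1 (c.ins _ a) (Or.inl rfl)
    refine (m _).2 ⟨t, uq _ t _ (mem_insert_of_mem (f1 c)) g.1 fun y hy b => ?_⟩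
    rcases mem_insert.1 hy with rfl | hy
    exacts [absurd g'.1 b, g.2 y hy b]
  · have n : f c ≠ r (f c) := fun e => g.1 (e ▸ g'.1)
    have t := h2 c hc _ (f1 c) g.1 (ers c _ ⟨_, f1 c, n⟩) (Or.inr rfl)
    exact ⟨_, (m _).2 ⟨t, uq _ t _ (mem_erase.2 ⟨n, f1 c⟩) g.1
      fun y hy b => g.2 y (mem_erase.1 hy).2 b⟩, rfl⟩

end Crest.Agent.X212.Alg36
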