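import Crest.Agent.X212.Alg36.Inc2

/-! INC (helper36), part 3: the upper piece. -/

set_option autoImplicit false
set_option linter.unusedSectionVars false

namespace Crest.Agent.X212.Alg36

open Finset Classical
open Crest.Agent.X212.Hp13
open Crest.Agent.X212.Sup43 (nu th Pc Pos)
open Crest.Agent.X212.Sf30 (la_upper lv_le_of_le)

variable {P : Type} [PartialOrder P] [Fintype P] {A : Set P} {X Y : P → P → ℤ} {ω : P → ℤ}

/-- the open star of an upper piece whose closure is only injective on chains -/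
theorem low_io [IsCoc A Y] (hM : Mf 3 A) (mY : Mono A Y) {E : Set (Lv A Y)} (hE : E ⊆ LA A Y)
    (hA : ∀ p ∈ E, p.1.1.top ∈ A) (hi : Inj E) (hu : IsUpperSet E) (hl : ¬ IsLowerSet E)
    (hc : Conn E) : Low (Ch.top ⁻¹' (Ch.top ⁻¹' A)) (io '' Cq {q | ∃ e ∈ E, Cm e q})
      (io '' Ce {q | ∃ e ∈ E, Cm e q} E) ∧ eu (io '' Ce {q | ∃ e ∈ E, Cm e q} E) = chiC E := by
  set S := {q | ∃ e ∈ E, Cm e q} with hS
  have ES : E ⊆ S := fun p k => ⟨p, k, Cm.rfl⟩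
  have le : ∀ K ∈ Cq S, ∀ L ∈ Cq S, io K ≤ io L ↔ K ≤ L := fun K a L b => ⟨hi.le a b, io_mono⟩
  have ws := ws_image (B := Ce S E) (f := io) fun K a L b => le K a.1 L b.1
  have top : ∀ K : Ch (Lv A Y), Mt E K → K.top ∈ E := fun K => mt_up hu
  have e : ∀ c : io '' Cq S, c.2.choose ∈ Cq S ∧ io c.2.choose = c.1 := fun c => c.2.choose_spec
  have m : ∀ c : io '' Cq S, c.1 ∈ io '' Ce S E → Mt E c.2.choose := fun c ⟨K, a, b⟩ =>
    a.2.mono ((le _ a.1 _ (e c).1).1 (b.trans (e c).2.symm).le)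
  refine ⟨⟨?_, ?_, ?_, ?_, ws.conn_iff.1 (conn_ce ES hc), ?_⟩,
    by rw [← ws.eu_eq, eu_ce ES, eu_upper hM mY hE hu]⟩
  · refine @Mf.emb _ _ _ _ _ (_) _ _ _ (fun c : io '' Cq S => c.2.choose) (fun a b => ?_)
      (fun b hb => hE (top _ (m b hb))) (fun b hb K k => ?_) (Mf.sd (Sf30.mf_LA hM mY))
    · rw [← le _ (e a).1 _ (e b).1, (e a).2, (e b).2]; rfl
    · have hK : K ∈ Cq S := k.elim (fun a => near ((m b hb).mono a))
        fun a => lower_cq S a (e b).1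
      let c : io '' Cq S := ⟨io K, K, hK, rfl⟩
      exact ⟨c, le_antisymm ((le _ (e c).1 _ hK).1 (e c).2.le) ((le _ hK _ (e c).1).1 (e c).2.ge)⟩
  · rintro _ ⟨K, a, rfl⟩
    show (io K).top.top ∈ A
    rw [top_io]; exact hA _ (top K a.2)
  · rintro _ ⟨K, a, rfl⟩ C k
    obtain ⟨L, b, rfl⟩ := io_face k
    exact ⟨L, lower_cq S b a.1, rfl⟩
  · rintro _ ⟨K, a, rfl⟩ _ ⟨L, b, rfl⟩ k
    exact ⟨L, ⟨b, a.2.mono ((le _ a.1 _ b).1 k)⟩, rfl⟩
  · simp only [IsLowerSet, not_forall] at hl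
    obtain ⟨p, q, a, b, c⟩ := hl
    have h1 : Ch.pr q p a ∈ Cq S := near ⟨p, by simp, b⟩
    have h2 : Ch.pt q ≤ Ch.pr q p a := Ch.pt_le.2 (by simp)
    refine ⟨io (Ch.pt q), fun ⟨K, k, l⟩ => c (mt_pt.1 (k.2.mono ?_)), _,
      ⟨_, ⟨h1, p, by simp, b⟩, rfl⟩, io_mono h2⟩
    exact (le _ k.1 _ (lower_cq S h2 h1)).1 l.le

/-- INC, upper piece -/
theorem incU (s : St) (X Y : s.P → s.P → ℤ) (ω : s.P → ℤ) [hX : IsCoc s.A X] [hY : IsCoc s.A Y]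
    (E : Set (Lv s.A Y)) (h : Pos s X Y ω) (hE : ∃ n, IsCmp {p | p ∈ LA s.A Y ∧ th X ω p = n} E)
    (hcl : ∀ p ∈ E, ∀ q, q ≤ p → th X ω q = th X ω p → q ∈ LA s.A Y) (h1 : chiC E = 1)
    (hu : IsUpperSet E) (hl : ¬ IsLowerSet E) : ∃ E', Pc (LA s.A X) (nu ω) E' ∧ 0 < chiC E' := by
  obtain ⟨n, hn⟩ := hE
  have mX := h.sx.mono
  have mY := h.sy.mono
  have sub : E ⊆ LA s.A Y := fun p k => (hn.sub k).1
  have hA : ∀ p ∈ E, p.1.1.top ∈ s.A := fun p k => mt_up h.up (sub k)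
  have dp : ∀ p q : Lv s.A Y, p ≤ q → Dp s.A p.1.1.top q.1.1.top := fun p q k =>
    q.2.1.dp (Lv.ch_le k p.1.1.top_mem) q.1.1.top_mem (Ch.top_mono (Lv.ch_le k))
  have val : ∀ q : Lv s.A Y, (∃ e ∈ E, Cm e q) → (q ∈ E ∧ th X ω q = n) ∨
      (q ∉ E ∧ th X ω q = n - 1 ∧ ∃ e ∈ E, q ≤ e) := by
    rintro q ⟨e, he, c⟩
    by_cases a : q ∈ E
    · exact Or.inl ⟨a, (hn.sub a).2⟩
    have c := c.resolve_left fun b => a (hu b he)
    have t := th_le hX.coc h.ex c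
    have := mX _ _ (dp _ _ c)
    have := h.jx _ _ (dp _ _ c)
    have t' := (hn.sub he).2
    have : th X ω q ≠ n := fun b => a (hn.clopen he ⟨hcl e he q c (b.trans t'.symm), b⟩ (Or.inr c))
    exact Or.inr ⟨a, by omega, e, he, c⟩
  have hi : Inj E := by
    have k : ∀ p q : Lv s.A Y, p.1.1 = q.1.1 → p ∈ E → th X ω q = n - 1 → ¬ ∃ e ∈ E, q ≤ e := by
      rintro p q e a b ⟨f, hf, c⟩
      obtain ⟨u, u1, u2⟩ := Lv.exists_ge mY p f.2.1 (e ▸ Lv.ch_le c)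
      have t1 := th_le hX.coc h.ex c
      have t2 := th_le hX.coc h.ex u2
      rw [(hn.sub (hu u2 a)).2, (hn.sub a).2, u1, e] at t2
      rw [(hn.sub hf).2] at t1
      omega
    intro p q a b e
    have : th X ω p = th X ω q := by
      rcases val p a with a | a <;> rcases val q b with b | b
      · rw [a.2, b.2]
      · exact absurd b.2.2 (k p q e a.1 b.2.1)
      · exact absurd a.2.2 (k q p e.symm b.1 a.2.1)
      · rw [a.2.1, b.2.1]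
    simp only [th, e] at this
    exact Lv.ext e (by omega)
  set S := {q | ∃ e ∈ E, Cm e q} with hS
  have mixiff : ∀ K ∈ Cq S, K ∈ mix E ↔ 0 < X K.bot.1.1.top K.top.1.1.top := fun K hK => by
    have t := th_le hX.coc h.ex K.bot_le_top
    have := mX _ _ (dp _ _ K.bot_le_top)
    rcases val _ (hK _ K.bot_mem) with a | a <;> rcases val _ (hK _ K.top_mem) with b | b
    · exact iff_of_false (fun ⟨_, x, c, d⟩ => d (hu (Ch.bot_le c) a.1)) (by omega)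
    · exact absurd (hu K.bot_le_top a.1) b.1
    · exact iff_of_true ⟨⟨_, K.top_mem, b.1⟩, _, K.bot_mem, a.1⟩ (by omega)
    · exact iff_of_false (fun c => b.1 (mt_up hu c.1)) (by omega)
  haveI i1 : IsCoc (Ch.top ⁻¹' s.A) (pb Ch.top X) := ⟨hX.coc.pb Ch.top_mono⟩
  haveI i2 : IsCoc (Ch.top ⁻¹' (Ch.top ⁻¹' s.A)) (pb Ch.top (pb Ch.top X)) :=
    ⟨i1.coc.pb Ch.top_mono⟩
  have gam : ∀ K ∈ Cq S, ∀ q : Lv (Ch.top ⁻¹' s.A) (pb Ch.top X), q.1.1 ≤ io K → q ∈ Gam X E := by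
    intro K hK q k
    obtain ⟨L, a, b⟩ := io_face k
    refine ⟨L, (mixiff L (lower_cq S a hK)).2 ?_, b⟩
    rw [← bot_io, ← top_io, b]
    exact q.2.2.1.trans_lt q.2.2.2
  have low : IsLowerSet (Gam X E) := fun p q a ⟨K, b, c⟩ => gam K (near b.1) q (c ▸ Lv.ch_le a)
  obtain ⟨lw, eu1⟩ := low_io h.good.mf mY sub hA hi hu hl hn.conn
  rw [← hS] at lw eu1
  have g1 := Good.sd h.good
  have m1 : Mono (Ch.top ⁻¹' s.A) (pb Ch.top X) := mX.pb Ch.top_mono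
  have j2 : ∀ x y, Dp (Ch.top ⁻¹' (Ch.top ⁻¹' s.A)) x y → pb Ch.top (pb Ch.top X) x y ≤ 1 :=
    fun x y k => h.jx _ _ ((k.map Ch.top_mono).map Ch.top_mono)
  obtain ⟨z', z1, z2, -, -, z3⟩ := swap_low (Mf.sd (Mf.sd h.good.mf))
    (Bnd.sd g1.conv g1.nice g1.bnd) lw (eu1.trans h1)
    (show Sf (Ch.top ⁻¹' (Ch.top ⁻¹' s.A)) (pb Ch.top (pb Ch.top X)) from
      (Desc.sd s.sd).sf ((Desc.sd s).sf h.sx))
    (by
      rintro x _ k a ⟨L, b, rfl⟩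
      obtain ⟨K, c, rfl⟩ := io_face k.1
      have t := th_le hX.coc h.ex (Ch.top_mono c)
      have := (val _ (b.1 _ (c K.top_mem))).resolve_left fun d =>
        a ⟨K, ⟨lower_cq S c b.1, _, K.top_mem, d.1⟩, rfl⟩
      rw [(hn.sub (mt_up hu b.2)).2] at t
      simp only [pb, top_io]
      omega)
    (by
      rintro _ _ k ⟨K, a, rfl⟩ ⟨L, b, rfl⟩
      have t := th_le hX.coc h.ex (Ch.top_mono (hi.le a.1 b.1 k.1))
      rw [(hn.sub (mt_up hu a.2)).2, (hn.sub (mt_up hu b.2)).2] at t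
      simp only [pb, top_io]
      omega)
  obtain ⟨D, d1, d2, d3⟩ := z3.resolve_left
    ((h.mx.desc (Desc.sd s)).desc (Desc.sd s.sd) _ _ Desc.refl z' z1 z2).not_gt inferInstance
  have cw : ∀ p, p ∈ CW (Ch.top ⁻¹' (Ch.top ⁻¹' s.A)) (pb Ch.top (pb Ch.top X)) (io '' Ce S E) ↔
      p.1.1.top ∈ io '' Ce S E := fun p =>
    ⟨fun a => a.1, fun a => ⟨a, by rw [(lev_zero j2 p).1, (lev_zero j2 p).2]; rfl⟩⟩
  have R := Kh11.ce_top.rf (Ch.top ⁻¹' s.A) (pb Ch.top X)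
  have mim : ∀ (d : Ch (Ch (Ch s.P))) c, c ∈ (R.im d).1 ↔ ∃ C ∈ d.1, C.top = c :=
    fun d c => Ch.mem_img
  have cwB : ∀ p : Lv _ (pb Ch.top (pb Ch.top X)), p.1.1.top ∈ io '' Ce S E →
      R.map p ∈ Gam X E := fun p ⟨K, a, b⟩ => gam K a.1 _ fun c hc => by
    obtain ⟨C, c1, rfl⟩ := (mim _ c).1 hc
    exact b ▸ Ch.le_top c1 C.top_mem
  have emb := emb_univ (m1.pb Ch.top_mono) j2
  have le : ∀ p q : Lv _ (pb Ch.top (pb Ch.top X)), p.1.1 ≤ q.1.1 → p ≤ q :=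
    fun p q => emb p trivial q trivial
  -- the strip
  have z : chiC (D ∩ R.map ⁻¹' Gam X E) = 0 := by
    have k : ∀ C : Ch (Ch s.P), ∃ r : Ch (Ch s.P), ∀ p ∈ S, p.1.1 = C.top →
        ∀ c, c ∈ r.1 ↔ c ∈ C.1 ∧ ∃ k, k ≤ p ∧ k.1.1 = c := fun C => by
      by_cases a : ∃ p ∈ S, p.1.1 = C.top
      · obtain ⟨p, a, b⟩ := a
        refine ⟨C.sub (C.1.filter fun c => ∃ k, k ≤ p ∧ k.1.1 = c)
          ⟨_, mem_filter.2 ⟨C.top_mem, p, le_rfl, b⟩⟩ (filter_subset _ _), fun q c d e => ?_⟩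
        rw [hi q p c a (d.trans b.symm)]
        exact mem_filter
      · exact ⟨C, fun p b c => absurd ⟨p, b, c⟩ a⟩
    choose r hr using k
    have top : ∀ p : Lv _ (pb Ch.top (pb Ch.top X)), ∀ L : Ch (Lv s.A Y),
        io L = (R.map p).1.1 → ∀ x ∈ p.1.1.1, ∃ u ∈ L.1, u.1.1 = x.top := fun p L e x hx =>
      mem_io.1 (by rw [e]; exact (mim _ _).2 ⟨x, hx, rfl⟩)
    have rt : ∀ (x : Ch (Ch s.P)) (u : Lv s.A Y), u ∈ S → u.1.1 = x.top →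
        r x ≤ x ∧ (r x).top = x.top := fun x u a b =>
      have l : r x ≤ x := fun c hc => ((hr x u a b c).1 hc).1
      ⟨l, le_antisymm (Ch.top_mono l) (Ch.le_top ((hr x u a b _).2 ⟨x.top_mem, u, le_rfl, b⟩))⟩
    have nq : ∀ p ∈ D ∩ R.map ⁻¹' Gam X E, p.1.1.top ∉ io '' Cq S := by
      rintro p ⟨a, L, b, c⟩ ⟨K, d, e⟩
      refine (d1.sub a).2 ((cw p).2 ⟨K, ⟨d, _, K.top_mem, ?_⟩, e⟩)
      rw [hi K.top L.top (d _ K.top_mem) (near b.1 _ L.top_mem)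
        (by rw [← top_io, ← top_io, e, c]; exact (R.im_top _).symm)]
      exact mt_up hu b.1
    rw [chiC_eq_of (T := Lv.ch '' (D ∩ R.map ⁻¹' Gam X E)) Ch.sg (fun c p => p.1.1 = c)
      (fun c a => a) (fun p a => ⟨_, ⟨p, a, rfl⟩, rfl⟩) (fun _ _ _ _ _ a b => a.symm.trans b)
      (fun _ p q a b => le_antisymm (le _ _ (a.trans b.symm).le) (le _ _ (a.trans b.symm).ge))
      fun _ _ a => by rw [a]]
    refine strip (Q := io '' Cq S) r (by rintro _ ⟨p, a, rfl⟩; exact nq p a) ?_ ?_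
    · rintro _ ⟨p, ⟨-, L, b, c⟩, rfl⟩ x hx -
      obtain ⟨u, u1, u2⟩ := top p L c x hx
      have uS : u ∈ S := near b.1 u u1
      obtain ⟨r1, r2⟩ := rt x u uS u2
      refine ⟨?_, r1, ?_⟩
      · obtain ⟨k, k1, k2⟩ := ((hr x u uS u2 _).1 (r x).bot_mem).2
        obtain ⟨K, l1, l2⟩ := io_lift mY k (C := r x) k2.le (by rw [r2, ← u2]; exact u.2.1)
        have : K.top = u := Sf30.lv_eq_of_ge (l2 _ K.top_mem) k1 (by rw [← top_io, l1, r2, u2])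
        refine ⟨K, fun v hv => ?_, l1⟩
        have hv' : v ≤ L.top := (this ▸ Ch.le_top hv).trans (Ch.le_top u1)
        exact ⟨_, mt_up hu b.1, Or.inr hv'⟩
      · rintro _ hy ⟨K, k1, rfl⟩ k2 c hc
        obtain ⟨v, v1, rfl⟩ := mem_io.1 hc
        obtain ⟨t, t1, t2⟩ := top p L c _ hy
        rw [top_io] at t2
        have : t ≤ u := lv_le_of_le (Ch.le_top t1) (Ch.le_top u1)
          (by rw [t2, u2, ← top_io]; exact Ch.top_mono k2)
        exact (hr x u uS u2 _).2 ⟨k2 hc, v, (Ch.le_top v1).trans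
          (hi t K.top (near b.1 t t1) (k1 _ K.top_mem) t2 ▸ this), rfl⟩
    · rintro _ ⟨p, a, rfl⟩ x hx nx d hd
      obtain ⟨L, b, c⟩ := a.2
      obtain ⟨u, u1, u2⟩ := top p L c x hx
      obtain ⟨r1, r2⟩ := rt x u (near b.1 u u1) u2
      have ne : ∀ y ∈ p.1.1.1, x ≤ y → y ≠ r x := fun y _ k e => nx (by
        have ex : r x = x := le_antisymm r1 (e ▸ k)
        obtain ⟨k, k1, k2⟩ := ((hr x u (near b.1 u u1) u2 x.bot).1
          (by rw [ex]; exact x.bot_mem)).2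
        obtain ⟨K, l1, l2⟩ := io_lift mY k (C := x) k2.le (by rw [← u2]; exact u.2.1)
        have : K.top = u := Sf30.lv_eq_of_ge (l2 _ K.top_mem) k1 (by rw [← top_io, l1, u2])
        exact ⟨K, fun v hv => ⟨_, mt_up hu b.1,
          Or.inr ((this ▸ Ch.le_top hv).trans (Ch.le_top u1))⟩, l1⟩)
      have m : (∀ y ∈ d.1, y = r x ∨ y ∈ p.1.1.1) ∧ (∀ y ∈ p.1.1.1, y ≠ r x → y ∈ d.1) ∧
          Cm p.1.1 d := by
        rcases hd with e | e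
        · exact ⟨fun y hy => mem_insert.1 (e ▸ hy), fun y hy _ => e ▸ mem_insert_of_mem hy,
            Or.inl (by rw [Ch.le_iff, e]; exact subset_insert _ _)⟩
        · exact ⟨fun y hy => Or.inr (mem_erase.1 (e ▸ hy)).2,
            fun y hy k => e ▸ mem_erase.2 ⟨k, hy⟩,
            Or.inr (by rw [Ch.le_iff, e]; exact erase_subset _ _)⟩
      have dt : d.top = p.1.1.top := Ch.top_eq (m.2.1 _ p.1.1.top_mem
        (ne _ p.1.1.top_mem (Ch.le_top hx))) fun y hy => (m.1 y hy).elim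
          (fun e => e ▸ r1.trans (Ch.le_top hx)) Ch.le_top
      have im : R.im d = (R.map p).1.1 := Ch.ext (Finset.ext fun c => by
        rw [mim, Kh11.Rf.map_ch, mim]
        refine ⟨fun ⟨y, hy, e⟩ => ?_, fun ⟨y, hy, e⟩ => ?_⟩
        · rcases m.1 y hy with rfl | k
          exacts [⟨x, hx, r2 ▸ e⟩, ⟨y, k, e⟩]
        · by_cases k : y = r x
          exacts [⟨x, m.2.1 x hx (ne x hx le_rfl), by rw [← r2, ← k, e]⟩, ⟨y, m.2.1 y hy k, e⟩])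
      have md : Mt (Ch.top ⁻¹' (Ch.top ⁻¹' s.A)) d := R.mt.1 (im ▸ R.map_LA.2 (d1.sub a.1).1)
      refine ⟨R.lift (R.map p) d md.dom im, ⟨d1.clopen a.1 ⟨md, fun k => (d1.sub a.1).2
        ((cw p).2 (dt ▸ (cw _).1 k))⟩ (m.2.2.imp (le _ _) (le _ _)), ?_⟩, rfl⟩
      rw [Set.mem_preimage, R.map_lift]; exact a.2
  -- projection to the first level
  let V := LA (Ch.top ⁻¹' s.A) (pb Ch.top X) \ Gam X E
  have hV : V.OrdConnected := ⟨fun a ha b _ c hc => ⟨la_upper hc.1 ha.1, fun k => ha.2 (low hc.1 k)⟩⟩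
  have ws := R.ws m1 (V := V) (fun _ k => k.1) hV
  have inV : ∀ p ∈ D \ R.map ⁻¹' Gam X E, p ∈ R.map ⁻¹' V := fun p k =>
    ⟨R.map_LA.2 (d1.sub k.1).1, k.2⟩
  have clo : ∀ p ∈ D \ R.map ⁻¹' Gam X E, ∀ q ∈ R.map ⁻¹' V, Cm p q →
      q ∈ D \ R.map ⁻¹' Gam X E := fun p k q l c =>
    ⟨d1.clopen k.1 ⟨R.map_LA.1 l.1, fun a => l.2 (cwB q ((cw q).1 a))⟩ c, l.2⟩
  have key : ∀ p ∈ D \ R.map ⁻¹' Gam X E, ∀ q ∈ R.map ⁻¹' V, Rch V (R.map p) (R.map q) →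
      q ∈ D \ R.map ⁻¹' Gam X E := fun p k q l c =>
    ((((ws.rch_iff (inV p k) l).2 c).in_clopen clo k).mem k)
  have sV : R.map '' (D \ R.map ⁻¹' Gam X E) ⊆ V := by rintro _ ⟨p, k, rfl⟩; exact inV p k
  have pre : R.map ⁻¹' (R.map '' (D \ R.map ⁻¹' Gam X E)) = D \ R.map ⁻¹' Gam X E :=
    Set.ext fun q => ⟨fun ⟨p, k, e⟩ => key p k q (sV ⟨p, k, e⟩) (e ▸ Rch.rfl), fun k => ⟨q, k, rfl⟩⟩
  refine fin_piece h.good.mf mX mY h.jx h.ex sub hA hi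
    (fun K a => (mixiff K (near a.1)).1 a) low sV ?_ (fun k => d2 ?_) ?_
  · rintro _ ⟨p, k, rfl⟩ r l c
    obtain ⟨q, rfl⟩ := R.surj l.1
    exact ⟨q, key p k q l (Rch.of_cm (inV p k) l c), rfl⟩
  · rw [← R.tch_pre fun _ a => (sV a).1, pre] at k
    obtain ⟨p, a, b⟩ := k
    exact ⟨p, a.1, b⟩
  · have := chiC_split D (R.map ⁻¹' Gam X E)
    rw [← R.chiC_pre fun _ a => (sV a).1, pre]
    omega

end Crest.Agent.X212.Alg36
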