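import Mathlib

/-! ALG (helper36), format-free part: the cochain complex of the order complex of a finite set `A`
of a partial order, over a field; Euler characteristic against first cohomology. -/

set_option autoImplicit false

namespace Crest.Agent.X212.Alg36

open Finset Module

section rank

variable {K : Type*} [Field K] {V0 V1 V2 V3 : Type*} [AddCommGroup V0] [Module K V0]
  [AddCommGroup V1] [Module K V1] [AddCommGroup V2] [Module K V2] [AddCommGroup V3] [Module K V3]
  [FiniteDimensional K V0] [FiniteDimensional K V1] [FiniteDimensional K V2]

/-- rank count in a four term complex with vanishing top and first cohomology. -/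
theorem rank_four (d0 : V0 →ₗ[K] V1) (d1 : V1 →ₗ[K] V2) (d2 : V2 →ₗ[K] V3)
    (h21 : ∀ x, d2 (d1 x) = 0) (hs : Function.Surjective d2)
    (h1 : ∀ x, d1 x = 0 → ∃ y, d0 y = x) :
    finrank K V1 + finrank K V3 + finrank K (LinearMap.ker d0) ≤ finrank K V0 + finrank K V2 := by
  have e0 := LinearMap.finrank_range_add_finrank_ker d0
  have e1 := LinearMap.finrank_range_add_finrank_ker d1
  have e2 := LinearMap.finrank_range_add_finrank_ker d2
  have r2 : finrank K (LinearMap.range d2) = finrank K V3 := by
    rw [LinearMap.range_eq_top.2 hs, finrank_top]
  have l1 : finrank K (LinearMap.range d1) ≤ finrank K (LinearMap.ker d2) := by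
    apply Submodule.finrank_mono
    rintro _ ⟨x, rfl⟩
    exact h21 x
  have l0 : finrank K (LinearMap.ker d1) ≤ finrank K (LinearMap.range d0) := by
    apply Submodule.finrank_mono
    intro x hx
    exact h1 x hx
  omega

end rank

/-- a matrix whose transpose has no kernel is onto. -/
theorem surj_of_transpose {K : Type*} [Field K] {m n : Type*} [Fintype m] [Fintype n]
    [DecidableEq m] [DecidableEq n] (B : Matrix m n K)
    (h : ∀ u : m → K, Matrix.vecMul u B = 0 → u = 0) : Function.Surjective B.mulVecLin := by
  have h1 : Function.Injective B.transpose.mulVecLin := by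
    rw [← LinearMap.ker_eq_bot, LinearMap.ker_eq_bot']
    intro u hu
    apply h u
    simpa [Matrix.mulVec_transpose] using hu
  have h2 : B.transpose.rank = Fintype.card m := by
    unfold Matrix.rank
    rw [LinearMap.finrank_range_of_inj h1]
    simp
  rw [Matrix.rank_transpose] at h2
  rw [← LinearMap.range_eq_top]
  apply Submodule.eq_top_of_finrank_eq
  unfold Matrix.rank at h2
  rw [h2]
  simp

end Crest.Agent.X212.Alg36
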