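import Crest.Agent.X212.Alg36.Nm2
import Crest.Agent.X212.Hp13.NegM

/-! NEG₊ (helper36), part 1: the parallel copy of `R₊`, homotopy types. -/

set_option autoImplicit false
set_option linter.unusedSectionVars false

namespace Crest.Agent.X212.Alg36

open Finset Classical
open Crest.Agent.X212.Hp13 Crest.Agent.X212.Pt30
open Crest.Agent.X212.Kh11 (WS sctr_min sctr_max)
open Crest.Agent.X212.Cut21 (tp bt le_tp le_bt top_tp bot_tp bot_bt mem_bt mem_tp tp_le Fr Thick Stt)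
open Crest.Agent.X212.Sup43 (Inn inn_up inn_sub)

variable {P : Type} [PartialOrder P] [Fintype P] {A M S B : Set P} {e : P → P → ℤ}

theorem ws_dbl (h : Disjoint S B) :
    WS {C : Ch (Ch P) | (∀ x ∈ C.bot.1, x ∈ S) ∧ Mt B C.top} {c | Mt S c ∧ Mt B c} Ch.top := by
  refine WS.of_le (fun C k => ⟨⟨_, C.bot_le_top C.bot.top_mem, k.1 _ C.bot.top_mem⟩, k.2⟩)
    (fun _ _ _ _ l => Ch.top_mono l) fun d hd => ?_
  refine (WS.of_clo' (D := {C | Ch.pt d ≤ C ∧ (∀ x ∈ C.1, x ∈ {c | c ≤ d}) ∧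
      Mt {c | c ≤ rs S d} C})
    (A := {C | ((∀ x ∈ C.bot.1, x ∈ S) ∧ Mt B C.top) ∧ C.top ≤ d})
    (fun C ⟨a, b, c, c1, c2⟩ => ⟨⟨fun x hx => ((mem_rs hd.1).1 (c2 (Ch.bot_le c1 hx))).2,
      hd.2.mono (Ch.le_top (Ch.pt_le.1 a))⟩, b _ C.top_mem⟩)
    fun C k => ⟨tp C d k.2, ⟨Ch.pt_le.2 (by simp), fun x hx => (mem_tp.1 hx).elim le_of_eq
      fun j => (Ch.le_top j).trans k.2, _, le_tp _ _ _ C.bot_mem, fun x hx => (mem_rs hd.1).2
        ⟨k.2 (C.bot_le_top hx), k.1.1 x hx⟩⟩, le_tp _ _ _,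
      fun b hb l => tp_le l (Ch.pt_le.1 hb.1)⟩).ctr_iff.1 ((meet _ _ _ fun x hx => ?_).2
        (sctr_max (m := rs S d) ⟨le_refl (rs S d), rs_le hd.1, fun x hx => ?_⟩ fun _ k => k.1))
  · obtain rfl := mem_singleton.1 hx
    obtain ⟨b, b1, b2⟩ := hd.2
    exact ⟨le_refl x, fun k => h.notMem_of_mem_left ((mem_rs hd.1).1 (k b1)).2 b2⟩
  · exact Or.inl ((rs_le hd.1).trans (mem_singleton.1 hx).ge)

theorem ws_meet (h : Disjoint S B)
    (hc : ∀ d : Ch P, (∀ x ∈ d.1, x ∈ S) → Ctr {b | b ∈ B ∧ ∀ x ∈ d.1, Cm b x}) :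
    WS {c | Mt S c ∧ Mt B c} S (tw S) := by
  refine WS.comp (f := rs S) (WS.of_ge (B := Kh11.In S Set.univ)
    (fun c k => ⟨fun _ l => ((mem_rs k.1).1 l).2, trivial⟩) (fun _ k _ _ l => rs_mono k.1 l)
    fun d hd => ?_) (Kh11.ws_top S)
  have := (meet d Set.univ B fun x hx => ⟨trivial, h.notMem_of_mem_left (hd.1 x hx)⟩).2
    (by simpa using hc d hd.1)
  convert this using 1
  ext c
  exact ⟨fun k => ⟨k.2.trans (rs_le k.1.1), fun _ _ => trivial, k.1.2⟩, fun k =>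
    have m : Mt S c := ⟨_, k.1 d.top_mem, hd.1 _ d.top_mem⟩
    ⟨⟨m, k.2.2⟩, fun x l => (mem_rs m).2 ⟨k.1 l, hd.1 x l⟩⟩⟩

/-- the inner copy of `F`, two levels up -/
def In2 (M : Set P) (e : P → P → ℤ) (F : Set (Ch P)) : Set (Ch (Ch P)) :=
  {C | C.bot.top ∈ M ∧ 0 < e C.top.bot C.bot.bot ∧ C.top ∈ F}

theorem ws_in2 (h : Z1 M e) (hM : IsUpperSet M) {F : Set (Ch P)} (hF : IsCmp (Mx M e) F) :
    WS (In2 M e F) F Ch.top := by
  refine WS.of_le (fun C k => k.2.2) (fun _ _ _ _ l => Ch.top_mono l) fun d hd => ?_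
  have t := (hF.sub hd).1
  have D := dom_top t
  have m : Mt {x | 0 < e d.bot x} d := ⟨_, d.top_mem, (hF.sub hd).2⟩
  have mo : ∀ x ∈ d.1, ∀ y ∈ d.1, x ≤ y → 0 < e d.bot x → 0 < e d.bot y := fun x a y b l k => by
    have := h.add t (Ch.bot_le a) l (Ch.le_top b)
    have := h.nn t l (Ch.le_top b)
    omega
  refine (WS.of_clo' (D := {C | Ch.pt d ≤ C ∧ (∀ x ∈ C.1, x ∈ {c | c ≤ d ∧ c.top ∈ M}) ∧
      Mt {c | 0 < e d.bot c.bot} C}) (A := {C | C ∈ In2 M e F ∧ C.top ≤ d})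
    (fun C ⟨a, b, c, c1, c2⟩ => ?_) fun C k => ⟨tp C d k.2, ⟨Ch.pt_le.2 (by simp), fun x hx =>
      (mem_tp.1 hx).elim (fun j => ⟨j.le, by rwa [j]⟩) fun j => ⟨(Ch.le_top j).trans k.2,
        hM (Ch.top_mono (Ch.bot_le j)) k.1.1⟩, _, le_tp _ _ _ C.bot_mem, ?_⟩, le_tp _ _ _,
      fun b hb l => tp_le l (Ch.pt_le.1 hb.1)⟩).ctr_iff.1 ((meet _ _ _ fun x hx => ?_).2
        (sctr_max (m := rs {x | 0 < e d.bot x} d) ⟨((mem_rs m).1 (Ch.bot_mem _)).2,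
          ⟨rs_le m, hM (Ch.le_top ((mem_rs m).2 ⟨d.top_mem, (hF.sub hd).2⟩)) t⟩, fun x hx => ?_⟩
          fun c k x hx => (mem_rs m).2 ⟨k.2.1.1 hx,
            mo _ (k.2.1.1 c.bot_mem) _ (k.2.1.1 hx) (Ch.bot_le hx) k.1⟩))
  · have e1 : C.top = d := le_antisymm (b _ C.top_mem).1 (Ch.le_top (Ch.pt_le.1 a))
    exact ⟨⟨(b _ C.bot_mem).2, e1 ▸ mo _ ((b c c1).1 c.bot_mem) _ ((b _ C.bot_mem).1 C.bot.bot_mem)
      (Ch.bot_anti (Ch.bot_le c1)) c2, e1 ▸ hd⟩, e1.le⟩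
  · have l := Ch.le_top (k.2 (C.bot_le_top C.bot.bot_mem))
    have := h.add t (Ch.bot_anti k.2) (Ch.bot_anti C.bot_le_top) l
    have := h.nn t (Ch.bot_anti k.2) ((Ch.bot_anti C.bot_le_top).trans l)
    have := k.1.2.1
    show 0 < e d.bot C.bot.bot
    omega
  · obtain rfl := mem_singleton.1 hx
    exact ⟨⟨le_rfl, t⟩, (h.self t x.bot_le_top).not_gt⟩
  · exact Or.inl ((rs_le m).trans (mem_singleton.1 hx).ge)

theorem ee_inner (hA : A.OrdConnected) (th : Thick A) (hb : ee A = 0) :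
    ee {c : Ch P | c.top ∈ Inn A ∧ ¬ Mt (Fr A) c} = 0 := by
  have e0 := (acyc_top.ee Ch.top_mono A).trans hb
  have nf : ∀ x ∈ Fr A, x ∉ Inn A := fun x a b => b.2 a
  have mc : ∀ c : Ch P, Mt (Fr A) c → Mt (Inn A)ᶜ c := fun c ⟨x, a, b⟩ => ⟨x, a, nf x b⟩
  have e1 : ∑ c ∈ univ.filter (fun c : Ch P => c.top ∈ Inn A ∧ Mt (Fr A) c), c.sg =
      -∑ c ∈ univ.filter (fun c : Ch P => c.top ∈ Fr A), c.sg := by
    rw [← sum_fiberwise_of_maps_to (g := rs (Inn A)ᶜ)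
      (t := univ.filter fun c : Ch P => c.top ∈ Fr A) fun c hc => ?_, ← sum_neg_distrib]
    · refine sum_congr rfl fun b hb => ?_
      have b1 := (mem_filter.1 hb).2
      have n : ∀ x ∈ b.1, x ∉ Inn A := fun x a k => nf _ b1 (inn_up (Ch.le_top a) k)
      have := sum_join (S := {i | i ∈ A ∧ b.top ≤ i ∧ i ∉ Fr A}) b fun x hx =>
        ⟨fun k => n x k ⟨hx.1, hx.2.2⟩, fun y hy => Or.inr ((Ch.le_top hy).trans hx.2.1)⟩
      rw [(th.inn _ b1).eu, mul_one] at this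
      rw [← this, filter_filter]
      refine sum_congr (Finset.ext fun c => ?_) fun _ _ => rfl
      simp only [mem_filter, mem_univ, true_and]
      refine ⟨fun ⟨⟨a, m⟩, k⟩ => ?_, fun ⟨a, ⟨i, i1, i2⟩, k⟩ => ?_⟩
      · have l : b ≤ c := k ▸ rs_le (mc c m)
        refine ⟨l, ⟨_, c.top_mem, a.1, Ch.top_mono l, a.2⟩, fun x hx => ?_⟩
        by_cases j : x ∈ Inn A
        · exact Or.inr ⟨j.1, (c.cm (l b.top_mem) hx).resolve_right fun o => nf _ b1 (inn_up o j), j.2⟩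
        · exact Or.inl (k ▸ (mem_rs (mc c m)).2 ⟨hx, j⟩)
      · have m : Mt (Fr A) c := ⟨_, a b.top_mem, b1⟩
        refine ⟨⟨inn_up (Ch.le_top i1) ⟨i2.1, i2.2.2⟩, m⟩, Ch.ext (Finset.ext fun x => ?_)⟩
        rw [mem_rs (mc c m)]
        exact ⟨fun j => (k x j.1).resolve_right fun o => j.2 ⟨o.1, o.2.2⟩, fun j => ⟨a j, n x j⟩⟩
    · obtain ⟨-, a, x, x1, x2⟩ := mem_filter.1 hc
      have m := mc c ⟨x, x1, x2⟩
      have t := (mem_rs m).1 (rs (Inn A)ᶜ c).top_mem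
      exact mem_filter.2 ⟨mem_univ _, fr_of (hA.out x2.1 a.1
        ⟨Ch.le_top ((mem_rs m).2 ⟨x1, nf x x2⟩), Ch.le_top t.1⟩) t.2⟩
  have e2 : ee {c : Ch P | c.top ∈ Inn A ∧ Mt (Fr A) c} = -ee {c : Ch P | c.top ∈ Fr A} := by
    rw [ee_ch, ee_ch, neg_inj]
    convert e1 <;> exact Iff.rfl
  rw [show (Ch.top ⁻¹' A : Set (Ch P)) = ({c | c.top ∈ Fr A} ∪ {c | c.top ∈ Inn A ∧ Mt (Fr A) c}) ∪
      {c | c.top ∈ Inn A ∧ ¬ Mt (Fr A) c} from Set.ext fun c => ⟨fun k => by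
        by_cases j : c.top ∈ Fr A
        · exact Or.inl (Or.inl j)
        · exact (Classical.em _).elim (fun i => Or.inl (Or.inr ⟨⟨k, j⟩, i⟩)) fun i => Or.inr ⟨⟨k, j⟩, i⟩,
      fun k => k.elim (fun k => k.elim And.left fun k => k.1.1) fun k => k.1.1⟩,
    ee_union (Set.disjoint_left.2 fun c k l => k.elim (fun k => l.1.2 k) fun k => l.2 k.2),
    ee_union (Set.disjoint_left.2 fun c k l => l.1.2 k), e2] at e0
  omega

theorem ws_inn (th : Thick A) : WS (Inn A) A id :=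
  WS.of_ge inn_sub (fun _ _ _ _ k => k) fun y hy => by
    by_cases k : y ∈ Fr A
    · convert th.inn y k using 1
      exact Set.ext fun _ => ⟨fun j => ⟨j.1.1, j.2, j.1.2⟩, fun j => ⟨⟨j.1, j.2.2⟩, j.2.1⟩⟩
    · exact sctr_min (m := y) ⟨⟨hy, k⟩, le_rfl⟩ fun _ j => j.2

/-- the parallel copy of `R₊` -/
noncomputable def wp (A : Set P) : Ch P → Ch P → ℤ := cb (ind {c | Mt (Fr A) c})

theorem z1_wp (V : Set (Ch P)) : Z1 V (wp A) := z1_ind fun _ _ k h => h.mono k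

theorem wp_core (hA : A.OrdConnected) (good : Good ⟨P, Inn A⟩) (th : Thick A) (hb : ee A = 0)
    (mx : Max ⟨P, Inn A⟩ (Rm A))
    (su : ∀ a ∈ A, ∃ x b y, Rch A a b ∧ Ind26.Su A x b y) :
    Sf (Ch.top ⁻¹' Inn A) (wp A) ∧ ∀ z, Sf (Ch.top ⁻¹' Inn A) z → Eqv (Ch.top ⁻¹' Inn A) (wp A) z →
      chi (Ch.top ⁻¹' Inn A) z ≤ chi (Ch.top ⁻¹' Inn A) (wp A) := by
  have gm : Mf 3 (Ch.top ⁻¹' Inn A : Set (Ch P)) := (Good.sd good).mf
  have gb : Bnd ℤ (Ch.top ⁻¹' Inn A : Set (Ch P)) := (Good.sd good).bnd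
  have z := z1_wp (A := A) (Ch.top ⁻¹' Inn A)
  let V : Set (Ch P) := {c | c.top ∈ Inn A ∧ ¬ Mt (Fr A) c}
  have pt : ∀ a ∈ Inn A, Ch.pt a ∈ (Ch.top ⁻¹' Inn A : Set (Ch P)) \ {c | Mt (Fr A) c} :=
    fun a k => ⟨by simpa using k, fun j => k.2 (mt_pt.1 j)⟩
  refine ⟨Cut21.sf_iff.2 ⟨z.mono, z.coc, Ind26.nc_pot gb (fun _ _ k h => h.mono k.1)
    (fun c ⟨_, b, b1, b2⟩ => ⟨c, Rch.rfl, Ch.pt b, fun k => (show b ∈ Inn A by simpa using k).2 b2,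
      mt_pt.2 b2, Or.inr (Ch.pt_le.2 b1)⟩) fun c hc => ?_⟩, fun u u1 u2 => ?_⟩
  · obtain ⟨x, b, y, r, x1, b1, -, l, -⟩ := su _ hc.1.1
    obtain ⟨i, i1, i2⟩ := ex_inn th b1
    have r1 : Rch (Inn A) c.top i :=
      ((ws_inn th).rch_iff hc.1 i1).2 (r.trans (Rch.of_cm b1 i1.1 (Or.inl i2)))
    refine ⟨Ch.pr x i (l.trans i2), ((Rch.of_cm hc (pt _ hc.1) (Or.inr (Ch.pt_le.2 c.top_mem))).trans
      (r1.map (f := Ch.pt) fun a a1 a' a2 k => ?_)).trans (Rch.of_cm (pt _ i1) ⟨by simpa using i1,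
        fun ⟨t, t1, t2⟩ => ?_⟩ (Or.inl (Ch.pt_le.2 (by simp)))), Ch.pt x,
      fun k => x1 (show x ∈ Inn A by simpa using k).1, fun k => x1 (mt_pt.1 k).1,
      Or.inr (Ch.pt_le.2 (by simp))⟩
    · have m : Ch.pr a a' k ∈ (Ch.top ⁻¹' Inn A : Set (Ch P)) \ {c | Mt (Fr A) c} :=
        ⟨by simpa using a2, fun ⟨t, t1, t2⟩ => by
          rcases mem_insert.1 t1 with rfl | t1
          exacts [a1.2 t2, a2.2 (mem_singleton.1 t1 ▸ t2)]⟩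
      exact (Rch.of_cm (pt _ a1) m (Or.inl (Ch.pt_le.2 (by simp)))).trans
        (Rch.of_cm m (pt _ a2) (Or.inr (Ch.pt_le.2 (by simp))))
    · rcases mem_insert.1 t1 with rfl | t1
      exacts [x1 t2.1, i1.2 (mem_singleton.1 t1 ▸ t2)]
  · have k : ∀ c : Ch P, c.top ∈ Hk.cl (Inn A) →
        ind {c | Mt (Fr A) c} c = ind A c.top - ind V c := fun c ⟨i, i1, i2⟩ => by
      by_cases a : Mt (Fr A) c
      · obtain ⟨b, b1, b2⟩ := id a
        rw [ind_of_mem (E := {c | Mt (Fr A) c}) a, ind_of_mem (hA.out b2.1 i1.1 ⟨Ch.le_top b1, i2⟩),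
          ind_of_not fun j => j.2 a, sub_zero]
      · rw [ind_of_not (E := {c | Mt (Fr A) c}) a]
        by_cases b : c.top ∈ A
        · rw [ind_of_mem b, ind_of_mem (E := V) ⟨⟨b, fun j => a ⟨_, c.top_mem, j⟩⟩, a⟩, sub_self]
        · rw [ind_of_not b, ind_of_not fun j => b j.1.1, sub_self]
    have e : EqD (Ch.top ⁻¹' Inn A) (wp A) (pb Ch.top (Rm A) - cb (ind V)) := fun c d hp => by
      have h2 : d.top ∈ Hk.cl (Inn A) := (dom_up inn_up).1 hp.dom_top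
      have h1 : c.top ∈ Hk.cl (Inn A) := cl_low _ (Ch.top_mono hp.1) h2
      have := rm_inn hA (hp.map Ch.top_mono)
      simp only [wp, cb, Pi.sub_apply, pb, k c h1, k d h2, this]
      ring
    have e' : Eqv (Ch.top ⁻¹' Inn A) (pb Ch.top (Rm A)) (wp A) :=
      ⟨-ind V, fun x hx => neg_eq_zero.2 (ind_of_not fun j => hx j.1), by
        rw [cb_neg, ← sub_eq_add_neg]; exact e⟩
    have : chi (Ch.top ⁻¹' Inn A) u ≤ chi (Inn A) (Rm A) := mx _ _ (Desc.sd _) u u1 (e'.trans u2)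
    rw [chi_congr e, chi_move gm (E := V) _ fun _ j => j.1, ee_inner hA th hb, chi_top]
    exact this.trans (by simp)

end Crest.Agent.X212.Alg36
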