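import Crest.Agent.X212.Alg36.NegP1

/-! NEG₊ (helper36), part 2: a disc with boundary in `R₊`. -/

set_option autoImplicit false
set_option linter.unusedSectionVars false

namespace Crest.Agent.X212.Alg36

open Finset Classical
open Crest.Agent.X212.Hp13 Crest.Agent.X212.Pt30
open Crest.Agent.X212.Kh11 (WS sctr_min sctr_max)
open Crest.Agent.X212.Cut21 (tp bt le_tp le_bt top_tp bot_tp bot_bt mem_bt mem_tp tp_le Fr Thick Stt)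
open Crest.Agent.X212.Sup43 (Inn inn_up inn_sub)

variable {P : Type} [PartialOrder P] [Fintype P] {A M B : Set P} {e : P → P → ℤ} {F : Set (Ch P)}

theorem in2_qe (hF : IsCmp (Mx M e) F) : In2 M e F ⊆ Mx (Ch.top ⁻¹' M) (rev e) :=
  fun _ k => ⟨(hF.sub k.2.2).1, k.2.1⟩

theorem in2_low (h : Z1 M e) (hM : IsUpperSet M) (hF : IsCmp (Mx M e) F) {C D : Ch (Ch P)}
    (hD : D ∈ In2 M e F) (l : C ≤ D) (k : 0 < e C.top.bot C.bot.bot) : C ∈ In2 M e F :=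
  have a : C.bot.top ∈ M := hM (Ch.top_mono (Ch.bot_anti l)) hD.1
  have b : C.top.top ∈ M := hM (Ch.top_mono C.bot_le_top) a
  ⟨a, k, hF.clopen hD.2.2 ⟨b, h.pos (dom_top b) C.top.bot_mem (C.bot_le_top C.bot.bot_mem)
    (Ch.bot_anti C.bot_le_top) k⟩ (Or.inr (Ch.top_mono l))⟩

theorem upp_in2 (h : Z1 M e) (hM : IsUpperSet M) (h3 : Mf 3 M) (hF : IsCmp (Mx M e) F)
    (tc : Tc M e F) : ∃ Q, Upp (Ch.top ⁻¹' (Ch.top ⁻¹' M)) Q (In2 M e F) := by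
  have r := h.rev
  have : IsCoc (Ch.top ⁻¹' M) (rev e) := ⟨r.coc⟩
  have up1 : IsUpperSet (Ch.top ⁻¹' M : Set (Ch P)) := hM.preimage Ch.top_mono
  have sq := (in2_qe hF).trans (mx_qe subset_rfl)
  have := (emb_univ r.mono r.le).upp (E := Pt30.ch ⁻¹' In2 M e F) (Mf.sd h3) r.mono
    (by rw [la_eq up1]; exact Set.preimage_mono (in2_qe hF)) (fun p k => (in2_qe hF k).1)
    (fun _ _ _ _ => trivial) (fun p q l k => in2_low h hM hF k (r.ch_le.2 l) (ch_mem q).2)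
    ((r.conn_pre sq).2 ((ws_in2 h hM hF).conn_iff.2 hF.conn)) (by
      obtain ⟨c, c1, x, x1, y, y1, l, y2, j⟩ := tc
      have t := (hF.sub c1).1
      have a : Ch.pr y c.top (Ch.le_top y1) ≤ c := Ch.pr_le _ y1 c.top_mem
      have k : 0 < e c.bot y := by
        have := h.add t (Ch.bot_le x1) l (Ch.le_top y1)
        have := h.nn t (Ch.bot_le x1) (Ch.le_top x1)
        omega
      have m : Ch.pr _ c a ∈ In2 M e F := ⟨by simpa using t, by simpa using k, by simpa using c1⟩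
      have b : Ch.pt y ≤ (Ch.pr _ c a).bot := Ch.pt_le.2 (by simp)
      have m' : bt _ _ b ∈ Qe (Ch.top ⁻¹' M) (rev e) :=
        ⟨dom_top (by simpa using t), by simpa [rev] using k⟩
      exact ⟨cel (sq m), m, cel m', fun i => y2 (by simpa using i.1), r.ch_le.1 (le_bt _ _ b)⟩)
  rw [show Lv.ch '' (Pt30.ch ⁻¹' In2 M e F : Set (Lv (Ch.top ⁻¹' M) (rev e))) = In2 M e F from
    Set.image_preimage_eq_of_subset fun c k => ⟨cel (sq k), rfl⟩] at this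
  exact ⟨_, this⟩

theorem in2_up (hA : A.OrdConnected) {B₁ : Set (Ch P)} (hB : ∀ c, c ∈ B₁ ↔ c.top ∈ Fr A)
    (he : Z1 (Inn A) e) (hF : IsCmp (Mx (Inn A) e) F) (hb : ∀ c ∈ F, c.bot ∈ A)
    {x y : Ch (Ch P)} (a : x ∈ In2 (Inn A) e F) (l : x ≤ y) (n : ¬ Mt B₁ y) :
    y ∈ In2 (Inn A) e F :=
  have t := hF.upper (mx_upper he inn_up subset_rfl) (Ch.top_mono l) a.2.2
  have m := (hF.sub t).1
  ⟨⟨hA.out (hb _ t) m.1 ⟨Ch.bot_le (y.bot_le_top y.bot.top_mem), Ch.top_mono y.bot_le_top⟩,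
    fun j => n ⟨_, y.bot_mem, (hB _).2 j⟩⟩, he.rev.up (dom_top m) l a.2.1, t⟩

/-- the disc cut off the parallel copy of `R₊` -/
theorem exists_D (hA : A.OrdConnected) (good : Good ⟨P, Inn A⟩) {B₁ : Set (Ch P)}
    (hB : ∀ c, c ∈ B₁ ↔ c.top ∈ Fr A)
    (sf : Sf (Ch.top ⁻¹' (Ch.top ⁻¹' Inn A)) (cb (ind {C | Mt B₁ C})))
    (mx : ∀ z, Sf (Ch.top ⁻¹' (Ch.top ⁻¹' Inn A)) z →
      Eqv (Ch.top ⁻¹' (Ch.top ⁻¹' Inn A)) (cb (ind {C | Mt B₁ C})) z →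
      chi (Ch.top ⁻¹' (Ch.top ⁻¹' Inn A)) z ≤
        chi (Ch.top ⁻¹' (Ch.top ⁻¹' Inn A)) (cb (ind {C | Mt B₁ C})))
    (he : Z1 (Inn A) e) (hF : IsCmp (Mx (Inn A) e) F) (h1 : eu F = 1) (tc : Tc (Inn A) e F)
    (hb : ∀ c ∈ F, c.bot ∈ A) :
    ∃ D, IsCmp (Mx (Ch.top ⁻¹' (Ch.top ⁻¹' Inn A)) (cb (ind {C | Mt B₁ C})) \
        Ch.bot ⁻¹' In2 (Inn A) e F) D ∧
      ¬ Tc (Ch.top ⁻¹' (Ch.top ⁻¹' Inn A)) (cb (ind {C | Mt B₁ C})) D ∧ eu D = 1 ∧ IsUpperSet D ∧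
      ∃ K ∈ D, ∃ L ∈ K.1, L ∈ In2 (Inn A) e F := by
  have hM : Mf 3 (Inn A) := good.mf
  have g1 := Good.sd good
  have m2 : Mf 3 (Ch.top ⁻¹' (Ch.top ⁻¹' Inn A) : Set (Ch (Ch P))) := Mf.sd (Mf.sd hM)
  have up2 : IsUpperSet (Ch.top ⁻¹' (Ch.top ⁻¹' Inn A) : Set (Ch (Ch P))) :=
    (inn_up.preimage Ch.top_mono).preimage Ch.top_mono
  have Z : Z1 (Ch.top ⁻¹' (Ch.top ⁻¹' Inn A)) (cb (ind {C | Mt B₁ C})) :=
    z1_ind fun _ _ k h => h.mono k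
  have : IsCoc (Ch.top ⁻¹' (Ch.top ⁻¹' Inn A)) (cb (ind {C | Mt B₁ C})) := ⟨Z.coc⟩
  have nm : ∀ C ∈ In2 (Inn A) e F, ¬ Mt B₁ C := fun C k ⟨c, c1, c2⟩ =>
    (inn_up (Ch.top_mono (Ch.bot_le c1)) k.1).2 ((hB c).1 c2)
  obtain ⟨Q, hQ⟩ := upp_in2 he inn_up hM hF tc
  obtain ⟨z', z1, z2, -, -, z3⟩ := swap_up m2 (Good.sd g1).bnd hQ
    ((ws_in2 he inn_up hF).eu_eq.trans h1) sf
    (fun x y hp a b => (Ind26.cb_ind_one (nm x a)
      (by_contra fun n => b (in2_up hA hB he hF hb a hp.1 n))).ge)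
    fun x y _ a b => Ind26.cb_ind_zero (iff_of_false (nm x a) (nm y b))
  obtain ⟨C, c1, c2, c3⟩ := z3.resolve_left (mx z' z1 z2).not_gt inferInstance
  have cy : CY (Ch.top ⁻¹' (Ch.top ⁻¹' Inn A)) (cb (ind {C | Mt B₁ C})) (In2 (Inn A) e F) =
      Pt30.ch ⁻¹' (Ch.bot ⁻¹' In2 (Inn A) e F) :=
    Set.ext fun p => ⟨And.left, fun k => ⟨k, Z.lv0 p⟩⟩
  rw [cy] at c1
  have low : IsLowerSet (Pt30.ch ⁻¹' (Ch.bot ⁻¹' In2 (Inn A) e F) :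
      Set (Lv (Ch.top ⁻¹' (Ch.top ⁻¹' Inn A)) (cb (ind {C | Mt B₁ C})))) := fun a b k ha =>
    in2_up hA hB he hF hb ha (Ch.bot_anti (Z.ch_le.2 k)) (Ind26.cb_ind_pos (ch_mem b).2).1
  obtain ⟨C, c1, c2, c3, p, p1, q, q1, q2⟩ :=
    piece_of m2 sf low c1.sub (fun _ a _ b => c1.clopen a b) c2 (c3 ▸ one_pos)
  rw [la_eq up2, ← Set.preimage_sdiff] at c1
  have sq := (Set.sdiff_subset (t := Ch.bot ⁻¹' In2 (Inn A) e F)).trans
    (mx_qe (e := cb (ind {C | Mt B₁ C})) (M := Ch.top ⁻¹' (Ch.top ⁻¹' Inn A)) subset_rfl)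
  obtain ⟨D, d1, rfl⟩ := Z.cmp_ex sq c1
  have sD := d1.sub.trans Set.sdiff_subset
  have uD : IsUpperSet D := fun a b k ha =>
    d1.clopen ha ⟨mx_upper Z up2 subset_rfl k (sD ha), fun j => (d1.sub ha).2
      (in2_up hA hB he hF hb j (Ch.bot_anti k) (Ind26.cb_ind_pos (sD ha).2).1)⟩ (Or.inl k)
  refine ⟨D, d1, fun k => c2 (tch_of_tc Z up2 sD k), ?_, uD, _, p1, _,
    Z.ch_le.2 q2 (Ch.bot_mem _), q1⟩
  rw [Z.eu_eq m2 sD uD, ← Z.chiC_pre (d1.sub.trans sq), c3]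

theorem pr_tr1 {x y u : P} (h : x ≤ y) (k : y ≤ u) : Ch.pr x y h ≤ Ch.tr x y u h k :=
  Ch.pr_le _ (by simp [Ch.mem_tr]) (by simp [Ch.mem_tr])

theorem pr_tr2 {x y u : P} (h : x ≤ y) (k : y ≤ u) : Ch.pr y u k ≤ Ch.tr x y u h k :=
  Ch.pr_le _ (by simp [Ch.mem_tr]) (by simp [Ch.mem_tr])

theorem pr_tr3 {x y u : P} (h : x ≤ y) (k : y ≤ u) :
    Ch.pr x u (h.trans k) ≤ Ch.tr x y u h k :=
  Ch.pr_le _ (by simp [Ch.mem_tr]) (by simp [Ch.mem_tr])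

theorem negP_core (hA : A.OrdConnected) (good : Good ⟨P, Inn A⟩) {B₁ : Set (Ch P)}
    (hB : ∀ c, c ∈ B₁ ↔ c.top ∈ Fr A) (he : Z1 (Inn A) e) (hF : IsCmp (Mx (Inn A) e) F)
    (hb : ∀ c ∈ F, c.bot ∈ A) {D : Set (Ch (Ch (Ch P)))}
    (d1 : IsCmp (Mx (Ch.top ⁻¹' (Ch.top ⁻¹' Inn A)) (cb (ind {C | Mt B₁ C})) \
      Ch.bot ⁻¹' In2 (Inn A) e F) D)
    (d2 : ¬ Tc (Ch.top ⁻¹' (Ch.top ⁻¹' Inn A)) (cb (ind {C | Mt B₁ C})) D) (d3 : eu D = 1)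
    (uD : IsUpperSet D) (rim : ∃ K ∈ D, ∃ L ∈ K.1, L ∈ In2 (Inn A) e F) : ∃ W, Ng A e W := by
  have hM : Mf 3 (Inn A) := good.mf
  have hN : Nice (Inn A) := good.nice
  have Z : Z1 (Ch.top ⁻¹' (Ch.top ⁻¹' Inn A)) (cb (ind {C | Mt B₁ C})) :=
    z1_ind fun _ _ k h => h.mono k
  have sD := d1.sub.trans Set.sdiff_subset
  have dt : ∀ K ∈ D, K.top.top.top ∈ Inn A := fun K k => (sD k).1
  have db : ∀ K ∈ D, ¬ Mt B₁ K.bot := fun K k => (Ind26.cb_ind_pos (sD k).2).1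
  have dm : ∀ K ∈ D, Mt B₁ K.top := fun K k => (Ind26.cb_ind_pos (sD k).2).2
  have dn : ∀ K ∈ D, ∀ L ≤ K, L.top.top.top ∈ Inn A → ¬ Mt B₁ L.bot → Mt B₁ L.top →
      L.bot ∉ In2 (Inn A) e F → L ∈ D := fun K k L l a b c d =>
    d1.clopen k ⟨⟨a, by rw [Ind26.cb_ind_one (U := {C | Mt B₁ C}) b c]; exact one_pos⟩, d⟩ (Or.inr l)
  have nb : ∀ c : Ch P, c.top ∈ Inn A → c ∉ B₁ := fun c a b => a.2 ((hB c).1 b)
  have bl : ∀ {C : Ch (Ch P)} {b c}, b ∈ C.1 → c ∈ C.1 → b ∈ B₁ → c.top ∈ Inn A → b ≤ c :=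
    fun b1 c1 b2 c2 => (Ch.total _ b1 c1).resolve_right fun k => nb _ (inn_up (Ch.top_mono k) c2) b2
  -- pair cells
  let PD : Ch (Ch P) → Ch (Ch P) → Prop := fun C C' => ∃ K ∈ D, K.bot = C ∧ K.top = C'
  have pd : ∀ {C C'} (l : C ≤ C'), PD C C' → Ch.pr C C' l ∈ D := fun l ⟨K, k, a, b⟩ => by
    subst a b
    exact dn K k _ (Ch.pr_le _ K.bot_mem K.top_mem) (by simpa using dt K k) (by simpa using db K k)
      (by simpa using dm K k) (by simpa using (d1.sub k).2)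
  have ple : ∀ {C C'}, PD C C' → C ≤ C' := fun ⟨K, _, a, b⟩ => a ▸ b ▸ K.bot_le_top
  have pc : ∀ {C C' C₀}, PD C C' → C₀ ≤ C → PD C₀ C' := fun k l =>
    ⟨_, uD (pr_tr2 l (ple k)) (pd _ k), Ch.bot_tr _ _, Ch.top_tr _ _⟩
  have pe : ∀ {C C' C₁}, PD C C' → C' ≤ C₁ → PD C C₁ := fun k l =>
    ⟨_, uD (pr_tr1 (ple k) l) (pd _ k), Ch.bot_tr _ _, Ch.top_tr _ _⟩
  have pu : ∀ {C C' C₁}, PD C C' → C ≤ C₁ → C₁ ≤ C' → ¬ Mt B₁ C₁ → C₁ ∉ In2 (Inn A) e F →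
      PD C₁ C' := fun k l l' a b =>
    have m := pd (ple k) k
    ⟨_, dn _ (uD (pr_tr3 l l') m) _ (pr_tr2 l l') (by simpa using dt _ m) (by simpa using a)
      (by simpa using dm _ m) (by simpa using b), Ch.bot_pr _ _ _, Ch.top_pr _ _ _⟩
  have pf : ∀ {C C' C₁}, PD C C' → C ≤ C₁ → C₁ ≤ C' → Mt B₁ C₁ → C₁.top.top ∈ Inn A →
      PD C C₁ := fun k l l' a b =>
    have m := pd (ple k) k
    ⟨_, dn _ (uD (pr_tr3 l l') m) _ (pr_tr1 l l') (by simpa using b) (by simpa using db _ m)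
      (by simpa using a) (by simpa using (d1.sub m).2), Ch.bot_pr _ _ _, Ch.top_pr _ _ _⟩
  have noO : ∀ {C C'}, PD C C' → ∀ c ∈ C.1, c.top ∈ Inn A := fun {C C'} k c hc => by
    have c1 := ple k hc
    have m := pd (Ch.pt_le.2 c1) (pc k (Ch.pt_le.2 hc))
    obtain ⟨b, b1, b2⟩ : Mt B₁ C' := by simpa using dm _ m
    have t : C'.top.top ∈ Inn A := by simpa using dt _ m
    have n : c ∉ B₁ := by simpa [mt_pt] using db _ m
    by_contra j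
    have l : c ≤ b := (Ch.total _ c1 b1).resolve_right fun i => n ((hB c).2 (fr_of
      (hA.out ((hB b).1 b2).1 t.1 ⟨Ch.top_mono i, Ch.top_mono (Ch.le_top c1)⟩) j))
    have l1 : Ch.pt c ≤ Ch.pr c b l := Ch.pt_le.2 (by simp)
    refine d2 ⟨_, uD (pr_tr3 l1 (Ch.pr_le l c1 b1)) m, Ch.pt c, by simp [Ch.mem_tr], Ch.pr c b l,
      by simp [Ch.mem_tr], l1, fun i => nb b (by simpa using i) b2, ?_⟩
    rw [Ind26.cb_ind_one (U := {C | Mt B₁ C}) (mt_pt.not.2 n) ⟨b, by simp, b2⟩]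
    exact one_pos
  let S : Set (Ch P) := {c | ∃ C', PD (Ch.pt c) C'}
  have st : ∀ c ∈ S, c.top ∈ Inn A := fun c ⟨_, k⟩ => noO k c (by simp)
  have sb : ∀ c ∈ S, ∃ b ∈ B₁, b ≤ c ∧ ∀ l : b ≤ c, PD (Ch.pt c) (Ch.pr b c l) := fun c a => by
    obtain ⟨C, k⟩ := id a
    obtain ⟨b, b1, b2⟩ : Mt B₁ C := by simpa using dm _ (pd (ple k) k)
    have c1 := Ch.pt_le.1 (ple k)
    exact ⟨b, b2, bl b1 c1 b2 (st c a), fun l => pf k (Ch.pt_le.2 (by simp)) (Ch.pr_le l b1 c1)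
      ⟨b, by simp, b2⟩ (by simpa using st c a)⟩
  have mx : ∀ {b c : Ch P}, b ∈ B₁ → b ≤ c → c.top ∈ Inn A → rs (Inn A)ᶜ c ∈ B₁ ∧
      rs (Inn A)ᶜ c ≤ c ∧ ∀ x ∈ c.1, x ∉ Inn A → x ∈ (rs (Inn A)ᶜ c).1 := fun {b c} b1 l t => by
    have f := (hB b).1 b1
    have m : Mt (Inn A)ᶜ c := ⟨_, l b.top_mem, fun j => j.2 f⟩
    have u := (mem_rs m).1 (rs (Inn A)ᶜ c).top_mem
    exact ⟨(hB _).2 (fr_of (hA.out f.1 t.1 ⟨Ch.le_top ((mem_rs m).2 ⟨l b.top_mem, fun j => j.2 f⟩),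
      Ch.le_top u.1⟩) u.2), rs_le m, fun x a k => (mem_rs m).2 ⟨a, k⟩⟩
  have mx' : ∀ {b b' c : Ch P}, b ∈ B₁ → b ≤ c → c.top ∈ Inn A → b' ∈ B₁ → b' ≤ c →
      b' ≤ rs (Inn A)ᶜ c := fun b1 l t b2 l' x hx =>
    (mx b1 l t).2.2 x (l' hx) fun j => nb _ (inn_up (Ch.le_top hx) j) b2
  have any : ∀ c ∈ S, ∀ C : Ch (Ch P), c ∈ C.1 → Mt B₁ C → PD (Ch.pt c) C :=
    fun c a C c1 ⟨b', b1, b2⟩ => by
      obtain ⟨b, b3, l, k⟩ := sb c a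
      have t := st c a
      have l' := bl b1 c1 b2 t
      obtain ⟨r1, r2, -⟩ := mx b3 l t
      have k1 := pf (pe (k l) (pr_tr3 (mx' b3 l t b3 l) r2)) (Ch.pt_le.2 (by simp))
        (pr_tr2 _ r2) ⟨_, by simp, r1⟩ (by simpa using t)
      exact pe (pf (pe k1 (pr_tr2 (mx' b3 l t b2 l') r2)) (Ch.pt_le.2 (by simp)) (pr_tr3 _ r2)
        ⟨_, by simp, b2⟩ (by simpa using t)) (Ch.pr_le l' b1 c1)
  have npt : ∀ {c c' : Ch P} (l : c ≤ c'), c ∉ B₁ → c' ∉ B₁ → ¬ Mt B₁ (Ch.pr c c' l) :=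
    fun l a b ⟨x, x1, x2⟩ => by
      rcases (by simpa using x1 : x = _ ∨ x = _) with rfl | rfl
      exacts [a x2, b x2]
  have sa : ∀ c ∈ S, c.bot ∈ A := fun c a => by
    obtain ⟨b, b1, l, -⟩ := sb c a
    obtain ⟨r1, r2, r3⟩ := mx b1 l (st c a)
    by_contra j
    have l1 := Ch.pt_le.2 (r3 _ c.bot_mem fun i => j i.1)
    have := noO (pu (any c a (Ch.tr _ _ _ l1 r2) (by simp [Ch.mem_tr]) ⟨_, by simp [Ch.mem_tr], r1⟩)
      (Ch.pt_le.2 (by simp)) (pr_tr3 l1 r2) (npt _ (fun i => j (by simpa using ((hB _).1 i).1))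
        (nb c (st c a))) fun i => j (by simpa using i.1.1)) (Ch.pt c.bot) (by simp)
    exact j (by simpa using this.1)
  have step : ∀ {b c c' : Ch P} (l : c ≤ c'), b ∈ B₁ → b ≤ c → c.top ∈ Inn A →
      Ch.pr c c' l ∉ In2 (Inn A) e F → (c ∈ S ↔ c' ∈ S) := fun {b c c'} l b1 l' t n => by
    have k : ∀ x ∈ (Ch.pr c c' l).1, x ∈ S ↔ PD (Ch.pr c c' l) (Ch.tr b c c' l' l) := fun x hx =>
      ⟨fun a => pu (any x a _ (pr_tr2 l' l hx) ⟨b, by simp [Ch.mem_tr], b1⟩) (Ch.pt_le.2 hx)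
        (pr_tr2 l' l) (npt l (nb c t) (nb c' (inn_up (Ch.top_mono l) t))) n,
        fun a => ⟨_, pc a (Ch.pt_le.2 hx)⟩⟩
    exact (k c (by simp)).trans (k c' (by simp)).symm
  let W : Set P := {x | ∃ c ∈ S, c.bot = x}
  have wf : ∀ x ∈ W, x ∈ Fr A := fun x ⟨c, a, k⟩ => by
    obtain ⟨b, b1, l, -⟩ := sb c a
    exact k ▸ fr_of (sa c a) fun j => nb b (inn_up (Ch.bot_le (l b.top_mem)) j) b1
  have wo : W ⊆ Om (Inn A) := fun x a =>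
    ⟨fun j => j.2 (wf x a), let ⟨c, a, k⟩ := a; ⟨_, st c a, k ▸ c.bot_le_top⟩⟩
  have ws : ∀ c : Ch P, c.top ∈ Inn A → c.bot ∈ W → c ∈ S := fun c t a => by
    obtain ⟨c₀, a0, k⟩ := id a
    have := (Pt30.ctr_over (d := Ch.pt c.bot) (V := Inn A) (· = c.bot) (by simp)
      (by simpa using Nice.ctr_ge inn_up.ordConnected hN (wo a))).conn c₀
      ⟨Ch.pt_le.2 (k ▸ c₀.bot_mem), st _ a0, k⟩ c ⟨Ch.pt_le.2 c.bot_mem, t, rfl⟩
    refine this.ind a0 fun u u1 v v1 l => step l ((hB _).2 (by simpa using wf _ a)) u1.1 u1.2.1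
      fun j => ?_
    have := j.2.1
    simp only [Ch.top_pr, Ch.bot_pr, u1.2.2, v1.2.2] at this
    exact (he.self t c.bot_le_top).not_gt this
  -- the faces of `D`
  have face : ∀ q ∈ Qe (Ch.top ⁻¹' (Ch.top ⁻¹' Inn A)) (cb (ind {C | Mt B₁ C})), q ∉ D →
      ∀ K ∈ D, q ≤ K → q.bot ∈ In2 (Inn A) e F := fun q a b K k l => by_contra fun n =>
    b (d1.clopen k ⟨⟨by_contra fun j =>
      d2 ⟨K, k, _, l q.bot_mem, _, l q.top_mem, q.bot_le_top, j, a.2⟩, a.2⟩, n⟩ (Or.inr l))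
  have sep : ∀ {c c' : Ch P} (l : c ≤ c'), c ∈ S → c' ∈ S → Ch.pr c c' l ∉ In2 (Inn A) e F := by
    intro c c' l a a' g
    obtain ⟨b, b1, l', -⟩ := sb c a
    have m : Mt B₁ (Ch.tr b c c' l' l) := ⟨b, by simp [Ch.mem_tr], b1⟩
    have t := st c' a'
    have q1 : Ch.pr _ _ (pr_tr2 l' l) ∈
        Qe (Ch.top ⁻¹' (Ch.top ⁻¹' Inn A)) (cb (ind {C | Mt B₁ C})) :=
      ⟨dom_top (by simpa [Ch.top_tr] using t), by
        rw [Ch.bot_pr, Ch.top_pr, Ind26.cb_ind_one (U := {C | Mt B₁ C})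
          (npt l (nb c (st c a)) (nb c' t)) m]
        exact one_pos⟩
    have q2 : Ch.pr _ _ (pr_tr2 l' l) ∉ D := fun j => (d1.sub j).2 (by simpa using g)
    have cell : ∀ x ∈ (Ch.pr c c' l).1, x ∈ S → ∃ K ∈ D, K.bot = Ch.pt x ∧
        Ch.pr _ _ (pr_tr2 l' l) ≤ K := fun x hx s =>
      ⟨_, uD (pr_tr3 (Ch.pt_le.2 hx) (pr_tr2 l' l)) (pd _ (any x s _ (pr_tr2 l' l hx) m)),
        Ch.bot_tr _ _, pr_tr2 _ _⟩
    obtain ⟨K, k1, k2, k3⟩ := cell c (by simp) a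
    obtain ⟨K', k1', k2', k3'⟩ := cell c' (by simp) a'
    have := Z.rim (Mf.sd (Mf.sd hM)) sD uD d1.conn d3.ge
      (fun q K => e q.bot.top.bot K.bot.bot.bot) (fun q a n K k K' j j' => ?_)
      (fun q a n K k q' a' j j' => ?_) q1 q2 k1 k3 q1 q2 k1' k3'
    · have g1 := g.2.1
      simp only [k2, k2', Ch.bot_pr, Ch.top_pr, Ch.bot_pt] at this g1
      rw [he.self t c'.bot_le_top] at this
      omega
    · have g := face q a n K k j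
      have c1 : K.bot ≤ q.bot := Ch.bot_anti j
      have c2 : K'.bot ≤ K.bot := Ch.bot_anti j'
      have m := (hF.sub g.2.2).1
      have v1 : K'.bot.bot.bot ≤ K.bot.bot.bot := Ch.bot_anti (Ch.bot_anti c2)
      have v2 : K.bot.top.bot ≤ K'.bot.bot.bot := Ch.bot_anti (Ch.le_top (c2 K'.bot.bot_mem))
      have v3 : q.bot.top.bot ≤ K.bot.top.bot := Ch.bot_anti (Ch.top_mono c1)
      have v4 : K.bot.bot.bot ≤ q.bot.top.top :=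
        Ch.le_top (Ch.le_top (c1 K.bot.bot_mem) K.bot.bot.bot_mem)
      have f : ¬ 0 < e K.bot.top.bot K.bot.bot.bot := fun i =>
        (d1.sub k).2 (in2_low he inn_up hF g c1 i)
      have := he.add m v2 v1 v4
      have := he.nn m v2 (v1.trans v4)
      have := he.nn m v1 v4
      have := he.add m (v3.trans v2) v1 v4
      show e q.bot.top.bot K.bot.bot.bot = e q.bot.top.bot K'.bot.bot.bot
      omega
    · have g := face q a n K k j'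
      have c1 : K.bot ≤ q.bot := Ch.bot_anti j'
      have c2 : q.bot ≤ q'.bot := Ch.bot_anti j
      have m : q'.bot.top.top ∈ Inn A :=
        inn_up (Ch.top_mono (Ch.top_mono c2)) (hF.sub g.2.2).1
      have v1 : q'.bot.top.bot ≤ q.bot.top.bot := Ch.bot_anti (Ch.top_mono c2)
      have v2 : ∀ x ∈ q.bot.1, q.bot.top.bot ≤ x.bot ∧ x.bot ≤ q'.bot.top.top := fun x hx =>
        ⟨Ch.bot_anti (Ch.le_top hx), Ch.le_top (Ch.le_top (c2 hx) x.bot_mem)⟩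
      obtain ⟨v3, v4⟩ := v2 _ q.bot.bot_mem
      obtain ⟨v5, v6⟩ := v2 _ (c1 K.bot.bot_mem)
      have := he.add m v1 v3 v4
      have := he.le1 m (v1.trans v3) v4
      have := he.nn m v1 (v3.trans v4)
      have := he.add m v1 v5 v6
      have := g.2.1
      show e q.bot.top.bot K.bot.bot.bot = e q'.bot.top.bot K.bot.bot.bot
      omega
  have inS : ∀ K ∈ D, ∀ c ∈ K.bot.1, c ∈ S := fun K k c hc =>
    ⟨_, pc ⟨K, k, rfl, rfl⟩ (Ch.pt_le.2 hc)⟩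
  have in2pr : ∀ C ∈ In2 (Inn A) e F, Ch.pr _ _ C.bot_le_top ∈ In2 (Inn A) e F := fun C k =>
    ⟨by simpa using k.1, by simpa using k.2.1, by simpa using k.2.2⟩
  have DE : D = {K | (∀ c ∈ K.bot.1, c ∈ S) ∧ Mt B₁ K.top} := Set.ext fun K =>
    ⟨fun k => ⟨inS K k, dm K k⟩, fun k => uD (Ch.pr_le K.bot_le_top K.bot_mem K.top_mem)
      (pd _ (pu (any _ (k.1 _ K.bot.bot_mem) _ (K.bot_le_top K.bot.bot_mem) k.2)
        (Ch.pt_le.2 K.bot.bot_mem) K.bot_le_top (fun ⟨x, a, b⟩ => nb x (st x (k.1 x a)) b)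
        fun j => sep _ (k.1 _ K.bot.bot_mem) (k.1 _ K.bot.top_mem) (in2pr _ j)))⟩
  have dj : Disjoint S B₁ := Set.disjoint_left.2 fun c a => nb c (st c a)
  have w1 := (ws_dbl dj).comp (ws_meet dj fun d hd => by
    have a := hd _ d.bot_mem
    obtain ⟨b, b1, l, -⟩ := sb _ a
    obtain ⟨r1, r2, -⟩ := mx b1 l (st _ a)
    exact sctr_max (m := rs (Inn A)ᶜ d.bot) ⟨r1, fun x hx => Or.inl (r2.trans (Ch.bot_le hx))⟩
      fun b' k => mx' b1 l (st _ a) k.1 ((k.2 _ d.bot_mem).resolve_right fun i =>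
        nb _ (inn_up (Ch.top_mono i) (st _ a)) k.1))
  rw [← DE] at w1
  have w2 : WS S (Sr (Inn A) W) id := WS.of_le
    (fun c a => ⟨st c a, _, c.bot_mem, c, a, rfl⟩) (fun _ _ _ _ k => k) fun d hd => by
      have x1 := (mem_rs hd.2).1 (rs W d).bot_mem
      have m : Mt {y | (rs W d).bot ≤ y} d := ⟨_, x1.1, le_refl (rs W d).bot⟩
      refine sctr_max (m := rs {y | (rs W d).bot ≤ y} d) ⟨ws _ (inn_up (Ch.le_top
        ((mem_rs m).2 ⟨d.top_mem, Ch.le_top x1.1⟩)) hd.1) ?_, rs_le m⟩ fun c k y hy =>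
          (mem_rs m).2 ⟨k.2 hy, (Ch.bot_le ((mem_rs hd.2).2
            ⟨k.2 c.bot_mem, c, k.1, rfl⟩)).trans (Ch.bot_le hy)⟩
      rw [Ch.bot_eq ((mem_rs m).2 ⟨x1.1, le_refl (rs W d).bot⟩) fun y hy => ((mem_rs m).1 hy).2]
      exact x1.2
  have w := w1.comp w2
  -- an edge
  have edge : ∀ {x y i : P} (l : x ≤ y) (l' : y ≤ i), i ∈ Inn A → y ∈ Fr A →
      (x ∈ W ↔ y ∈ W) ∨ (e x y = 1 ∧ x ∈ A) := fun {x y i} l l' hi f => by
    by_cases j : Ch.pr _ _ (pr_tr2 l l') ∈ In2 (Inn A) e F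
    · have a := j.2.1
      have b := hb _ j.2.2
      have := he.le1 hi l l'
      simp only [Ch.top_pr, Ch.bot_pr, Ch.bot_tr] at a b
      exact Or.inr ⟨by omega, b⟩
    · have := step (b := Ch.pt y) _ ((hB _).2 (by simpa using f)) (Ch.pt_le.2 (by simp))
        (by simpa using hi) j
      exact Or.inl ⟨fun a => ⟨_, this.2 (ws _ (by rwa [Ch.top_tr]) (by rwa [Ch.bot_tr])), by simp⟩,
        fun a => ⟨_, this.1 (ws _ (by simpa using hi) (by simpa using a)), Ch.bot_tr _ _⟩⟩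
  have up : ∀ x ∈ W, ∀ y ∈ Om (Inn A), x ≤ y → y ∈ Fr A := fun x a y ⟨b, i, hi, l'⟩ l =>
    fr_of (hA.out (wf x a).1 hi.1 ⟨l, l'⟩) b
  refine ⟨W, wo, w.conn_iff.1 d1.conn, w.eu_eq.symm.trans d3, fun x a y b n => ⟨fun l => ?_,
    fun l => ?_⟩, ?_, Or.inl fun x a y b k => k.elim (fun l => (up x a y b l).1) fun l => ?_⟩
  · obtain ⟨-, i, hi, l'⟩ := id b
    exact ((edge l l' hi (up x a y b l)).resolve_left fun k => n (k.1 a)).1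
  · obtain ⟨-, i, hi, l'⟩ := wo a
    exact ((edge l l' hi (wf x a)).resolve_left fun k => n (k.2 a)).1
  · obtain ⟨K, k, C, c1, c2⟩ := rim
    have c3 : K.bot.bot ∈ C.1 := Ch.bot_le c1 K.bot.bot_mem
    have xW : K.bot.bot.bot ∈ W := ⟨_, inS K k _ K.bot.bot_mem, rfl⟩
    have m := (hF.sub c2.2.2).1
    by_cases j : C.top.bot ∈ W
    · obtain ⟨b, b1, b2⟩ := dm K k
      have l := bl b1 (Ch.le_top c1 C.bot_mem) b2 c2.1
      exact ⟨_, xW, C.bot.bot, ⟨fun i => nb b (inn_up (Ch.bot_le (l b.top_mem)) i) b2, _, c2.1,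
        C.bot.bot_le_top⟩, fun i => sep _ (ws _ c2.1 i) (ws _ m j) (in2pr _ c2),
        Or.inl (Ch.bot_anti (Ch.bot_le c3))⟩
    · have l : C.top.bot ≤ K.bot.bot.bot := Ch.bot_anti (Ch.le_top c3)
      exact ⟨_, xW, _, ⟨fun i => (wo xW).1 (inn_up l i), _, m, C.top.bot_le_top⟩, j, Or.inr l⟩
  · obtain ⟨-, i, hi, l'⟩ := wo a
    exact (edge l l' hi (wf x a)).elim (fun k => (wf y (k.2 a)).1) And.right

/-- **NEG₊** -/
theorem negPStmt : NegPStmt := fun s e F st he _ hF h1 tc hb => by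
  have t := stt_sd st
  have good := Sup43.good_inn st.toGood st.thick
  have k := wp_core (A := Ch.top ⁻¹' s.A) t.conv (Sup43.good_inn t.toGood t.thick) t.thick t.bal
    (Sup43.max_inn t.toTaut) fun a ha => Ind26.Inv.su ⟨t.toTaut, t.esc⟩ ha
  rw [inn_sd] at k
  obtain ⟨D, d1, d2, d3, d4, d5⟩ :=
    exists_D st.conv good (fun _ => mem_fr_sd) k.1 k.2 he hF h1 tc hb
  exact negP_core st.conv good (fun _ => mem_fr_sd) he hF hb d1 d2 d3 d4 d5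

end Crest.Agent.X212.Alg36
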