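import Crest.Agent.X212.Alg36.Rev

/-! NM (helper36), part 1: chains mod 2; a closed surface is not `Ctr`; the boundary of a `Ctr`
3-manifold is connected. -/

set_option autoImplicit false
set_option linter.unusedSectionVars false

namespace Crest.Agent.X212.Alg36

open Finset Module Classical
open Crest.Agent.X212.Hp13 Crest.Agent.X212.Hk
open Crest.Agent.X212.Kh11 (WS)

section lin
variable {α : Type*} [PartialOrder α] [DecidableEq α] (K : Type*) [Field K] {A : Finset α}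

theorem k0_pos (hne : A.Nonempty) : 1 ≤ finrank K (LinearMap.ker (mat K A 1).mulVecLin) := by
  rw [Nat.one_le_iff_ne_zero, Ne, Submodule.finrank_eq_zero, LinearMap.ker_eq_bot']
  intro h0
  obtain ⟨x, hx⟩ := hne
  have : (fun _ => (1 : K) : chains A 1 → K) = 0 := by
    apply h0
    funext c
    obtain ⟨a, ha, b, hb, hab, hc⟩ := eq_pair c.2
    rw [Matrix.mulVecLin_apply, mat_mulVec, hc, dd_pair _ hab, ex_mem _ (single_mem ha),
      ex_mem _ (single_mem hb)]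
    simp
  exact one_ne_zero (congrFun this ⟨_, single_mem hx⟩)

/-- the first Betti number -/
noncomputable def b1 (A : Finset α) : ℤ := (finrank K (LinearMap.ker (mat K A 2).mulVecLin) : ℤ) -
  finrank K (LinearMap.range (mat K A 1).mulVecLin)

theorem euler (hd : Dim A 4) : Kh11.chi A = finrank K (LinearMap.ker (mat K A 1).mulVecLin) -
    b1 K A + finrank K (Cyc K A 2) - (chains A 4).card := by
  have e0 := rank_add_ker (K := K) A 1
  have e1 := rank_add_ker (K := K) A 2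
  have e2 : _ = (chains A 3).card := rank_add_cyc (K := K) A 2
  rw [chi_eq_chi4 hd, chi4, b1]
  omega

theorem b1_le (hex : ∀ z : α → α → K, Kh11.Coc A z → Kh11.Ex A z) : b1 K A ≤ 0 :=
  sub_nonpos.2 (Int.ofNat_le.2 (Submodule.finrank_mono fun φ hφ =>
    ker_d1 (fun z hz => hex z hz) φ hφ))

/-- 2-cycles bound -/
theorem fill2 (hd : Dim A 4) (hne : A.Nonempty)
    (hex : ∀ z : α → α → K, Kh11.Coc A z → Kh11.Ex A z) (h3 : finrank K (Cyc K A 3) = 0)
    (hχ : Kh11.chi A ≤ 1) {u : chains A 3 → K} (hu : Matrix.vecMul u (mat K A 2) = 0) :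
    ∃ v : chains A 4 → K, Matrix.vecMul v (mat K A 3) = u := by
  have e := euler K hd
  have := k0_pos K hne
  have := b1_le K hex
  have r := LinearMap.finrank_range_add_finrank_ker (mat K A 3).transpose.mulVecLin
  have le : LinearMap.range (mat K A 3).transpose.mulVecLin ≤ Cyc K A 2 := by
    rintro _ ⟨v, rfl⟩
    rw [mem_cyc, Matrix.mulVecLin_apply, Matrix.mulVec_transpose, Matrix.vecMul_vecMul]
    have : mat K A 3 * mat K A 2 = 0 := Matrix.ext_of_mulVec_single fun i => by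
      rw [← Matrix.mulVec_mulVec, mat_mat, Matrix.zero_mulVec]
    rw [this, Matrix.vecMul_zero]
  simp only [finrank_fintype_fun_eq_card, Fintype.card_coe, Nat.reduceAdd] at r
  rw [h3] at r
  have hle : finrank K (Cyc K A 2) ≤
      finrank K (LinearMap.range (mat K A 3).transpose.mulVecLin) := by omega
  have := Submodule.eq_of_le_of_finrank_le le hle
  obtain ⟨v, hv⟩ : u ∈ LinearMap.range (mat K A 3).transpose.mulVecLin := this ▸ mem_cyc.2 hu
  exact ⟨v, by rwa [Matrix.mulVecLin_apply, Matrix.mulVec_transpose] at hv⟩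

end lin

variable {P : Type} [PartialOrder P] [Fintype P] {A B W Z : Set P} {d : ℕ}

/-- the boundary mod 2 -/
noncomputable def pd (u : Ch P → ZMod 2) (e : Ch P) : ZMod 2 :=
  ∑ c ∈ univ.filter (fun c : Ch P => e ≤ c ∧ c.1.card = e.1.card + 1), u c

theorem pd_add (u v : Ch P → ZMod 2) (e : Ch P) : pd (u + v) e = pd u e + pd v e := sum_add_distrib

theorem pd_zero {u : Ch P → ZMod 2} {e : Ch P} (h : ∀ c, e ≤ c → c.1.card = e.1.card + 1 → u c = 0) :
    pd u e = 0 := sum_eq_zero fun c hc => h c (mem_filter.1 hc).2.1 (mem_filter.1 hc).2.2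

theorem pd_pd (u : Ch P → ZMod 2) (f : Ch P) : pd (pd u) f = 0 := by
  simp only [pd, sum_filter]
  have : ∀ e : Ch P, (if f ≤ e ∧ e.1.card = f.1.card + 1 then
      ∑ c : Ch P, if e ≤ c ∧ c.1.card = e.1.card + 1 then u c else 0 else 0) =
      ∑ c : Ch P, if (f ≤ e ∧ e.1.card = f.1.card + 1) ∧ e ≤ c ∧ c.1.card = e.1.card + 1
        then u c else 0 := fun e => by split_ifs with h <;> simp [h]
  rw [sum_congr rfl fun e _ => this e, sum_comm]
  refine sum_eq_zero fun c _ => ?_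
  rw [← sum_filter, sum_const]
  by_cases h : f ≤ c ∧ c.1.card = f.1.card + 2
  · rw [show (univ.filter fun e : Ch P => (f ≤ e ∧ e.1.card = f.1.card + 1) ∧ e ≤ c ∧
        c.1.card = e.1.card + 1) = univ.filter fun e => f < e ∧ e < c from
      filter_congr fun e _ => ⟨fun ⟨⟨a, b⟩, k, l⟩ => ⟨lt_of_le_of_ne a fun j => by
        rw [j] at b; omega, lt_of_le_of_ne k fun j => by rw [j] at l; omega⟩, fun ⟨a, b⟩ => by
          have := Ch.card_lt a
          have := Ch.card_lt b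
          exact ⟨⟨a.le, by omega⟩, b.le, by omega⟩⟩, Sf30.card_between h.1 h.2, two_nsmul]
    exact CharTwo.add_self_eq_zero _
  · rw [filter_eq_empty_iff.2 fun e _ ⟨⟨a, b⟩, k, l⟩ => h ⟨a.trans k, by omega⟩, card_empty,
      zero_nsmul]

theorem Mf.pd_two (h : Mf d A) (u : Ch P → ZMod 2) {e a b : Ch P} (he : Mt A e)
    (hc : e.1.card = d) (ha : e < a) (hb : e < b) (hn : a ≠ b) : pd u e = u a + u b := by
  have k : ∀ c, e < c → c.1.card = e.1.card + 1 := fun c l => by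
    have := Ch.card_lt l
    have := h.card_le c (he.mono l.le)
    omega
  rw [pd, ← sum_pair hn]
  refine sum_congr (Finset.ext fun c => ?_) fun _ _ => rfl
  simp only [mem_filter, mem_univ, true_and, mem_insert, mem_singleton]
  refine ⟨fun ⟨l, m⟩ => ?_, fun l => l.elim (fun l => l ▸ ⟨ha.le, k a ha⟩) fun l => l ▸ ⟨hb.le, k b hb⟩⟩
  rcases Mf.two h he hc ha hb (lt_of_le_of_ne l fun j => by rw [j] at m; omega) with j | j | j
  exacts [absurd j hn, Or.inl j.symm, Or.inr j.symm]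

theorem Mf.ex_two (h : Mf d A) {e : Ch P} (he : Mt A e) (hc : e.1.card = d) :
    ∃ a b, e < a ∧ e < b ∧ a ≠ b := by
  obtain ⟨a, b, n, k⟩ := card_eq_two.1 (Mf.card_two h he hc)
  have m : ∀ c, c ∈ ({a, b} : Finset (Ch P)) → e < c := fun c hc => (mem_filter.1 (k ▸ hc)).2
  exact ⟨a, b, m a (by simp), m b (by simp), n⟩

theorem mem_chains_fs {k : ℕ} {c : Ch P} :
    c.1 ∈ chains (fs A) k ↔ (∀ x ∈ c.1, x ∈ A) ∧ c.1.card = k :=
  mem_chains.trans ⟨fun h => ⟨fun _ hx => mem_fs.1 (h.1 hx), h.2.2⟩,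
    fun h => ⟨fun x hx => mem_fs.2 (h.1 x hx), c.2.2, h.2⟩⟩

/-- a member of `chains` as a chain -/
def toCh {k : ℕ} (c : chains (fs A) (k + 1)) : Ch P :=
  ⟨c.1, card_pos.1 (by rw [(mem_chains.1 c.2).2.2]; omega), (mem_chains.1 c.2).2.1⟩

theorem vecMul_pd {k : ℕ} (v : chains (fs A) (k + 1 + 1) → ZMod 2) (e : chains (fs A) (k + 1)) :
    Matrix.vecMul v (mat (ZMod 2) (fs A) (k + 1)) e = pd (fun c => ex v c.1) (toCh e) := by
  have ce := (mem_chains.1 e.2).2.2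
  rw [vecMul_mat, bd, pd, ← sum_filter_of_ne (p := (e.1 ⊆ ·))
    fun c _ h => by_contra fun k => h (by rw [coef_zero k, mul_zero]),
    ← sum_filter_of_ne (s := univ.filter _) (p := fun c : Ch P => c.1 ∈ chains (fs A) (k + 1 + 1))
      fun c _ h => by_contra fun k => h (ex_not v k)]
  refine (sum_bij (fun c _ => c.1) (fun c hc => ?_) (fun _ _ _ _ h => Ch.ext h) (fun c hc => ?_)
    fun c hc => ?_).symm
  · exact mem_filter.2 ⟨(mem_filter.1 hc).2, (mem_filter.1 (mem_filter.1 hc).1).2.1⟩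
  · obtain ⟨a, b⟩ := mem_filter.1 hc
    exact ⟨toCh ⟨c, a⟩, mem_filter.2 ⟨mem_filter.2 ⟨mem_univ _, b,
      (mem_chains.1 a).2.2.trans (congrArg (· + 1) ce.symm)⟩, a⟩, rfl⟩
  · obtain ⟨a, b⟩ := (mem_filter.1 (mem_filter.1 hc).1).2
    have := coef_ne (K := ZMod 2) (c := c.1) (e := e.1) a b
    rw [(show ∀ t : ZMod 2, t ≠ 0 → t = 1 by decide) _ this, mul_one]

theorem h1_two (h : Ctr Z) (z : P → P → ZMod 2) (hz : Kh11.Coc (fs Z) z) : Kh11.Ex (fs Z) z :=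
  ex_fs.2 (h.ex _ z (coc_fs.1 hz))

/-- a closed surface carries a cycle mod 2 -/
theorem Mf.cyc_pos (h : Mf 2 B) (hZ : Z ⊆ B) (hne : Z.Nonempty)
    (hc : ∀ x ∈ Z, ∀ y, Cm x y → y ∈ Z) : 1 ≤ finrank (ZMod 2) (Cyc (ZMod 2) (fs Z) 2) := by
  have all : ∀ c : Ch P, Mt Z c → ∀ x ∈ c.1, x ∈ Z := fun c ⟨a, a1, a2⟩ x hx =>
    hc a a2 x (c.cm a1 hx)
  rw [Nat.one_le_iff_ne_zero, Ne, Submodule.finrank_eq_zero, Submodule.eq_bot_iff]
  intro h0
  obtain ⟨x, hx⟩ := hne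
  obtain ⟨t, t1, t2⟩ := h.pure (Ch.pt x) (mt_pt.2 (hZ hx))
  refine one_ne_zero (congrFun (h0 (fun _ => 1) (mem_cyc.2 (funext fun e => ?_)))
    ⟨t.1, mem_chains_fs.2 ⟨all t ((mt_pt.2 hx).mono t1), t2⟩⟩)
  obtain ⟨e1, e2⟩ := (mem_chains_fs (c := toCh e)).1 e.2
  have m : Mt Z (toCh e) := ⟨_, (toCh e).top_mem, e1 _ (toCh e).top_mem⟩
  obtain ⟨a, b, a1, b1, n⟩ := Mf.ex_two h (m.sub hZ) e2
  have k : ∀ c, toCh e < c → c.1 ∈ chains (fs Z) (1 + 1 + 1) := fun c l => mem_chains_fs.2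
    ⟨all c (m.mono l.le), by
      have := Ch.card_lt l
      have := h.card_le c ((m.sub hZ).mono l.le)
      omega⟩
  rw [vecMul_pd, Mf.pd_two h _ (m.sub hZ) e2 a1 b1 n, ex_mem _ (k a a1), ex_mem _ (k b b1)]
  rfl

theorem Mf.exit (h : Mf 2 B) (hZ : Z ⊆ B) (hc : Ctr Z) : ∃ x ∈ Z, ∃ y, y ∉ Z ∧ Cm x y := by
  by_contra k
  have := Mf.cyc_pos h hZ hc.ne fun x hx y l => by_contra fun n => k ⟨x, hx, y, n, l⟩
  have d := Mf.dim h hZ
  have e := euler (ZMod 2) (d.le (m := 4) (by norm_num))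
  have := k0_pos (ZMod 2) (A := fs Z) (let ⟨x, hx⟩ := hc.ne; ⟨x, mem_fs.2 hx⟩)
  have := b1_le (ZMod 2) (h1_two hc)
  rw [chi_fs, hc.eu, d.chains_eq (k := 4) (by norm_num), card_empty] at e
  omega

theorem ws_val {G : Set P} (hZ : Z ⊆ G) : WS (Subtype.val ⁻¹' Z : Set G) Z Subtype.val :=
  WS.of_iso (fun _ h => h) (fun y h => ⟨⟨y, hZ h⟩, h, rfl⟩) fun _ _ _ _ => Iff.rfl

theorem mfIn_exit {G : Set P} (h : MfIn G Set.univ) (hZ : Z ⊆ G) (hc : Ctr Z) :
    ∃ x ∈ Z, ∃ y ∈ G, y ∉ Z ∧ Cm x y :=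
  let ⟨x, a, y, b, c⟩ := Mf.exit (Z := Subtype.val ⁻¹' Z) h (fun _ _ => trivial)
    ((ws_val hZ).ctr_iff.2 hc)
  ⟨x.1, a, y.1, y.2, b, c⟩

theorem fill_pd (h : Mf 3 W) (hc : Ctr W) (he : Esc W W) {z : Ch P → ZMod 2}
    (h0 : ∀ c, Mt Wᶜ c → z c = 0)
    (hz : ∀ f : Ch P, ¬ Mt Wᶜ f → f.1.card = 2 → pd z f = 0) : ∃ v : Ch P → ZMod 2,
      (∀ c, Mt Wᶜ c → v c = 0) ∧ ∀ e : Ch P, ¬ Mt Wᶜ e → e.1.card = 3 → pd v e = z e := by
  have ins : ∀ {c : Ch P}, ¬ Mt Wᶜ c ↔ ∀ x ∈ c.1, x ∈ W :=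
    ⟨fun a x hx => by_contra fun n => a ⟨x, hx, n⟩, fun a ⟨x, hx, n⟩ => n (a x hx)⟩
  obtain ⟨v, hv⟩ := fill2 (ZMod 2) (Mf.dim h subset_rfl) (let ⟨x, hx⟩ := hc.ne; ⟨x, mem_fs.2 hx⟩)
    (h1_two hc) (Mf.noCyc h subset_rfl he _) (by rw [chi_fs, hc.eu])
    (u := fun c => z (toCh c)) (funext fun f => by
      obtain ⟨f1, f2⟩ := (mem_chains_fs (c := toCh f)).1 f.2
      rw [vecMul_pd, Pi.zero_apply, ← hz _ (ins.2 f1) f2]
      refine sum_congr rfl fun c k => ?_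
      by_cases a : Mt Wᶜ c
      · exact (ex_not _ fun j => ins.2 (mem_chains_fs.1 j).1 a).trans (h0 c a).symm
      · exact ex_mem _ (mem_chains_fs.2 ⟨ins.1 a, by rw [(mem_filter.1 k).2.2, f2]⟩))
  refine ⟨fun c => ex v c.1, fun c a => ex_not _ fun j => ins.2 (mem_chains_fs.1 j).1 a,
    fun e a b => ?_⟩
  have := congrFun hv ⟨e.1, mem_chains_fs.2 ⟨ins.1 a, b⟩⟩
  rw [vecMul_pd] at this
  exact this

theorem conn_mix3 (h : Mf 3 W) (hc : Ctr W) : Conn (mix W) := fun x hx y hy => by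
  by_contra n
  have he : Esc W W := fun a ha =>
    let ⟨⟨b, b1, b2⟩, o, o1, o2⟩ := hx; ⟨b, b2, hc.conn a ha b b2, o, o2, x.cm b1 o1⟩
  let u : Ch P → ZMod 2 := fun c => if c ∈ mix W ∧ Rch (mix W) x c then 1 else 0
  have up : ∀ e ∈ mix W, ∀ c, e ≤ c → u c = u e := fun e a c l =>
    have r := Rch.of_cm a (mix_upper a l) (Or.inl l)
    if_congr ⟨fun k => ⟨a, k.2.trans r.symm⟩, fun k => ⟨mix_upper a l, k.2.trans r⟩⟩ rfl rfl
  have p0 : ∀ e ∈ mix W, e.1.card = 3 → pd u e = 0 := fun e a b => by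
    obtain ⟨s, t, s1, t1, k⟩ := Mf.ex_two h a.1 b
    rw [Mf.pd_two h u a.1 b s1 t1 k, up e a s s1.le, up e a t t1.le]
    exact CharTwo.add_self_eq_zero _
  have mt : ∀ {c : Ch P}, ¬ Mt Wᶜ c → Mt W c := fun {c} a =>
    ⟨_, c.top_mem, by_contra fun k => a ⟨_, c.top_mem, k⟩⟩
  obtain ⟨v, v1, v2⟩ := fill_pd h hc he (z := fun c => if Mt Wᶜ c then 0 else pd u c)
    (fun c a => if_pos a) fun f a b => by
      refine Eq.trans (sum_congr rfl fun c k => ?_) (pd_pd u f)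
      beta_reduce
      split_ifs with j
      · exact (p0 c ⟨(mt a).mono (mem_filter.1 k).2.1, j⟩ (by rw [(mem_filter.1 k).2.2, b])).symm
      · rfl
  have key : ∀ e : Ch P, Mt W e → e.1.card = 3 → pd (u + v) e = 0 := fun e a b => by
    rw [pd_add]
    by_cases j : Mt Wᶜ e
    · rw [p0 e ⟨a, j⟩ b, pd_zero fun c l _ => v1 c (j.mono l), add_zero]
    · rw [v2 e j b, if_neg j]
      exact CharTwo.add_self_eq_zero _
  obtain ⟨s, s1, s2⟩ := h.pure x hx.1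
  obtain ⟨t, t1, t2⟩ := h.pure y hy.1
  obtain ⟨a, a1, a2⟩ := hx.1
  obtain ⟨b, b1, b2⟩ := hy.1
  have := Mf.along h (fun c => (u + v) c = 0) (fun e m c p q k l j => by
      by_cases i : p = q
      · exact i ▸ j
      have := key e m c
      rwa [Mf.pd_two h _ m c k l i, j, zero_add] at this) b2 (hc.conn b b2 a a2) (t1 b1) (s1 a1) t2 s2
    (by rw [Pi.add_apply, up y hy t t1, v1 t (hy.2.mono t1), add_zero]; exact if_neg fun k => n k.2)
  rw [Pi.add_apply, up x hx s s1, v1 s (hx.2.mono s1), add_zero] at this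
  exact one_ne_zero ((if_pos ⟨hx, Rch.rfl⟩).symm.trans this)

end Crest.Agent.X212.Alg36
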