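import Crest.Agent.X212.Sf30.Ex

/-! SD (helper36): the manifold condition `Mf d` under subdivision. -/

set_option autoImplicit false
set_option linter.unusedSectionVars false

namespace Crest.Agent.X212.Alg36

open Finset Classical
open Crest.Agent.X212.Hp13
open Crest.Agent.X212.Sf30 (xt mem_xt lt_ins card_ins exists_xt)

variable {P : Type} [PartialOrder P] [Fintype P] {A : Set P} {d : ℕ}

/-- toggling a point kills the signed sum -/
theorem toggle (S : Finset (Ch P)) (m : P) (h1 : ∀ c ∈ S, ∀ x ∈ c.1, Cm m x)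
    (h2 : ∀ c ∈ S, ∀ h, c.ins m h ∈ S) (h3 : ∀ c ∈ S, ∃ e ∈ S, e.1 = c.1.erase m) :
    ∑ c ∈ S, c.sg = 0 := by
  choose r hr hr' using h3
  refine sum_involution (fun c hc => if m ∈ c.1 then r c hc else c.ins m (h1 c hc))
    (fun c hc => ?_) (fun c hc _ => ?_) (fun c hc => ?_) fun c hc => ?_
  · split_ifs with h
    · have := card_erase_add_one h
      rw [Ch.sg, Ch.sg, hr' c hc, ← this, pow_succ]; ring
    · rw [Ch.sg_ins _ _ h]; ring
  · split_ifs with h
    · intro e
      have := hr' c hc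
      rw [e] at this
      exact notMem_erase m c.1 (this ▸ h)
    · intro e
      exact h (e ▸ mem_insert_self _ _)
  · split_ifs with h
    exacts [hr c hc, h2 c hc _]
  · by_cases h : m ∈ c.1
    · have k : m ∉ (r c hc).1 := hr' c hc ▸ notMem_erase m c.1
      simp only [if_pos h, if_neg k]
      exact Ch.ext (by rw [Ch.ins_val, hr' c hc, insert_erase h])
    · have k : m ∈ (c.ins m (h1 c hc)).1 := mem_insert_self _ _
      simp only [if_neg h, if_pos k]
      exact Ch.ext (by rw [hr' _ (h2 c hc _), Ch.ins_val, erase_insert h])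

/-- remove a point that is not in a given face -/
noncomputable def ers (c : Ch P) (m : P) (h : ∃ y ∈ c.1, y ≠ m) : Ch P :=
  c.sub (c.1.erase m) (let ⟨y, hy, k⟩ := h; ⟨y, mem_erase.2 ⟨k, hy⟩⟩) (erase_subset _ _)

@[simp] theorem ers_val (c : Ch P) (m : P) (h : ∃ y ∈ c.1, y ≠ m) :
    (ers c m h).1 = c.1.erase m := rfl

theorem ex_ne {c e : Ch P} (h : c ≤ e) {m : P} (hm : m ∉ c.1) : ∃ y ∈ e.1, y ≠ m :=
  ⟨c.top, h c.top_mem, fun k => hm (k ▸ c.top_mem)⟩

theorem le_ers {c e : Ch P} (h : c ≤ e) {m : P} (hm : m ∉ c.1) : c ≤ ers e m (ex_ne h hm) :=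
  fun _ hx => mem_erase.2 ⟨fun k => hm (k ▸ hx), h hx⟩

theorem sum_Icc {c t : Ch P} (h : c < t) :
    ∑ e ∈ univ.filter (fun e => c ≤ e ∧ e ≤ t), e.sg = 0 := by
  obtain ⟨m, hm, hm'⟩ := exists_xt h
  have hn := (mem_xt.1 hm').1
  refine toggle _ m (fun e he x hx => t.cm hm ((mem_filter.1 he).2.2 hx)) (fun e he k => ?_)
    fun e he => ?_
  · have he := (mem_filter.1 he).2
    exact mem_filter.2 ⟨mem_univ _, he.1.trans (e.le_ins m k), insert_subset hm he.2⟩
  · have he := (mem_filter.1 he).2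
    exact ⟨ers e m (ex_ne he.1 hn), mem_filter.2 ⟨mem_univ _, le_ers he.1 hn,
      (erase_subset _ _).trans he.2⟩, rfl⟩

theorem sum_top_le {c : Ch P} {m : P} (hm : m ∉ c.1) :
    ∑ e ∈ univ.filter (fun e => c ≤ e ∧ e.top ≤ m), e.sg = 0 := by
  refine toggle _ m (fun e he x hx => Or.inr ((Ch.le_top hx).trans (mem_filter.1 he).2.2))
    (fun e he k => ?_) fun e he => ?_
  · have he := (mem_filter.1 he).2
    refine mem_filter.2 ⟨mem_univ _, he.1.trans (e.le_ins m k), ?_⟩
    rcases mem_insert.1 (e.ins m k).top_mem with h | h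
    exacts [h.le, (Ch.le_top h).trans he.2]
  · have he := (mem_filter.1 he).2
    exact ⟨ers e m (ex_ne he.1 hm), mem_filter.2 ⟨mem_univ _, le_ers he.1 hm,
      (Ch.top_mono (show ers e m _ ≤ e from erase_subset _ _)).trans he.2⟩, rfl⟩

/-- signed number of the extensions of `c` with given top -/
noncomputable def Ft (c : Ch P) (m : P) : ℤ :=
  ∑ e ∈ univ.filter (fun e => c ≤ e ∧ e.top = m), e.sg

theorem sum_Ft (c : Ch P) (p : P → Prop) :
    ∑ m ∈ univ.filter (fun m => c.top ≤ m ∧ p m), Ft c m =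
      ∑ e ∈ univ.filter (fun e => c ≤ e ∧ p e.top), e.sg := by
  rw [← sum_fiberwise_of_maps_to (s := univ.filter fun e => c ≤ e ∧ p e.top)
    (t := univ.filter fun m => c.top ≤ m ∧ p m) (g := Ch.top) fun e he => mem_filter.2
      ⟨mem_univ _, Ch.top_mono (mem_filter.1 he).2.1, (mem_filter.1 he).2.2⟩]
  refine sum_congr rfl fun m hm => sum_congr ?_ fun _ _ => rfl
  ext e
  simp only [mem_filter, mem_univ, true_and]
  exact ⟨fun k => ⟨⟨k.1, k.2 ▸ (mem_filter.1 hm).2.2⟩, k.2⟩, fun k => ⟨k.1.1, k.2⟩⟩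

theorem Ft_of_top {D : Ch (Ch P)} (h : Ft D D.top = D.top.sg) {T : Ch P} (hT : D.top ≤ T) :
    Ft D T = T.sg := by
  induction T using WellFoundedLT.induction with
  | ind T ih =>
    rcases hT.eq_or_lt with rfl | hl
    · exact h
    have h1 := sum_Ft D (· ≤ T)
    rw [sum_top_le fun k => hl.not_ge (Ch.le_top k)] at h1
    have h2 := sum_Icc hl
    have he : T ∈ univ.filter (fun e => D.top ≤ e ∧ e ≤ T) := mem_filter.2 ⟨mem_univ _, hT, le_rfl⟩
    rw [← add_sum_erase _ _ he] at h1 h2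
    rw [sum_congr rfl fun c hc => ih c (lt_of_le_of_ne (mem_filter.1 (mem_erase.1 hc).2).2.2
      (mem_erase.1 hc).1) (mem_filter.1 (mem_erase.1 hc).2).2.1] at h1
    exact add_right_cancel (h1.trans h2.symm)

/-- Boolean lattices are Eulerian -/
theorem Ft_eq (D : Ch (Ch P)) {T : Ch P} (hT : D.top ≤ T) : Ft D T = T.sg := by
  induction D using WellFoundedLT.induction generalizing T with
  | ind D ih =>
    refine Ft_of_top ?_ hT
    by_cases h : ∃ y ∈ D.1, y ≠ D.top
    · have hl : ers D D.top h < D := lt_of_le_of_ne (erase_subset _ _) fun e =>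
        notMem_erase D.top D.1 (by rw [← ers_val D _ h, e]; exact D.top_mem)
      rw [← ih _ hl (Ch.top_mono hl.le)]
      refine sum_congr ?_ fun _ _ => rfl
      ext e
      simp only [mem_filter, mem_univ, true_and]
      refine ⟨fun k => ⟨hl.le.trans k.1, k.2⟩, fun k => ⟨fun x hx => ?_, k.2⟩⟩
      by_cases hx' : x = D.top
      · rw [hx', ← k.2]; exact e.top_mem
      · exact k.1 (mem_erase.2 ⟨hx', hx⟩)
    · push Not at h
      have := eps_ch D.top
      rw [eps, neg_inj] at this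
      rw [← this]
      refine sum_congr ?_ fun _ _ => rfl
      ext e
      simp only [mem_filter, mem_univ, true_and]
      exact ⟨fun k => k.2, fun k => ⟨fun x hx => by rw [h x hx, ← k]; exact e.top_mem, k⟩⟩

theorem sum_up_sd (D : Ch (Ch P)) :
    ∑ e ∈ univ.filter (D ≤ ·), e.sg = ∑ T ∈ univ.filter (D.top ≤ ·), T.sg := by
  have := sum_Ft D fun _ => True
  simp only [and_true] at this
  rw [← this]
  exact sum_congr rfl fun T hT => Ft_eq D (mem_filter.1 hT).2

theorem card_le_top (D : Ch (Ch P)) : D.1.card ≤ D.top.1.card := by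
  have := card_le_card_of_injOn (s := D.1) (t := Icc 1 D.top.1.card) (fun E => E.1.card)
    (fun E hE => mem_coe.2 (mem_Icc.2 ⟨E.card_pos, card_le_card (Ch.le_top hE)⟩))
    fun E hE F hF e => by
      rcases D.total hE hF with k | k
      · exact Ch.ext (eq_of_subset_of_card_le k (le_of_eq e.symm))
      · exact (Ch.ext (eq_of_subset_of_card_le k (le_of_eq e))).symm
  simpa using this

/-- a flag that is not full can be refined -/
theorem fill {D : Ch (Ch P)} (h : D.1.card < D.top.1.card) : ∃ C ∈ xt D, C ≤ D.top := by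
  have k : ∀ x, ∃ E ∈ D.1, x ∈ D.top.1 → x ∈ E.1 ∧ ∀ F ∈ D.1, x ∈ F.1 → E ≤ F := fun x => by
    by_cases hx : x ∈ D.top.1
    · let S := D.sub (D.1.filter fun E => x ∈ E.1) ⟨_, mem_filter.2 ⟨D.top_mem, hx⟩⟩
        (filter_subset _ _)
      exact ⟨S.bot, (mem_filter.1 S.bot_mem).1, fun _ => ⟨(mem_filter.1 S.bot_mem).2,
        fun F hF hxF => Ch.bot_le (c := S) (mem_filter.2 ⟨hF, hxF⟩)⟩⟩
    · exact ⟨_, D.top_mem, fun k => absurd k hx⟩
  choose f hf hf' using k
  obtain ⟨x, hx, y, hy, hne, e⟩ := exists_ne_map_eq_of_card_lt_of_maps_to h (f := f)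
    fun x _ => hf x
  have hy' : y ∈ (f x).1 := e ▸ (hf' y hy).1
  let C := ers (f x) x ⟨y, hy', hne.symm⟩
  have hC : C ≤ f x := erase_subset _ _
  refine ⟨C, mem_xt.2 ⟨fun hD => ?_, fun F hF => ?_⟩, hC.trans (Ch.le_top (hf x))⟩
  · have := (hf' y hy).2 C hD (mem_erase.2 ⟨hne.symm, hy'⟩)
    exact notMem_erase x _ (this (e ▸ (hf' x hx).1))
  · by_cases hxF : x ∈ F.1
    · exact Or.inl (hC.trans ((hf' x hx).2 F hF hxF))
    · rcases D.total hF (hf x) with k | k
      · exact Or.inr (le_ers k hxF)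
      · exact Or.inl (hC.trans k)

theorem top_ins {c : Ch P} {x : P} (h : ∀ y ∈ c.1, Cm x y) (hx : x ≤ c.top) :
    (c.ins x h).top = c.top :=
  Ch.top_eq (mem_insert_of_mem c.top_mem) fun y hy => by
    rcases mem_insert.1 hy with rfl | k
    exacts [hx, Ch.le_top k]

theorem top_ins' {c : Ch P} {x : P} (h : ∀ y ∈ c.1, Cm x y) (hx : c.top ≤ x) :
    (c.ins x h).top = x :=
  Ch.top_eq (mem_insert_self _ _) fun y hy => by
    rcases mem_insert.1 hy with rfl | k
    exacts [le_rfl, (Ch.le_top k).trans hx]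

theorem full (D : Ch (Ch P)) : ∃ E, D ≤ E ∧ E.1.card = D.top.1.card := by
  induction D using WellFoundedGT.induction with
  | ind D ih =>
    rcases (card_le_top D).eq_or_lt with h | h
    · exact ⟨D, le_rfl, h⟩
    obtain ⟨C, hC, hle⟩ := fill h
    obtain ⟨E, h1, h2⟩ := ih _ (lt_ins hC)
    exact ⟨E, (lt_ins hC).le.trans h1, by rw [h2, top_ins _ hle]⟩

theorem conn_of_xt {c : Ch P} (h : Conn {x | x ∈ xt c}) : Conn {e | c < e} := by
  have k : ∀ e : Ch P, c ≤ e → ∀ x ∈ e.1, ∀ hx : x ∈ xt c,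
      Rch {e | c < e} (c.ins x (mem_xt.1 hx).2) e := fun e he x hx hl =>
    have h1 : c.ins x (mem_xt.1 hl).2 ≤ e := insert_subset hx he
    Rch.of_cm (lt_ins hl) ((lt_ins hl).trans_le h1) (Or.inl h1)
  let f : P → Ch P := fun x => if hx : x ∈ xt c then c.ins x (mem_xt.1 hx).2 else c
  have hf : ∀ x (hx : x ∈ xt c), f x = c.ins x (mem_xt.1 hx).2 := fun x hx => dif_pos hx
  intro e he e' he'
  obtain ⟨x, hx, hx'⟩ := exists_xt (show c < e from he)
  obtain ⟨y, hy, hy'⟩ := exists_xt (show c < e' from he')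
  refine (k e he.le x hx hx').symm.trans (Rch.trans ?_ (k e' he'.le y hy hy'))
  rw [← hf x hx', ← hf y hy']
  refine (h x hx' y hy').map fun u hu v hv huv => ?_
  rw [hf u hu, hf v hv]
  let t : Ch P := (c.ins v (mem_xt.1 hv).2).ins u fun w hw => by
    rcases mem_insert.1 hw with rfl | hw
    exacts [Or.inl huv, (mem_xt.1 hu).2 w hw]
  have ht : c ≤ t := (c.le_ins _ _).trans (Ch.le_ins _ _ _)
  exact (k t ht u (mem_insert_self _ _) hu).trans
    (k t ht v (mem_insert_of_mem (mem_insert_self _ _)) hv).symm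

/-- two comparable new faces under the top connect all the new faces under the top -/
theorem rch_xt {D : Ch (Ch P)} {C₁ C₂ C : Ch P} (h1 : C₁ ∈ xt D) (h2 : C₂ ∈ xt D) (h : C ∈ xt D)
    (hl : C₁ < C₂) (t2 : C₂ ≤ D.top) (t : C ≤ D.top) : Rch {x | x ∈ xt D} C C₁ := by
  obtain ⟨n1, c1⟩ := mem_xt.1 h1
  obtain ⟨n2, c2⟩ := mem_xt.1 h2
  obtain ⟨n, c⟩ := mem_xt.1 h
  have r21 : Rch {x | x ∈ xt D} C₂ C₁ := Rch.of_cm h2 h1 (Or.inr hl.le)
  let U := D.top.sub (C₁.1 ∪ C.1) (C₁.2.1.mono subset_union_left)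
    (union_subset (hl.le.trans t2) t)
  have u1 : C₁ ≤ U := subset_union_left
  have u2 : C ≤ U := subset_union_right
  by_cases hU : U ∈ D.1
  swap
  · have : U ∈ xt D := mem_xt.2 ⟨hU, fun F hF => by
      rcases c1 F hF with a | a
      · rcases c F hF with b | b
        exacts [Or.inl (union_subset a b), Or.inr (b.trans u2)]
      · exact Or.inr (a.trans u1)⟩
    exact (Rch.of_cm h this (Or.inl u2)).trans (Rch.of_cm this h1 (Or.inr u1))
  rcases c2 U hU with a | a
  swap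
  · exact (Rch.of_cm h h2 (Or.inl (u2.trans a))).trans r21
  obtain ⟨x, hx, hx'⟩ := exists_xt hl
  have hxC : x ∈ C.1 := (mem_union.1 (a hx)).resolve_left (mem_xt.1 hx').1
  let V := C.sub (C₂.1 ∩ C.1) ⟨x, mem_inter.2 ⟨hx, hxC⟩⟩ inter_subset_right
  have v1 : V ≤ C₂ := inter_subset_left
  have v2 : V ≤ C := inter_subset_right
  by_cases hV : V ∈ D.1
  · rcases c1 V hV with b | b
    · exact Rch.of_cm h h1 (Or.inr (b.trans v2))
    · exact absurd (b (mem_inter.2 ⟨hx, hxC⟩)) (mem_xt.1 hx').1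
  · have : V ∈ xt D := mem_xt.2 ⟨hV, fun F hF => by
      rcases c2 F hF with a | a
      · exact Or.inl (v1.trans a)
      · rcases c F hF with b | b
        exacts [Or.inl (v2.trans b), Or.inr (subset_inter a b)]⟩
    exact (Rch.of_cm h this (Or.inr v2)).trans ((Rch.of_cm this h2 (Or.inl v1)).trans r21)

theorem mt_top {D : Ch (Ch P)} (h : Mt (Ch.top ⁻¹' A) D) : Mt A D.top :=
  let ⟨E, hE, k⟩ := h; ⟨E.top, Ch.le_top hE E.top_mem, k⟩

theorem xt_of_lt {c : Ch P} {x : P} (h : c.top < x) : x ∈ xt c :=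
  mem_xt.2 ⟨fun k => h.not_ge (Ch.le_top k), fun _ hy => Or.inr ((Ch.le_top hy).trans h.le)⟩

theorem xt_cases {c : Ch P} {x : P} (h : x ∈ xt c) : x ≤ c.top ∨ c.top < x :=
  ((mem_xt.1 h).2 _ c.top_mem).imp id fun k =>
    lt_of_le_of_ne k fun e => (mem_xt.1 h).1 (e ▸ c.top_mem)

/-- SD for `Mf` -/
theorem Mf.sd (h : Mf d A) : Mf d (Ch.top ⁻¹' A) := by
  refine ⟨fun D hD => (card_le_top D).trans (h.card_le _ (mt_top hD)),
    fun D hD => (sum_up_sd D).trans (h.eul _ (mt_top hD)), fun D hD hc => conn_of_xt ?_,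
    fun D hD => ?_⟩
  · by_cases h0 : D.1.card < D.top.1.card
    swap
    · have hc' := h.conn _ (mt_top hD) (by omega)
      by_cases hx : ∃ C ∈ xt D, C ≤ D.top
      · obtain ⟨C, hC, hle⟩ := hx
        have := card_le_top (D.ins C (mem_xt.1 hC).2)
        rw [card_ins hC, top_ins _ hle] at this
        omega
      · push Not at hx
        convert hc' using 1
        ext C
        exact ⟨fun k => (xt_cases k).resolve_left (hx C k), fun k => xt_of_lt k⟩
    obtain ⟨C₁, h1, t1⟩ := fill h0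
    suffices ∀ C ∈ xt D, Rch {x | x ∈ xt D} C C₁ from
      fun C hC C' hC' => (this C hC).trans (this C' hC').symm
    intro C hC
    rcases xt_cases hC with t | t
    swap
    · exact Rch.of_cm hC h1 (Or.inr (t1.trans t.le))
    obtain ⟨T, hT, hc'⟩ := h.pure _ (mt_top hD)
    rcases hT.eq_or_lt with e | hl
    · have h3 : (D.ins C₁ (mem_xt.1 h1).2).1.card < (D.ins C₁ (mem_xt.1 h1).2).top.1.card := by
        rw [card_ins h1, top_ins _ t1, e]; omega
      obtain ⟨C₂, h2, t2⟩ := fill h3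
      rw [top_ins _ t1] at t2
      obtain ⟨n2, c2⟩ := mem_xt.1 h2
      have h2' : C₂ ∈ xt D := mem_xt.2 ⟨fun k => n2 (mem_insert_of_mem k),
        fun F hF => c2 F (mem_insert_of_mem hF)⟩
      have hne : C₂ ≠ C₁ := fun k => n2 (k ▸ mem_insert_self _ _)
      rcases c2 C₁ (mem_insert_self _ _) with a | a
      · exact (rch_xt h2' h1 hC (lt_of_le_of_ne a hne) t1 t).trans (Rch.of_cm h2' h1 (Or.inl a))
      · exact rch_xt h1 h2' hC (lt_of_le_of_ne a hne.symm) t2 t
    · exact (Rch.of_cm hC (xt_of_lt hl) (Or.inl (t.trans hT))).trans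
        (Rch.of_cm (xt_of_lt hl) h1 (Or.inr (t1.trans hT)))
  · obtain ⟨T, hT, hc⟩ := h.pure _ (mt_top hD)
    have k : ∀ E ∈ D.1, Cm T E := fun E hE => Or.inr ((Ch.le_top hE).trans hT)
    obtain ⟨E, h1, h2⟩ := full (D.ins T k)
    exact ⟨E, (D.le_ins T k).trans h1, by rw [h2, top_ins' k hT, hc]⟩

theorem Mf.desc {s t : St} {f : t.P → s.P} (h : Mf d s.A) (hd : Desc s t f) : Mf d t.A := by
  induction hd with
  | refl => exact h
  | step _ ih => exact Mf.sd ih

end Crest.Agent.X212.Alg36
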