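import Crest.Agent.X212.Kh11.Leaf
import Crest.Agent.X212.Sf30.P2Rev
import Crest.Agent.X212.Hp13.Tst

/-! REV (helper36): the reversed surface one level up. -/

set_option autoImplicit false
set_option linter.unusedSectionVars false

namespace Crest.Agent.X212.Alg36

open Finset Classical
open Crest.Agent.X212.Hp13 Crest.Agent.X212.Hk
open Crest.Agent.X212.Kh11 (WS sctr_min sctr_max ws_top)
open Crest.Agent.X212.Pt30 (Z1 Qe rs mem_rs rs_le rs_mono ctr_rev)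
open Crest.Agent.X212.Cut21 (tp le_tp top_tp bot_tp tp_le)

variable {P : Type} [PartialOrder P] [Fintype P] {X K V G Z : Set P} {w : P → P → ℤ}

theorem cl_low (X : Set P) : IsLowerSet (cl X) := fun _ _ k ⟨a, ha, l⟩ => ⟨a, ha, k.trans l⟩

theorem sub_cl (X : Set P) : X ⊆ cl X := fun x hx => ⟨x, hx, le_rfl⟩

theorem om_cl (X : Set P) : Om X ⊆ cl X := fun _ hx => hx.2

theorem om_low (hX : IsUpperSet X) : IsLowerSet (Om X) := fun _ _ k h =>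
  ⟨fun j => h.1 (hX k j), cl_low X k h.2⟩

theorem cl_sd {c : Ch P} : c ∈ cl (Ch.top ⁻¹' X) ↔ c.top ∈ cl X :=
  ⟨fun ⟨_, h, k⟩ => ⟨_, h, Ch.top_mono k⟩,
    fun ⟨a, h, k⟩ => ⟨tp c a k, by simpa using h, le_tp _ _ _⟩⟩

theorem cl_pre (X : Set P) : cl (Ch.top ⁻¹' X) = (Ch.top : Ch P → P) ⁻¹' cl X :=
  Set.ext fun _ => cl_sd

theorem om_pre (X : Set P) : Om (Ch.top ⁻¹' X) = (Ch.top : Ch P → P) ⁻¹' Om X :=
  Set.ext fun _ => Hlf24.om_sd

theorem cm_cl (hX : IsUpperSet X) {a x : P} (ha : a ∈ X) (h : Cm a x) : x ∈ cl X :=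
  h.elim (fun k => sub_cl X (hX k ha)) fun k => ⟨a, ha, k⟩

theorem s1_add (h : S1 X w) {x y u : P} (hu : u ∈ cl X) (h1 : x ≤ y) (h2 : y ≤ u) :
    w x u = w x y + w y u :=
  h.coc x (cl_low X (h1.trans h2) hu) y (cl_low X h2 hu) u hu h1 h2

theorem s1_self (h : S1 X w) {x : P} (hx : x ∈ cl X) : w x x = 0 := by
  have := s1_add h hx le_rfl le_rfl; omega

theorem s1_z1 (hX : IsUpperSet X) (h : S1 X w) : Z1 X w :=
  ⟨fun _ ha _ _ _ h1 h2 _ _ c => s1_add h (cm_cl hX ha c) h1 h2,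
    fun x y ⟨k, _, ha, _, c⟩ => h.nn x y (cm_cl hX ha c) k,
    fun x y ⟨k, _, ha, _, c⟩ => h.le1 x y (cm_cl hX ha c) k⟩

theorem s1_of_z1 (h : Z1 X w) : S1 X w :=
  ⟨fun _ _ _ _ _ ⟨_, a, b⟩ h1 h2 => h.add a h1 h2 b, fun _ _ ⟨_, a, b⟩ k => h.nn a k b,
    fun _ _ ⟨_, a, b⟩ k => h.le1 a k b⟩

theorem dom_cl {c : Ch P} (h : c.top ∈ cl X) : Dom X c :=
  let ⟨a, ha, k⟩ := h; ⟨a, ha, fun _ hx => Or.inr ((Ch.le_top hx).trans k)⟩

theorem s1_rev (hX : IsUpperSet X) (h : S1 X w) : S1 (Ch.top ⁻¹' X) (rev w) :=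
  s1_of_z1 (s1_z1 hX h).rev

theorem ws_rev' (hX : IsUpperSet X) (h : S1 X w) (hV : V ⊆ cl X) :
    WS {C : Ch (Ch P) | C.top.top ∈ V ∧ 0 < w C.top.bot C.bot.bot}
      {c | c.top ∈ V ∧ 0 < w c.bot c.top} Ch.top := by
  have z := s1_z1 hX h
  refine WS.of_le (fun C k => ⟨k.1, z.pos (dom_cl (hV k.1)) C.top.bot_mem
    (C.bot_le_top C.bot.bot_mem) (Ch.bot_anti C.bot_le_top) k.2⟩)
    (fun _ _ _ _ l => Ch.top_mono l) fun d hd => ?_
  have D := dom_cl (hV hd.1)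
  refine (WS.of_clo' (D := {C : Ch (Ch P) | C.top = d ∧ 0 < w d.bot C.bot.bot})
    (A := {C | (C.top.top ∈ V ∧ 0 < w C.top.bot C.bot.bot) ∧ C.top ≤ d})
    (fun C k => ⟨⟨k.1 ▸ hd.1, k.1 ▸ k.2⟩, k.1.le⟩) fun C k => ⟨tp C d k.2, ⟨by simp, ?_⟩,
      le_tp _ _ _, fun b hb l => tp_le l (hb.1 ▸ b.top_mem)⟩).ctr_iff.1 (ctr_rev z ⟨D, hd.2⟩)
  have := z.coc.add' D d.bot_mem (k.2 C.top.bot_mem) (k.2 (C.bot_le_top C.bot.bot_mem))
    (Ch.bot_anti k.2) (Ch.bot_anti C.bot_le_top)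
  have := z.mono _ _ (D.dp d.bot_mem (k.2 C.top.bot_mem) (Ch.bot_anti k.2))
  have := k.1.2
  rw [bot_tp]
  omega

theorem cv_low (hK : IsLowerSet K) : Cv K w = {c | c.top ∈ K ∧ 0 < w c.bot c.top} :=
  Set.ext fun c => and_congr_left fun _ =>
    ⟨fun k => k _ c.top_mem, fun k _ hx => hK (Ch.le_top hx) k⟩

theorem ws_ca (hX : IsUpperSet X) (h : S1 X w) :
    WS (CA (Ch.top ⁻¹' X) (rev w)) (CA X w) Ch.top := ws_rev' hX h (sub_cl X)

theorem ws_cv (hX : IsUpperSet X) (h : S1 X w) (hK : IsLowerSet K) (k : K ⊆ cl X) :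
    WS (Cv (Ch.top ⁻¹' K) (rev w)) (Cv K w) Ch.top := by
  rw [cv_low hK, cv_low (hK.preimage Ch.top_mono)]
  exact ws_rev' hX h k

theorem sum_top_in {U : Set P} {d : P} (hd : d ∈ U) (h : ∀ x ∈ U, x ≤ d) :
    ∑ c ∈ univ.filter (fun c : Ch P => c.top = d ∧ ∀ x ∈ c.1, x ∈ U), c.sg = eu (U \ {d}) - 1 := by
  have e1 := eu_cone hd fun x hx => Or.inr (h x hx)
  rw [eu, ← sum_filter_add_sum_filter_not _ (fun c : Ch P => c.top = d), filter_filter,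
    filter_filter] at e1
  have e2 : eu (U \ {d}) =
      -∑ c ∈ univ.filter (fun c : Ch P => (∀ x ∈ c.1, x ∈ U) ∧ ¬ c.top = d), c.sg := by
    rw [eu]
    congr 1
    refine sum_congr (Finset.ext fun c => ?_) fun _ _ => rfl
    simp only [mem_filter, mem_univ, true_and]
    refine ⟨fun k => ⟨fun x hx => (k x hx).1,
      (k _ c.top_mem).2⟩, fun k x hx => ⟨k.1 x hx, fun j => k.2 ?_⟩⟩
    exact le_antisymm (h _ (k.1 _ c.top_mem)) (j ▸ Ch.le_top hx)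
  rw [e2, sum_congr (filter_congr fun c _ => and_comm) fun _ _ => rfl]
  linarith

theorem sum_rev (hX : IsUpperSet X) (h : S1 X w) {d : Ch P} (hd : d.top ∈ X) :
    ∑ C ∈ univ.filter (fun C : Ch (Ch P) => C.top = d), C.sg * w d.bot C.bot.bot =
      d.sg * w d.bot d.top := by
  have cd : ∀ x ∈ d.1, x ∈ cl X := fun x hx => ⟨_, hd, Ch.le_top hx⟩
  have nn : ∀ x ∈ d.1, 0 ≤ w d.bot x := fun x hx => h.nn _ _ (cd x hx) (Ch.bot_le hx)
  have mo : ∀ x ∈ d.1, ∀ y ∈ d.1, x ≤ y → w d.bot x ≤ w d.bot y := fun x hx y hy k => by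
    have := s1_add h (cd y hy) (Ch.bot_le hx) k
    have := h.nn x y (cd y hy) k
    omega
  have l1 := h.le1 _ _ (cd _ d.top_mem) d.bot_le_top
  rcases (nn _ d.top_mem).eq_or_lt with j | j
  · rw [← j, mul_zero]
    refine sum_eq_zero fun C hC => ?_
    have m : C.bot.bot ∈ d.1 := (mem_filter.1 hC).2 ▸ C.bot_le_top C.bot.bot_mem
    have := mo _ m _ d.top_mem (Ch.le_top m)
    have := nn _ m
    rw [show w d.bot C.bot.bot = 0 by omega, mul_zero]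
  let L : Set P := {x | w d.bot x = 0}
  let U : Set (Ch P) := {c | c ≤ d ∧ c.bot ∈ L}
  have b0 : d.bot ∈ L := s1_self h (cd _ d.bot_mem)
  have m : Mt L d := ⟨_, d.bot_mem, b0⟩
  have e1 := sum_top_in (U := U) ⟨le_rfl, b0⟩ fun _ k => k.1
  have rb : ∀ c : Ch P, Mt L c → (rs L c).bot ∈ L := fun c k => ((mem_rs k).1 (Ch.bot_mem _)).2
  have ne : ∀ c : Ch P, c ≤ rs L d → c ≠ d := fun c k e => by
    have : w d.bot d.top = 0 := ((mem_rs m).1 (k (e ▸ c.top_mem))).2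
    omega
  have e2 : eu {c | c ≤ rs L d} = eu (U \ {d}) := by
    refine eu_int (rs L) (fun c k => ⟨⟨k.trans (rs_le m), ((mem_rs m).1 (k c.bot_mem)).2⟩, ne c k⟩)
      (fun c k => ?_) fun c k b l j x hx => ?_
    · have a : Mt L c := ⟨_, c.bot_mem, k.1.2⟩
      exact ⟨rs_mono a k.1.1, rs_le a⟩
    · exact (mem_rs ⟨_, c.bot_mem, k.1.2⟩).2 ⟨j hx, ((mem_rs m).1 (l hx)).2⟩
  rw [← e2, eu_cone (E := {c | c ≤ rs L d}) (m := rs L d) (le_refl (rs L d)) fun x hx => Or.inr hx,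
    sub_self] at e1
  have e3 := eps_ch d
  rw [eps, ← sum_filter_add_sum_filter_not _ (fun C : Ch (Ch P) => ∀ x ∈ C.1, x ∈ U),
    filter_filter, neg_inj] at e3
  replace e3 : _ = d.sg := (zero_add _).symm.trans ((congrArg (· + _) (by convert e1.symm)).trans e3)
  rw [show w d.bot d.top = 1 by omega, mul_one, ← e3, sum_filter (s := filter _ _)]
  refine sum_congr rfl fun C hC => ?_
  have t : ∀ c ∈ C.1, c ≤ d := fun c hc => (mem_filter.1 hC).2 ▸ Ch.le_top hc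
  have m1 := t _ C.bot_mem C.bot.bot_mem
  have := nn _ m1
  have := mo _ m1 _ d.top_mem (Ch.le_top m1)
  split_ifs with a
  · rw [show w d.bot C.bot.bot = 0 from (a _ C.bot_mem).2, mul_zero]
  · have : w d.bot C.bot.bot ≠ 0 := fun e => a fun c hc => ⟨t c hc, by
      have := nn _ (t c hc c.bot_mem)
      have := mo _ (t c hc c.bot_mem) _ m1 (Ch.bot_anti (Ch.bot_le hc))
      show w d.bot c.bot = 0
      omega⟩
    rw [show w d.bot C.bot.bot = 1 by omega, mul_one]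

theorem chi_rev (hX : IsUpperSet X) (h : S1 X w) : chi (Ch.top ⁻¹' X) (rev w) = chi X w := by
  rw [chi, chi, ← sum_fiberwise_of_maps_to (t := univ.filter (Mt X)) (g := Ch.top)
    fun C hC => mem_filter.2 ⟨mem_univ _, mt_top (mem_filter.1 hC).2⟩]
  refine sum_congr rfl fun d hd => ?_
  have a := (Pt30.mt_top hX).1 (mem_filter.1 hd).2
  rw [← sum_rev hX h a, filter_filter]
  refine sum_congr (filter_congr fun C _ => and_iff_right_of_imp fun k => ⟨_, C.top_mem, ?_⟩)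
    fun C hC => by rw [rev, (mem_filter.1 hC).2]
  show C.top.top ∈ X
  rwa [k]

/-- the chains of `G` that start in `Z` -/
theorem ws_bot (hG : IsLowerSet G) (hZ : Z ⊆ G) :
    WS (Cq Z) (Ch.top ⁻¹' G ∩ Ch.bot ⁻¹' Z : Set (Ch P)) id := by
  refine WS.of_int' (fun c k => ⟨hZ (k _ c.top_mem), k _ c.bot_mem⟩) fun c k => ?_
  have m : Mt Z c := ⟨_, c.bot_mem, k.2⟩
  exact ⟨rs Z c, fun x hx => ((mem_rs m).1 hx).2, rs_le m,
    fun b hb l x hx => (mem_rs m).2 ⟨l hx, hb x hx⟩⟩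

theorem ws_cq (Z : Set P) : WS (Cq Z) Z Ch.top := by
  convert ws_top Z using 1
  exact Set.ext fun _ => ⟨fun k => ⟨k, trivial⟩, fun k => k.1⟩

theorem ctr_bot (hG : IsLowerSet G) (hZ : Z ⊆ G) :
    Ctr (Ch.top ⁻¹' G ∩ Ch.bot ⁻¹' Z : Set (Ch P)) ↔ Ctr Z :=
  (ws_bot hG hZ).ctr_iff.symm.trans (ws_cq Z).ctr_iff

theorem flat_rev (hK : IsLowerSet K) (h : Flat K w) : Flat (Ch.top ⁻¹' K) (rev w) :=
  fun c a d b l => h _ (hK d.bot_le_top b) _ (hK c.bot_le_top a) (Ch.bot_anti l)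

theorem td_rev (hX : IsUpperSet X) (h : TD X w) : TD (Ch.top ⁻¹' X) (rev w) :=
  ⟨s1_rev hX h.toS1, (ws_ca hX h.toS1).conn_iff.2 h.conn, (chi_rev hX h.toS1).trans h.chi, by
    rw [om_pre]; exact (ws_cv hX h.toS1 (om_low hX) (om_cl X)).ne_iff.2 h.ne⟩

theorem sp_rev (hX : IsUpperSet X) (h : SP X w) : SP (Ch.top ⁻¹' X) (rev w) :=
  ⟨s1_rev hX h.toS1, by rw [om_pre]; exact flat_rev (om_low hX) h.flat,
    (ws_ca hX h.toS1).conn_iff.2 h.conn, (chi_rev hX h.toS1).trans h.chi⟩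

/-- a frontier of the reversed curve comes from below -/
theorem fro_rev (hG : IsLowerSet G) (h0 : ∀ x ∈ G, w x x = 0) {Z' : Set (Ch P)}
    (hZ : Z' ⊆ Ch.top ⁻¹' G) (h : Fro (Ch.top ⁻¹' G) Z' (rev w)) :
    ∃ Z ⊆ G, Z' = Ch.top ⁻¹' G ∩ Ch.bot ⁻¹' Z ∧ Fro G Z w := by
  have pt : ∀ x ∈ G, Ch.pt x ∈ (Ch.top ⁻¹' G : Set (Ch P)) := fun x hx => by simpa using hx
  have k : ∀ c : Ch P, c.top ∈ G → (c ∈ Z' ↔ Ch.pt c.bot ∈ Z') := fun c hc => by
    have b := hG c.bot_le_top hc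
    have e : ind Z' c = ind Z' (Ch.pt c.bot) := by
      rcases h with h | h <;>
      · have := h _ (pt _ b) c hc (Ch.pt_le.2 c.bot_mem)
        simp only [rev, Ch.bot_pt, h0 _ b, cb, Pi.neg_apply] at this
        omega
    by_cases a : c ∈ Z' <;> by_cases a' : Ch.pt c.bot ∈ Z' <;> simp_all [ind]
  refine ⟨{x | Ch.pt x ∈ Z'}, fun x hx => by simpa using hZ hx,
    Set.ext fun c => ⟨fun a => ⟨hZ a, (k c (hZ a)).1 a⟩, fun a => (k c a.1).2 a.2⟩, ?_⟩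
  have e : ∀ x y (l : x ≤ y), y ∈ G → cb (ind Z') (Ch.pt y) (Ch.pr x y l) =
      -cb (ind {x | Ch.pt x ∈ Z'}) x y := fun x y l hy => by
    have := k (Ch.pr x y l) (by simpa using hy)
    simp only [Ch.bot_pr] at this
    simp only [cb, ind, this, Set.mem_setOf_eq, neg_sub]
  rcases h with h | h
  · refine Or.inr fun x _ y hy l => ?_
    have := h _ (pt y hy) (Ch.pr x y l) (by simpa using hy) (Ch.pt_le.2 (by simp))
    rw [e x y l hy] at this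
    simpa [rev] using this
  · refine Or.inl fun x _ y hy l => ?_
    have := h _ (pt y hy) (Ch.pr x y l) (by simpa using hy) (Ch.pt_le.2 (by simp))
    rw [Pi.neg_apply, Pi.neg_apply, e x y l hy] at this
    simpa [rev] using this

theorem ex_rev (h : S1 X w) : ExOn (Ch.top ⁻¹' cl X) (rev w + pb Ch.top w) :=
  ⟨fun c => w c.bot c.top, fun c _ d b l => by
    have := s1_add h b (Ch.bot_anti l) (Ch.le_top (l c.bot_mem))
    have := s1_add h b c.bot_le_top (Ch.top_mono l)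
    simp only [Pi.add_apply, rev, pb]
    omega⟩

theorem tr_rev (hX : IsUpperSet X) (h : TD X w) : Tr X ∅ w (lv0 P).sd Ch.top (rev w) where
  tw := Desc.sd (lv0 P)
  td := td_rev hX h
  flat K hK _ k := flat_rev (hK.inter (cl_low X)) k
  ines G hG _ := fun ⟨Z', a, b, c⟩ => by
    obtain ⟨Z, z1, rfl, z3⟩ := fro_rev hG.low (fun x hx => s1_self h.toS1 (hG.sub hx).2) a c
    exact ⟨Z, z1, (ctr_bot hG.low z1).1 b, z3⟩
  drv := Or.inr (ex_rev h.toS1)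

variable {H A : Set P}

theorem capH_rev (hH : IsLowerSet H) (hA : IsUpperSet A) (h : CapH H A w Z) :
    CapL (Ch.top ⁻¹' H) (Ch.top ⁻¹' A) (rev w) (Ch.top ⁻¹' H ∩ Ch.bot ⁻¹' Z) where
  sub c k := ⟨k.1, hA c.bot_le_top (h.sub k.2).2⟩
  ctr := (ctr_bot hH fun _ k => (h.sub k).1).2 h.ctr
  flat _ a _ b l := h.flat _ b.2 _ a.2 (Ch.bot_anti l)
  low _ c l k := have a : c.top ∈ H := hH (Ch.top_mono l) k.1
    ⟨a, h.up _ k.2 _ (hH c.bot_le_top a) (Ch.bot_anti l)⟩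
  one _ a _ b l n := h.one _ a.2 _ (Ch.bot_anti l) fun k => n ⟨b, k⟩
  ne := let ⟨y, a, x, l, n⟩ := h.ne
    ⟨Ch.pt y, ⟨by simpa using (h.sub a).1, by simpa using a⟩, Ch.pr x y l,
      by simpa using (h.sub a).1, Ch.pt_le.2 (by simp), fun k => n (by simpa using k.2)⟩

theorem capL_rev (hH : IsLowerSet H) (hA : IsUpperSet A) (h : CapL H A w Z) :
    CapH (Ch.top ⁻¹' H) (Ch.top ⁻¹' A) (rev w) (Ch.top ⁻¹' H ∩ Ch.bot ⁻¹' Z) where
  sub c k := ⟨k.1, hA c.bot_le_top (h.sub k.2).2⟩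
  ctr := (ctr_bot hH fun _ k => (h.sub k).1).2 h.ctr
  flat _ a _ b l := h.flat _ b.2 _ a.2 (Ch.bot_anti l)
  up _ a _ b l := ⟨b, h.low (Ch.bot_anti l) a.2⟩
  one _ a c l n := have b : c.top ∈ H := hH (Ch.top_mono l) a.1
    h.one _ a.2 _ (hH c.bot_le_top b) (Ch.bot_anti l) fun k => n ⟨b, k⟩
  ne := let ⟨x, a, y, b, l, n⟩ := h.ne
    ⟨Ch.pr x y l, ⟨by simpa using b, by simpa using a⟩, Ch.pt y, Ch.pt_le.2 (by simp),
      fun k => n (by simpa using k.2)⟩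

theorem revStmt : RevStmt := fun _ _ _ _ _ hX h =>
  ⟨s1_rev hX h, chi_rev hX h, ws_ca hX h, fun _ a b => ws_cv hX h a b, tr_rev hX, sp_rev hX,
    fun _ _ => ctr_bot, fun _ _ _ a b _ => ⟨capH_rev a b, capL_rev a b⟩⟩

end Crest.Agent.X212.Alg36
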