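import Crest.Agent.X212.Alg36.Half
import Crest.Agent.X212.Kh11.Fib3

/-! ALG (helper36): bridge to `Kh11.chi`, Euler characteristic of 2-dimensional posets against
`H^1`, and `H^1 = 0` for all coefficients from fields. -/

set_option autoImplicit false

namespace Crest.Agent.X212.Alg36

open Finset Module
open Crest.Agent.X212.Kh11 (chi chs red mem_chs Cn Rch H1z Ctr Low Upp)

variable {α : Type*} [PartialOrder α]

/-- all chains of `A` have at most `n` elements. -/
def Dim (A : Finset α) (n : ℕ) : Prop :=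
  ∀ c ⊆ A, IsChain (· ≤ ·) (c : Set α) → c.card ≤ n

theorem Dim.mono {A B : Finset α} {n : ℕ} (h : Dim B n) (hA : A ⊆ B) : Dim A n :=
  fun c hc => h c (hc.trans hA)

theorem Dim.le {A : Finset α} {n m : ℕ} (h : Dim A n) (hm : n ≤ m) : Dim A m :=
  fun c hc hc' => (h c hc hc').trans hm

theorem Dim.chains_eq {A : Finset α} {n k : ℕ} (h : Dim A n) (hk : n < k) : chains A k = ∅ := by
  refine eq_empty_of_forall_notMem fun c hc => ?_
  obtain ⟨h1, h2, h3⟩ := mem_chains.1 hc
  have := h c h1 h2
  omega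

theorem chi_eq_chi4 {A : Finset α} (h : Dim A 4) : chi A = chi4 A := by
  classical
  have e : red A = ∑ k ∈ range 5, ((chains A k).card : ℤ) * (-1) ^ k := by
    unfold red
    rw [← sum_fiberwise_of_maps_to (s := chs A) (t := range 5) (g := fun c => c.card)]
    · refine sum_congr rfl fun k _ => ?_
      have : (chs A).filter (fun c => c.card = k) = chains A k := by
        ext c
        rw [mem_filter, mem_chs, mem_chains, and_assoc]
      rw [this, sum_congr rfl (g := fun _ => (-1 : ℤ) ^ k), sum_const, nsmul_eq_mul]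
      intro c hc
      rw [(mem_chains.1 hc).2.2]
    · intro c hc
      rw [mem_chs] at hc
      have := h c hc.1 hc.2
      rw [mem_range]
      omega
  have e0 : chains A 0 = {∅} := by
    ext c
    rw [mem_chains, mem_singleton, card_eq_zero]
    exact ⟨fun h => h.2.2, fun h => by subst h; simp [IsChain]⟩
  unfold chi chi4
  rw [e]
  simp only [sum_range_succ, range_zero, sum_empty, e0, card_singleton]
  push_cast
  ring

section fields

variable [DecidableEq α] {K : Type*} [Field K]

theorem ker_d0_le {A : Finset α} (hc : Cn A) :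
    finrank K (LinearMap.ker (mat K A 1).mulVecLin) ≤ 1 := by
  rcases A.eq_empty_or_nonempty with rfl | ⟨x0, h0⟩
  · refine (Submodule.finrank_le _).trans ?_
    have : chains (∅ : Finset α) 1 = ∅ :=
      Dim.chains_eq (n := 0) (fun c hc _ => by simp [subset_empty.1 hc]) one_pos
    simp [this]
  let ev : LinearMap.ker (mat K A 1).mulVecLin →ₗ[K] K :=
    (LinearMap.proj ⟨{x0}, single_mem h0⟩).comp (Submodule.subtype _)
  have hinj : Function.Injective ev := by
    rw [← LinearMap.ker_eq_bot, LinearMap.ker_eq_bot']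
    rintro ⟨ψ, hψ⟩ h
    have h1 : ψ ⟨{x0}, single_mem h0⟩ = 0 := h
    have key : ∀ a ∈ A, ∀ b ∈ A, a ≤ b → ex ψ {a} = ex ψ {b} := by
      intro a ha b hb hab
      rcases hab.eq_or_lt with rfl | hab
      · rfl
      have := congrFun (LinearMap.mem_ker.1 hψ) ⟨_, pair_mem ha hb hab⟩
      rw [Matrix.mulVecLin_apply, mat_mulVec, dd_pair _ hab] at this
      exact (sub_eq_zero.1 this).symm
    apply Subtype.ext
    funext c
    obtain ⟨y, hy⟩ := card_eq_one.1 (mem_chains.1 c.2).2.2
    have hyA : y ∈ A := (mem_chains.1 c.2).1 (by simp [hy])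
    have : ex ψ {x0} = ex ψ {y} := (hc x0 h0 y hyA).eq (g := fun a => ex ψ {a}) key
    rw [ex_mem _ (single_mem h0), h1, ← hy, ex_mem _ c.2] at this
    exact this.symm
  simpa using LinearMap.finrank_le_finrank_of_injective hinj

/-- the space of cycles with `k + 1` elements. -/
noncomputable abbrev Cyc (K : Type*) [Field K] (A : Finset α) (k : ℕ) : Submodule K (chains A (k + 1) → K) :=
  LinearMap.ker (mat K A k).transpose.mulVecLin

theorem mem_cyc {A : Finset α} {k : ℕ} {u : chains A (k + 1) → K} :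
    u ∈ Cyc K A k ↔ Matrix.vecMul u (mat K A k) = 0 := by
  rw [LinearMap.mem_ker, Matrix.mulVecLin_apply, Matrix.mulVec_transpose]

theorem rank_add_cyc (A : Finset α) (k : ℕ) :
    finrank K (LinearMap.range (mat K A k).mulVecLin) + finrank K (Cyc K A k) =
      (chains A (k + 1)).card := by
  have h1 := LinearMap.finrank_range_add_finrank_ker (mat K A k).transpose.mulVecLin
  have h2 := Matrix.rank_transpose (mat K A k)
  unfold Matrix.rank at h2
  rw [h2] at h1
  simpa using h1

theorem rank_add_ker (A : Finset α) (k : ℕ) :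
    finrank K (LinearMap.range (mat K A k).mulVecLin) +
      finrank K (LinearMap.ker (mat K A k).mulVecLin) = (chains A k).card := by
  simpa using LinearMap.finrank_range_add_finrank_ker (mat K A k).mulVecLin

theorem cyc_eq_bot {A : Finset α} {k : ℕ}
    (h : ∀ u : chains A (k + 1) → K, Matrix.vecMul u (mat K A k) = 0 → u = 0) :
    finrank K (Cyc K A k) = 0 := by
  rw [Submodule.finrank_eq_zero, eq_bot_iff]
  intro u hu
  exact h u (mem_cyc.1 hu)

theorem PM.cyc_le {P : Finset α} {n : ℕ} (h : PM P n) : finrank K (Cyc K P n) ≤ 1 := by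
  rcases (chains P (n + 1)).eq_empty_or_nonempty with h0 | ⟨c0, h0⟩
  · refine (Submodule.finrank_le _).trans ?_
    simp [h0]
  let ev : Cyc K P n →ₗ[K] K := (LinearMap.proj ⟨c0, h0⟩).comp (Submodule.subtype _)
  have hinj : Function.Injective ev := by
    rw [← LinearMap.ker_eq_bot, LinearMap.ker_eq_bot']
    rintro ⟨u, hu⟩ hz
    have h1 : u ⟨c0, h0⟩ = 0 := hz
    have key : ∀ e ∈ chains P n, bd P n (ex u) e = 0 := fun e he => by
      have := congrFun (mem_cyc.1 hu) ⟨e, he⟩
      rwa [vecMul_mat] at this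
    apply Subtype.ext
    funext c
    have hc := h.conn c0 h0 c.1 c.2
    have : ex u c.1 = 0 := by
      generalize c.1 = d at hc
      induction hc with
      | refl => rw [ex_mem _ h0, h1]
      | tail _ h2 ih => exact h.step key h2 ih
    rwa [ex_mem u c.2] at this
  simpa using LinearMap.finrank_le_finrank_of_injective hinj

/-- a free facet kills the top cycles. -/
theorem PM.cyc_free {P : Finset α} {n : ℕ} (h : PM P n) {e c0 : Finset α} (he : e ∈ chains P n)
    (h0 : c0 ∈ chains P (n + 1)) (hec : e ⊆ c0)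
    (hf : ∀ c ∈ chains P (n + 1), e ⊆ c → c = c0) : finrank K (Cyc K P n) = 0 := by
  refine cyc_eq_bot fun u hu => ?_
  have key : ∀ e ∈ chains P n, bd P n (ex u) e = 0 := fun e he => by
    have := congrFun hu ⟨e, he⟩
    rwa [vecMul_mat] at this
  have z0 : ex u c0 = 0 := by
    have := key e he
    unfold bd at this
    rw [sum_eq_single c0] at this
    · refine (mul_eq_zero.1 this).resolve_right (coef_ne hec ?_)
      rw [(mem_chains.1 h0).2.2, (mem_chains.1 he).2.2]
    · intro c hc hcb
      rw [coef_zero fun h3 => hcb (hf c hc h3), mul_zero]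
    · intro h3
      exact absurd h0 h3
  funext c
  have hc := h.conn c0 h0 c.1 c.2
  have : ex u c.1 = 0 := by
    generalize c.1 = d at hc
    induction hc with
    | refl => exact z0
    | tail _ h2 ih => exact h.step key h2 ih
  rwa [ex_mem u c.2] at this

/-- a cocycle read as a cochain on the 2-element chains. -/
theorem exists_coch {A : Finset α} {z : α → α → K} (hz : Kh11.Coc A z) :
    ∃ φ : chains A 2 → K, (mat K A 2).mulVec φ = 0 ∧
      ∀ x ∈ A, ∀ y ∈ A, x < y → ex φ {x, y} = z x y := by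
  choose x hx y hy hxy hc using fun c : chains A 2 => eq_pair c.2
  have key : ∀ a ∈ A, ∀ b ∈ A, a < b → ex (fun c => z (x c) (y c)) {a, b} = z a b := by
    intro a ha b hb hab
    rw [ex_mem _ (pair_mem ha hb hab)]
    set c : chains A 2 := ⟨_, pair_mem ha hb hab⟩
    have e : ({a, b} : Finset α) = {x c, y c} := hc c
    have m1 : a ∈ ({x c, y c} : Finset α) := e ▸ (by simp)
    have m2 : b ∈ ({x c, y c} : Finset α) := e ▸ (by simp)
    simp only [mem_insert, mem_singleton] at m1 m2
    rcases m1 with m1 | m1 <;> rcases m2 with m2 | m2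
    · exact absurd (m1.trans m2.symm) hab.ne
    · rw [← m1, ← m2]
    · exact absurd (m1 ▸ m2 ▸ hxy c) (lt_asymm hab)
    · exact absurd (m1.trans m2.symm) hab.ne
  refine ⟨fun c => z (x c) (y c), funext fun c => ?_, key⟩
  obtain ⟨h1, h2, h3⟩ := mem_chains.1 c.2
  obtain ⟨t, ht, htop⟩ := Kh11.exists_top h2 (card_pos.1 (by omega))
  obtain ⟨a, ha, b, hb, hab, he⟩ := eq_pair (erase_mem_chains c.2 ht)
  have hb' : b ∈ c.1.erase t := he ▸ (by simp)
  have hbt : b < t := lt_of_le_of_ne (htop b (mem_of_mem_erase hb')) (ne_of_mem_erase hb')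
  have ec : c.1 = {a, b, t} := by
    rw [← insert_erase ht, he]
    ext s
    simp only [mem_insert, mem_singleton]
    tauto
  rw [mat_mulVec, ec, dd_triple _ hab hbt, key b hb t (h1 ht) hbt, key a ha b hb hab,
    key a ha t (h1 ht) (hab.trans hbt), hz a ha b hb t (h1 ht) hab.le hbt.le]
  simp

/-- Euler characteristic of a connected 2-dimensional poset: `χ ≤ 1 + (top cycles)`, one less if
some cocycle is not a coboundary. -/
theorem chi_le_of_dim_three {A : Finset α} (hd : Dim A 3) (hc : Cn A) :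
    chi A ≤ 1 + finrank K (Cyc K A 2) ∧
      ∀ z : α → α → K, Kh11.Coc A z → ¬ Kh11.Ex A z → chi A ≤ finrank K (Cyc K A 2) := by
  have e0 := rank_add_ker (K := K) A 1
  have e1 := rank_add_ker (K := K) A 2
  have e2 := rank_add_cyc (K := K) A 2
  have k0 := ker_d0_le (K := K) hc
  have hle : LinearMap.range (mat K A 1).mulVecLin ≤ LinearMap.ker (mat K A 2).mulVecLin := by
    rintro _ ⟨ψ, rfl⟩
    exact mat_mat ψ
  have l0 : finrank K (LinearMap.range (mat K A 1).mulVecLin) ≤
      finrank K (LinearMap.ker (mat K A 2).mulVecLin) := Submodule.finrank_mono hle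
  have hχ : chi A = ((chains A 1).card : ℤ) - (chains A 2).card + (chains A (2 + 1)).card := by
    rw [chi_eq_chi4 (hd.le (by norm_num)), chi4, hd.chains_eq (k := 4) (by norm_num)]
    simp
  refine ⟨by omega, fun z hz hn => ?_⟩
  obtain ⟨φ, hφ, hv⟩ := exists_coch hz
  have hlt : LinearMap.range (mat K A 1).mulVecLin < LinearMap.ker (mat K A 2).mulVecLin := by
    refine lt_of_le_of_ne hle fun e => hn ?_
    have : φ ∈ LinearMap.range (mat K A 1).mulVecLin := e ▸ (LinearMap.mem_ker.2 hφ)
    obtain ⟨ψ, hψ⟩ := this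
    refine ⟨fun x => ex ψ {x}, fun x hx y hy hxy => ?_⟩
    rcases hxy.eq_or_lt with rfl | hxy
    · rw [hz.self hx, sub_self]
    have := congrFun hψ ⟨_, pair_mem hx hy hxy⟩
    rw [Matrix.mulVecLin_apply, mat_mulVec, dd_pair _ hxy] at this
    rw [← hv x hx y hy hxy, ex_mem _ (pair_mem hx hy hxy), ← this]
  have l1 : finrank K (LinearMap.range (mat K A 1).mulVecLin) <
      finrank K (LinearMap.ker (mat K A 2).mulVecLin) := Submodule.finrank_lt_finrank_of_lt hlt
  omega

end fields

/-- on a connected set a cocycle can be normalised to vanish along a connected family of pairs. -/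
theorem exists_tree {G : Type*} [AddCommGroup G] {A : Finset α} (hc : Cn A) (z : α → α → G)
    {x0 : α} (h0 : x0 ∈ A) :
    ∃ a : α → G, ∀ {γ : Type} (g : α → γ), (∀ x ∈ A, ∀ y ∈ A, x < y → z x y = a y - a x →
      g x = g y) → ∀ x ∈ A, g x0 = g x := by
  classical
  have main : ∀ n : ℕ, n + 1 ≤ A.card → ∃ S ⊆ A, x0 ∈ S ∧ S.card = n + 1 ∧ ∃ a : α → G,
      ∀ {γ : Type} (g : α → γ), (∀ x ∈ S, ∀ y ∈ S, x < y → z x y = a y - a x →
      g x = g y) → ∀ x ∈ S, g x0 = g x := by
    intro n
    induction n with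
    | zero => exact fun _ => ⟨{x0}, by simpa using h0, by simp, by simp, 0, by simp⟩
    | succ n ih =>
      intro hn
      obtain ⟨S, hS, hx0, hcard, a, ha⟩ := ih (by omega)
      obtain ⟨y, hy, hyS⟩ : ∃ y ∈ A, y ∉ S := by
        by_contra h
        push Not at h
        have := card_le_card (show A ⊆ S from h)
        omega
      obtain ⟨p, hp, q, hq, hqS, hpq⟩ : ∃ p ∈ S, ∃ q ∈ A, q ∉ S ∧ (p ≤ q ∨ q ≤ p) := by
        by_contra h
        push Not at h
        refine hyS ((hc x0 h0 y hy).ind (p := fun t => t ∈ S) hx0 fun u hu v hv huv => ?_)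
        constructor
        · intro h1
          by_contra h2
          exact (h u h1 v hv h2).1 huv
        · intro h1
          by_contra h2
          exact (h v h1 u hu h2).2 huv
      have hne : p ≠ q := fun e => hqS (e ▸ hp)
      let a' : α → G := Function.update a q (if p ≤ q then a p + z p q else a p - z q p)
      have hS' : ∀ t ∈ S, a' t = a t := fun t ht =>
        Function.update_of_ne (fun e : t = q => hqS (e ▸ ht)) _ _
      refine ⟨insert q S, insert_subset hq hS, mem_insert_of_mem hx0,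
        by rw [card_insert_of_notMem hqS, hcard], a', fun g hg x hx => ?_⟩
      have old := ha g fun u hu v hv huv e =>
        hg u (mem_insert_of_mem hu) v (mem_insert_of_mem hv) huv (by rw [hS' u hu, hS' v hv, e])
      rcases mem_insert.1 hx with rfl | hx
      · rw [old p hp]
        by_cases h : p ≤ x
        · refine hg p (mem_insert_of_mem hp) x hx (lt_of_le_of_ne h hne) ?_
          rw [hS' p hp]
          simp [a', h]
        · refine (hg x hx p (mem_insert_of_mem hp)
            (lt_of_le_of_ne (hpq.resolve_left h) hne.symm) ?_).symm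
          rw [hS' p hp]
          simp [a', h]
      · exact old x hx
  obtain ⟨S, hS, -, hcard, a, ha⟩ := main (A.card - 1) (by have := card_pos.2 ⟨x0, h0⟩; omega)
  have e : S = A := eq_of_subset_of_card_le hS (by have := card_pos.2 ⟨x0, h0⟩; omega)
  subst e
  exact ⟨a, ha⟩

/-- `H^1 = 0` over all fields gives `H^1 = 0` for all coefficients. -/
theorem h1z_of_fields {A : Finset α} (hc : Cn A)
    (h : ∀ (K : Type) [Field K] (z : α → α → K), Kh11.Coc A z → Kh11.Ex A z) : H1z A := by
  classical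
  intro G _ z hz
  rcases A.eq_empty_or_nonempty with rfl | ⟨x0, h0⟩
  · exact ⟨0, by simp⟩
  obtain ⟨a, ha⟩ := exists_tree hc z h0
  let w : α → α → G := fun x y => z x y - (a y - a x)
  let T : Finset G := ((A ×ˢ A).filter fun p => p.1 ≤ p.2).image fun p => w p.1 p.2
  let M : Submodule ℤ G := Submodule.span ℤ (T : Set G)
  have hM : ∀ x ∈ A, ∀ y ∈ A, x ≤ y → w x y ∈ M := fun x hx y hy hxy =>
    Submodule.subset_span (mem_coe.2 (mem_image.2 ⟨(x, y), by simp [hx, hy, hxy], rfl⟩))
  by_cases hb : M = ⊥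
  · refine ⟨a, fun x hx y hy hxy => ?_⟩
    have := hM x hx y hy hxy
    rw [hb, Submodule.mem_bot] at this
    exact sub_eq_zero.1 this
  exfalso
  haveI : Module.Finite ℤ M := Module.Finite.span_of_finite ℤ T.finite_toSet
  haveI : Nontrivial M := Submodule.nontrivial_iff_ne_bot.2 hb
  obtain ⟨N, hN⟩ : ∃ N : Submodule ℤ M, IsCoatom N := by
    rcases eq_top_or_exists_le_coatom (⊥ : Submodule ℤ M) with h1 | ⟨N, hN, -⟩
    · exact absurd h1 bot_ne_top
    · exact ⟨N, hN⟩
  obtain ⟨I, hI, ⟨e⟩⟩ := isSimpleModule_iff_quot_maximal.1 (isSimpleModule_iff_isCoatom.2 hN)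
  letI := Ideal.Quotient.field I
  let π : M →ₗ[ℤ] ℤ ⧸ I := e.toLinearMap.comp N.mkQ
  let v : α → α → ℤ ⧸ I := fun x y => if h : w x y ∈ M then π ⟨w x y, h⟩ else 0
  have hv : Kh11.Coc A v := by
    intro x hx y hy t ht h1 h2
    simp only [v, dif_pos (hM x hx y hy h1), dif_pos (hM y hy t ht h2),
      dif_pos (hM x hx t ht (h1.trans h2))]
    rw [← map_add]
    congr 1
    apply Subtype.ext
    simp only [w, Submodule.coe_add, hz x hx y hy t ht h1 h2]
    abel
  obtain ⟨b, hb'⟩ := h _ v hv
  have hconst := ha b fun x hx y hy hxy e0 => by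
    have h1 := hb' x hx y hy hxy.le
    have h2 : w x y = 0 := sub_eq_zero.2 e0
    simp only [v, dif_pos (hM x hx y hy hxy.le)] at h1
    rw [show (⟨w x y, hM x hx y hy hxy.le⟩ : M) = 0 from Subtype.ext h2, map_zero] at h1
    exact (sub_eq_zero.1 h1.symm).symm
  apply hN.1
  rw [eq_top_iff]
  rintro ⟨m, hm⟩ -
  have : ∀ m (hm : m ∈ M), (⟨m, hm⟩ : M) ∈ N := by
    intro m hm
    induction hm using Submodule.span_induction with
    | mem g hg =>
      obtain ⟨⟨x, y⟩, hp, rfl⟩ := mem_image.1 (mem_coe.1 hg)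
      simp only [mem_filter, mem_product] at hp
      have h1 := hb' x hp.1.1 y hp.1.2 hp.2
      rw [← hconst x hp.1.1, ← hconst y hp.1.2, sub_self] at h1
      simp only [v, dif_pos (hM x hp.1.1 y hp.1.2 hp.2)] at h1
      have h2 : N.mkQ ⟨w x y, hM x hp.1.1 y hp.1.2 hp.2⟩ = 0 := e.injective (by simpa [π] using h1)
      exact (Submodule.Quotient.mk_eq_zero N).1 h2
    | zero => exact N.zero_mem
    | add x y hx hy ih1 ih2 => exact N.add_mem ih1 ih2
    | smul r x hx ih => exact N.smul_mem r ih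
  exact this m hm

/-- closed connected surface: `χ ≤ 2`. -/
theorem PM.chi_le_two {A : Finset α} (h : PM A 2) (hd : Dim A 3) (hc : Cn A) : chi A ≤ 2 := by
  classical
  have h1 := (chi_le_of_dim_three (K := ℚ) hd hc).1
  have h2 := h.cyc_le (K := ℚ)
  omega

/-- SPHERE: `χ = 2` kills `H^1` (all coefficients). -/
theorem PM.h1z_of_chi_two {A : Finset α} (h : PM A 2) (hd : Dim A 3) (hc : Cn A)
    (hχ : 2 ≤ chi A) : H1z A := by
  classical
  refine h1z_of_fields hc fun K _ z hz => ?_
  by_contra hn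
  have h1 := (chi_le_of_dim_three (K := K) hd hc).2 z hz hn
  have h2 := h.cyc_le (K := K)
  omega

/-- no top cycle over any field. -/
def NoCyc [DecidableEq α] (A : Finset α) (k : ℕ) : Prop :=
  ∀ (K : Type) [Field K], finrank K (Cyc K A k) = 0

theorem PM.noCyc_sub [DecidableEq α] {P A : Finset α} {n : ℕ} (h : PM P n) (hA : A ⊆ P)
    {c0 : Finset α} (h0 : c0 ∈ chains P (n + 1)) (h0A : ¬ c0 ⊆ A) : NoCyc A n :=
  fun _ _ => cyc_eq_bot fun u hu => h.cyc_zero hA h0 h0A u hu

theorem PM.noCyc_free [DecidableEq α] {P : Finset α} {n : ℕ} (h : PM P n) {e c0 : Finset α}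
    (he : e ∈ chains P n) (h0 : c0 ∈ chains P (n + 1)) (hec : e ⊆ c0)
    (hf : ∀ c ∈ chains P (n + 1), e ⊆ c → c = c0) : NoCyc P n :=
  fun _ _ => h.cyc_free he h0 hec hf

/-- connected surface with boundary: `χ ≤ 1`. -/
theorem NoCyc.chi_le_one [DecidableEq α] {A : Finset α} (h : NoCyc A 2) (hd : Dim A 3)
    (hc : Cn A) : chi A ≤ 1 := by
  have h1 := (chi_le_of_dim_three (K := ℚ) hd hc).1
  have h2 := h ℚ
  omega

/-- DISC: connected, no top cycle, `χ = 1` gives `Ctr`. -/
theorem NoCyc.ctr [DecidableEq α] {A : Finset α} (h : NoCyc A 2) (hd : Dim A 3) (hc : Cn A)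
    (hχ : 1 ≤ chi A) : Ctr A := by
  refine ⟨?_, hc, le_antisymm (h.chi_le_one hd hc) hχ, h1z_of_fields hc fun K _ z hz => ?_⟩
  · rcases A.eq_empty_or_nonempty with rfl | h1
    · rw [Kh11.chi_empty] at hχ
      omega
    · exact h1
  · by_contra hn
    have h1 := (chi_le_of_dim_three (K := K) hd hc).2 z hz hn
    have h2 := h K
    omega

/-- HALF on `Kh11` names. -/
theorem NoCyc.exists_coc [DecidableEq α] {A : Finset α} (h : NoCyc A 3) (hd : Dim A 4)
    (hne : A.Nonempty) (hχ : chi A ≤ 0) :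
    ∃ w : α → α → ℤ, Kh11.Coc A w ∧ ¬ Kh11.Ex A w ∧ ¬ Kh11.Ex A fun x y => (w x y : ℚ) := by
  by_contra hc
  have := one_le_chi4 (K := ℚ) hne (fun u hu => by
    have := h ℚ
    rw [Submodule.finrank_eq_zero, eq_bot_iff] at this
    exact this (mem_cyc.2 hu)) fun z hz => by
    by_contra hn
    obtain ⟨w, hw, hn'⟩ := exists_int_coc hz hn
    exact hc ⟨w, hw, fun h' => hn' (FEx.cast h'), hn'⟩
  rw [chi_eq_chi4 hd] at hχ
  omega

end Crest.Agent.X212.Alg36
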